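import Vale.Agent.P106.U.H543.TopR
import Vale.Agent.P106.U.H300.YC
import Vale.Agent.P106.U.MIC.Props

/-!
# P106 / U / H122 : the direction is nonatomic given the cells of the base cap (helper122)

`R : S3.Run`, base cap `b = R.m * R.b1`, `Cap.act`: `colp Q (Y b1) W' ≤ ε`.

* `cell_run` : same `W'` and not `Bad` ⇒ same cell of the step `k` at the cap `b`.
* `colp_runD`, `colp_runE` : collision of the digits `b + g` of the direction given a near-function of `W'`, also with a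
  letter with few values.
* `cYc_run` : given the cell, every regime; `cY_run` : `MIC.cY` (given `Dp`) in the phi regime.
-/

set_option autoImplicit false

namespace Vale.Agent.P106.U.H122

open Finset Vale.Agent.P127 Vale.Agent.P127.Stk Vale.Agent.P127.U Vale.Agent.P106.W Vale.Agent.P106.K
open Vale.Agent.P127.U.CellD (q2 rd Nb q2_pos q2_le q2_add)
open Vale.Agent.P127.U.Mic (colp colp_mono_cond colp_mono_var colp_nonneg)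
open Vale.Agent.P106.U.Cell (Pth Ray)
open Vale.Agent.P106.U.S3 (Run)
open Vale.Agent.P106.U.Top543
open Vale.Agent.P106.U.H683 (Dp slR)

section

variable {Ω : Type} [Fintype Ω] {τ υ : Type} {R : Run Ω τ υ} {p : Run.Num} {K c' g' gU : ℝ}

/-- digits `b + g` of the direction given `W'` -/
theorem colp_v_W {ε : ℝ} (hact : colp R.Q (R.Y R.b1) R.W' ≤ ε) {g : ℕ} (hg : R.m ≤ g) :
    colp R.Q (fun ω => fl1 (R.m * R.b1 + g) (R.C.l ω).v) R.W' ≤ ε := by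
  refine le_trans (colp_mono_var R.Q _ ?_) hact
  intro x y _ _ e
  have h2 : fl1 (R.m * R.b1 + g) (R.C.l x).v = fl1 (R.m * R.b1 + g) (R.C.l y).v := (Prod.mk.inj e).1
  show fl1 (R.m * (R.b1 + 1)) (R.C.l x).v - 2 ^ R.m * fl1 (R.m * R.b1) (R.C.l x).v =
    fl1 (R.m * (R.b1 + 1)) (R.C.l y).v - 2 ^ R.m * fl1 (R.m * R.b1) (R.C.l y).v
  have h3 : R.m * (R.b1 + 1) ≤ R.m * R.b1 + g := by rw [Nat.mul_add]; omega
  rw [CellD.fl1_fl1 h3 h2, CellD.fl1_fl1 (Nat.le_add_right _ _) h2]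

/-- **a near-function of `W'`** -/
theorem colp_runD {ε : ℝ} (hact : colp R.Q (R.Y R.b1) R.W' ≤ ε) {g : ℕ} (hg : R.m ≤ g) {U : Type*} (D : Ω → U)
    (B : Ω → Prop)
    (h : ∀ ω ω', 0 < R.Q.w ω → 0 < R.Q.w ω' → ¬ B ω → ¬ B ω' → R.W' ω = R.W' ω' → D ω = D ω') :
    colp R.Q (fun ω => fl1 (R.m * R.b1 + g) (R.C.l ω).v) D ≤ 2 * ε + 3 * prE R.Q B := by
  have h1 := H300.colp_bad R.Q (fun ω => fl1 (R.m * R.b1 + g) (R.C.l ω).v) D R.W' B h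
  have h2 := colp_v_W hact hg
  linarith

/-- **a near-function of `W'` and of a letter with few values** -/
theorem colp_runE {ε : ℝ} (hact : colp R.Q (R.Y R.b1) R.W' ≤ ε) {g : ℕ} (hg : R.m ≤ g) {U V : Type*} (D : Ω → U)
    (E : Ω → V) (N : ℕ) (hN : 1 ≤ N)
    (hE : ∀ ω, 0 < R.Q.w ω → ∃ F : Finset V, F.card ≤ N ∧ ∀ ω', 0 < R.Q.w ω' → R.W' ω' = R.W' ω → E ω' ∈ F)
    (B : Ω → Prop)
    (h : ∀ ω ω', 0 < R.Q.w ω → 0 < R.Q.w ω' → ¬ B ω → ¬ B ω' → E ω = E ω' → R.W' ω = R.W' ω' → D ω = D ω') :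
    colp R.Q (fun ω => fl1 (R.m * R.b1 + g) (R.C.l ω).v) D ≤ 4 * Real.sqrt (N * ε) + 3 * prE R.Q B := by
  have h1 := H300.colp_bad R.Q (fun ω => fl1 (R.m * R.b1 + g) (R.C.l ω).v) D (fun ω => (E ω, R.W' ω)) B
    fun ω ω' p1 p2 b1 b2 e => h ω ω' p1 p2 b1 b2 (Prod.mk.inj e).1 (Prod.mk.inj e).2
  have h2 := H300.colp_extra' R.Q (fun ω => fl1 (R.m * R.b1 + g) (R.C.l ω).v) E R.W' N hE hN (colp_v_W hact hg)
  linarith

/-- two points with the same `W'` are close at the base cap -/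
theorem clo_W' (h : R.Ok p K c' g' gU) (hK : 1 ≤ K) {c : ℝ} (hc : 1 ≤ c)
    (hWS : ∀ ω, 0 < R.Q.w ω → Shp c 0 R.q (R.W ω) ∧ Bin c (R.W ω) 0 (bl R.h (R.ry ω) (R.t ω))) {n : ℕ} (hn : n ≤ R.n)
    (hr : 2 * K ^ 2 * q2 (R.C.rk n) ≤ 1) (ha : R.C.a n ≤ p.A') (hA : p.A' + 2 * (R.m * R.b1) ≤ R.h)
    (hq : R.C.R n (R.m * R.b1) + R.m * R.b1 ≤ R.q)
    (hb : (3 * K) ^ 2 * (6 * c ^ 2 * K) * q2 (2 * (R.m * R.b1)) ≤ 1) {ω ω' : Ω} (hω : 0 < R.Q.w ω)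
    (hω' : 0 < R.Q.w ω') (e : R.W' ω = R.W' ω') :
    R.C.Clo n (R.m * R.b1) (H364.N4.cst (3 * K) (6 * c ^ 2 * K)) ω ω' := by
  have e0 : R.F R.b1 ω = R.F R.b1 ω' := h.W0 ω ω' hω hω' e
  simp only [Run.F, Prod.mk.injEq] at e0
  exact clo_run h hK hc hWS hn hr ha hA hq hb hω hω' (h.fnT n (by omega) ω ω' hω hω' e) e0.2 e0.1.1 e0.1.2

/-- **the cell of the base cap is a function of `W'` off `Bad`** -/
theorem cell_run (h : R.Ok p K c' g' gU) (hK : 1 ≤ K) {c : ℝ} (hc : 1 ≤ c)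
    (hWS : ∀ ω, 0 < R.Q.w ω → Shp c 0 R.q (R.W ω) ∧ Bin c (R.W ω) 0 (bl R.h (R.ry ω) (R.t ω))) {n : ℕ} (hn : n ≤ R.n)
    (hlev : R.C.Lev n (R.m * R.b1))
    (hr : 2 * K ^ 2 * q2 (R.C.rk n) ≤ 1) (ha : R.C.a n ≤ p.A') (hA : p.A' + 2 * (R.m * R.b1) ≤ R.h)
    (hq : R.C.R n (R.m * R.b1) + R.m * R.b1 ≤ R.q)
    (hb : (3 * K) ^ 2 * (6 * c ^ 2 * K) * q2 (2 * (R.m * R.b1)) ≤ 1) {ω ω' : Ω} (hω : 0 < R.Q.w ω)
    (hω' : 0 < R.Q.w ω')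
    (hB : ¬ R.C.Bad (4 * H364.N4.cst (3 * K) (6 * c ^ 2 * K)) n (R.m * R.b1) ω) (e : R.W' ω = R.W' ω') :
    R.C.cell n (R.m * R.b1) ω = R.C.cell n (R.m * R.b1) ω' := by
  have hM : 1 ≤ 6 * c ^ 2 * K := by
    have : 1 ≤ c ^ 2 := one_le_pow₀ hc
    nlinarith
  exact (clo_W' h hK hc hWS hn hr ha hA hq hb hω hω' e).cell hlev (H364.N4.one_le_cst (by linarith) hM) hB

/-- **`y` given the cell of the base cap, every regime** -/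
theorem cYc_run (h : R.Ok p K c' g' gU) (hK : 1 ≤ K) {c : ℝ} (hc : 1 ≤ c)
    (hWS : ∀ ω, 0 < R.Q.w ω → Shp c 0 R.q (R.W ω) ∧ Bin c (R.W ω) 0 (bl R.h (R.ry ω) (R.t ω))) {n : ℕ} (hn : n ≤ R.n)
    (hlev : R.C.Lev n (R.m * R.b1))
    (hr : 2 * K ^ 2 * q2 (R.C.rk n) ≤ 1) (ha : R.C.a n ≤ p.A') (hA : p.A' + 2 * (R.m * R.b1) ≤ R.h)
    (hq : R.C.R n (R.m * R.b1) + R.m * R.b1 ≤ R.q)
    (hb : (3 * K) ^ 2 * (6 * c ^ 2 * K) * q2 (2 * (R.m * R.b1)) ≤ 1) {ε : ℝ}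
    (hact : colp R.Q (R.Y R.b1) R.W' ≤ ε) {g : ℕ} (hg : R.m ≤ g) :
    colp R.Q (fun ω => fl1 (R.m * R.b1 + g) (R.C.l ω).v) (R.C.cell n (R.m * R.b1)) ≤
      2 * ε + 3 * prE R.Q (R.C.Bad (4 * H364.N4.cst (3 * K) (6 * c ^ 2 * K)) n (R.m * R.b1)) :=
  colp_runD hact hg _ _ fun _ _ hω hω' hB _ e => cell_run h hK hc hWS hn hlev hr ha hA hq hb hω hω' hB e

/-- the slopes of two points with the same `W'` -/
theorem slR_W' (h : R.Ok p K c' g' gU) (hK : 1 ≤ K) {c : ℝ} (hc : 1 ≤ c)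
    (hWS : ∀ ω, 0 < R.Q.w ω → Shp c 0 R.q (R.W ω) ∧ Bin c (R.W ω) 0 (bl R.h (R.ry ω) (R.t ω))) {n : ℕ} (hn : n ≤ R.n)
    (hr : 2 * K ^ 2 * q2 (R.C.rk n) ≤ 1) (ha : R.C.a n ≤ p.A') (hA : p.A' + 2 * (R.m * R.b1) ≤ R.h)
    (hq : R.m * R.b1 ≤ R.q)
    (hb : (3 * K) ^ 2 * (6 * c ^ 2 * K) * q2 (2 * (R.m * R.b1)) ≤ 1) {ω ω' : Ω} (hω : 0 < R.Q.w ω)
    (hω' : 0 < R.Q.w ω') (e : R.W' ω = R.W' ω') :
    |slR R.C n (R.m * R.b1) ω' - slR R.C n (R.m * R.b1) ω| ≤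
      (40 * ((3 * K) ^ 5 * (6 * c ^ 2 * K)) + 2 * K) * q2 (R.C.R n (R.m * R.b1)) := by
  have e0 : R.F R.b1 ω = R.F R.b1 ω' := h.W0 ω ω' hω hω' e
  simp only [Run.F, Prod.mk.injEq] at e0
  obtain ⟨⟨eW, et⟩, ev⟩ := e0
  have eT : R.C.T n ω = R.C.T n ω' := h.fnT n (by omega) ω ω' hω hω' e
  have hK3 : 1 ≤ 3 * K := by linarith
  have hM : 1 ≤ 6 * c ^ 2 * K := by
    have : 1 ≤ c ^ 2 := one_le_pow₀ hc
    nlinarith
  have hw := okW_run h hK hn hr (by omega) hω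
  have hw' := okW_run h hK hn hr (by omega) hω'
  have e0 : R.F 0 ω' = R.F 0 ω := by
    show ((R.W ω', fl1 R.h (R.t ω')), fl1 (R.m * 0) (R.C.l ω').v) = ((R.W ω, fl1 R.h (R.t ω)), fl1 (R.m * 0) (R.C.l ω).v)
    rw [eW, et, CellD.fl1_fl1 (show R.m * 0 ≤ R.m * R.b1 by omega) ev]
  have eF : R.FW ω' = R.FW ω := h.FWf ω' ω hω' hω e0
  rw [eF, ← tW_eq et] at hw'
  have h1 := H364.N4.phW hK3 hM (ok_mono hK (by linarith) (h.ok _ hω)) (ok_mono hK (by linarith) (h.ok _ hω')) hw hw' eT ev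
    hA hq hb (clW_run h hK hc hWS hω hω' eW et)
  rw [← Pth.sl_sub eT ev] at h1
  have h2 : |slR R.C n (R.m * R.b1) ω - R.C.sl n (R.m * R.b1) ω| ≤ K * q2 (R.C.R n (R.m * R.b1)) := by
    have := H683.slR_near (i := n) (b := R.m * R.b1) (h.ok _ hω)
    unfold H683.Bd at this
    rw [Nat.cast_one, one_mul, pow_one] at this
    exact this.trans (mul_le_mul_of_nonneg_left (q2_le (Pth.R_le_rf _ _)) (by linarith))
  have h3 : |slR R.C n (R.m * R.b1) ω' - R.C.sl n (R.m * R.b1) ω'| ≤ K * q2 (R.C.R n (R.m * R.b1)) := by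
    have := H683.slR_near (i := n) (b := R.m * R.b1) (h.ok _ hω')
    unfold H683.Bd at this
    rw [Nat.cast_one, one_mul, pow_one] at this
    exact this.trans (mul_le_mul_of_nonneg_left (q2_le (Pth.R_le_rf _ _)) (by linarith))
  have e1 : slR R.C n (R.m * R.b1) ω' - slR R.C n (R.m * R.b1) ω =
      (slR R.C n (R.m * R.b1) ω' - R.C.sl n (R.m * R.b1) ω') + (R.C.sl n (R.m * R.b1) ω' - R.C.sl n (R.m * R.b1) ω) +
      -(slR R.C n (R.m * R.b1) ω - R.C.sl n (R.m * R.b1) ω) := by ring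
  rw [e1]
  rw [← abs_neg] at h2
  refine (H364.N4.abs_add3 h3 h1 h2).trans (le_of_eq (by ring))

/-- **`MIC.cY` in the phi regime** -/
theorem cY_run (h : R.Ok p K c' g' gU) (hK : 1 ≤ K) {c : ℝ} (hc : 1 ≤ c)
    (hWS : ∀ ω, 0 < R.Q.w ω → Shp c 0 R.q (R.W ω) ∧ Bin c (R.W ω) 0 (bl R.h (R.ry ω) (R.t ω))) {n : ℕ} (hn : n ≤ R.n)
    (hlev : R.C.Lev n (R.m * R.b1)) (hphi : R.C.rf n ≤ R.m * R.b1 + R.C.rk n)
    (hr : 2 * K ^ 2 * q2 (R.C.rk n) ≤ 1) (ha : R.C.a n ≤ p.A') (hA : p.A' + 2 * (R.m * R.b1) ≤ R.h)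
    (hq : R.C.R n (R.m * R.b1) + R.m * R.b1 ≤ R.q)
    (hb : (3 * K) ^ 2 * (6 * c ^ 2 * K) * q2 (2 * (R.m * R.b1)) ≤ 1) {N : ℕ}
    (hN : 40 * ((3 * K) ^ 5 * (6 * c ^ 2 * K)) + 2 * K ≤ N) {ε : ℝ}
    (hact : colp R.Q (R.Y R.b1) R.W' ≤ ε) {g : ℕ} (hg : R.m ≤ g) :
    MIC.cY R.Q R.C (R.m * R.b1) n g ≤ 4 * Real.sqrt (((2 * N + 3 : ℕ) : ℝ) * ε) +
      3 * prE R.Q (R.C.Bad (4 * H364.N4.cst (3 * K) (6 * c ^ 2 * K)) n (R.m * R.b1)) := by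
  refine colp_runE hact hg (Dp R.C n (R.m * R.b1))
    (fun ω => fl1 (R.C.rf n) (slR R.C n (R.m * R.b1) ω + R.C.o 4)) (2 * N + 3) (by omega) ?_ _ ?_
  · refine H364.N4.int_card R.Q _ R.W' fun ω ω' hω hω' e => ?_
    refine H364.fl1_le_of_near (M := N) ?_
    rw [add_sub_add_right_eq_sub]
    have h1 := slR_W' h hK hc hWS hn hr ha hA (by omega) hb hω hω' e
    have h2 : R.C.rf n ≤ R.C.R n (R.m * R.b1) := by rw [Pth.R_eq]; omega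
    exact h1.trans (mul_le_mul hN (q2_le h2) (q2_pos _).le (Nat.cast_nonneg _))
  · intro ω ω' hω hω' hB _ e1 e
    exact Prod.ext (cell_run h hK hc hWS hn hlev hr ha hA hq hb hω hω' hB e) e1

end

end Vale.Agent.P106.U.H122
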