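import Vale.Agent.P106.U.H465.PfD
import Vale.Agent.P106.U.H785.Mtr

/-!
# P106 / U / H122 : the hypotheses `Hy` of the true letters from the hypotheses at the cap alone (helper122)

`C2.Hyp` (no prices): for every step `i` the data `mt`, `mt0` of the run satisfy 785's `Hy K {i}`, `K ≥ 8`.
-/

set_option autoImplicit false

namespace Vale.Agent.P106.U.H565

open Finset Vale.Agent.P127 Vale.Agent.P127.Stk Vale.Agent.P127.U Vale.Agent.P106.W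
open Vale.Agent.P106.K (Ry RyOk bl Bin)
open Vale.Agent.P127.U.CellD (q2 rd q2_pos q2_le q2_mul_pow rd_err)
open Vale.Agent.P106.U Vale.Agent.P106.U.H449 Vale.Agent.P106.U.StripL Vale.Agent.P106.U.StripE
open Vale.Agent.P106.U.LinkR Vale.Agent.P106.U.InsL Vale.Agent.P106.U.InpC
open Vale.Agent.P106.U.H823.NumG
open Vale.Agent.P106.U.H428.Cls (Dt)
open Vale.Agent.P106.U.H785.Mtr (Mtd)

namespace C2

variable {Ω : Type} [Fintype Ω] {c : C2 Ω} {hm : 3 ≤ c.I.m} {k0 : ℕ → ℕ} {hk : Monotone k0}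
  {hl : ∀ i, k0 i ≤ c.D.L.k (c.D.ix i)} {Bb : ℕ} {Rm : ℕ} {cc : ℝ} {Ac rc : ℕ}

/-- size of the slope of the line, every step -/
theorem al_B (H : c.Hyp Rm cc Ac rc) (i : ℕ) {ω : Ω} (hω : 0 < c.Q.w ω) : |c.run.al i ω| * q2 (c.run.C.a i) ≤ 2 := by
  have h1 := (hasU H).alB (K := 2) (by have := H.st.al0; linarith) i ω hω
  exact h1

theorem tW_s (H : c.Hyp Rm cc Ac rc) (i : ℕ) (ω : Ω) : |c.tW ω - c.run.C.s i ω| ≤ 2 * q2 (c.run.C.a i) := by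
  have h1 := rd_err c.I.h (c.t ω)
  have h2 := rd_err (c.run.C.a i) (c.t ω)
  have h4 : c.run.C.a i ≤ c.I.h := ((hw H).la_le i).trans (hw H).A'h
  have h3 : q2 c.I.h ≤ q2 (c.run.C.a i) := q2_le h4
  have h5 := abs_sub (rd c.I.h (c.t ω) - c.t ω) (rd (c.run.C.a i) (c.t ω) - c.t ω)
  have e1 : rd c.I.h (c.t ω) - c.t ω - (rd (c.run.C.a i) (c.t ω) - c.t ω) = c.tW ω - c.run.C.s i ω := by
    have e2 : c.run.C.s i ω = rd (c.run.C.a i) (c.t ω) := rfl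
    rw [e2]
    unfold C0.tW
    ring
  rw [e1] at h5
  linarith

/-- kappa of the line -/
theorem ka_B (H : c.Hyp Rm cc Ac rc) (i : ℕ) {ω : Ω} (hω : 0 < c.Q.w ω) : |S3.kaL (c.runX hm) i ω| ≤ 5 := by
  have h1 := al_B H i hω
  have h2 := tW_s H i ω
  have h3 := (H.st.fw ω (sup hω)).ka
  have e : S3.kaL (c.runX hm) i ω = c.κ ω + c.run.al i ω * (c.tW ω - c.run.C.s i ω) := rfl
  have h4 : |c.run.al i ω * (c.tW ω - c.run.C.s i ω)| ≤ 4 := by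
    rw [abs_mul]
    have := mul_le_mul_of_nonneg_left h2 (abs_nonneg (c.run.al i ω))
    nlinarith
  have h5 : |c.κ ω| ≤ 1 / 1000 := h3
  rw [e]
  have := abs_add_le (c.κ ω) (c.run.al i ω * (c.tW ω - c.run.C.s i ω))
  linarith

theorem hy_gen (H : c.Hyp Rm cc Ac rc) {π : Type} {D : Mtd Ω π} {i : ℕ} {K : ℝ} (hK : 8 ≤ K)
    (e1 : D.l = c.run.C.l) (e2 : D.p = c.run.C.p) (e3 : D.un = S3.unL (c.runX hm)) (e4 : D.κ i = S3.kaL (c.runX hm) i)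
    (e5 : D.al i = c.run.al i) (e6 : D.a i = c.run.C.a i) (hμ : D.μ ≤ c.I.m * c.I.B) (hr : 12 * K ^ 2 * q2 (D.rr i) ≤ 1)
    {ω : Ω} (hω : 0 < c.Q.w ω) (ap : |c.run.al i ω - D.g i ω| * q2 (c.run.C.a i) ≤ K * q2 (D.rk i)) : D.Hy K {i} ω := by
  have F := H.st.fw ω (sup hω)
  have q0 := q2_pos (D.rk i)
  refine ⟨?_, ?_, ?_, ?_, ?_, ?_, ?_, ?_, ?_, ?_, ?_⟩
  · rw [e1]; exact F.v2
  · rw [e1]; exact F.w2
  · rw [e2]
    have h1 := F.p1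
    have h2 : q2 Rm ≤ q2 (2 * D.μ + 2) := q2_le (by have := H.st.μR; omega)
    have h3 : q2 (2 * D.μ + 2) = q2 (2 * D.μ) * (1 / 4) := by
      unfold q2
      rw [pow_add]
      norm_num
    show |H465.FWn.pW c.θ c.I.h (c.W ω) (c.l ω) (c.t ω)| ≤ q2 (2 * D.μ)
    linarith
  · rw [e3]
    have := F.c1
    show 1 ≤ K * (H786.Adp.FW c.θ c.I.h (c.W ω) (c.t ω)).cN (H786.Adp.toR c.θ (c.l ω)) (rd c.I.h (c.t ω))
    nlinarith
  · rw [e3]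
    have := F.c2
    show (H786.Adp.FW c.θ c.I.h (c.W ω) (c.t ω)).cN (H786.Adp.toR c.θ (c.l ω)) (rd c.I.h (c.t ω)) ≤ K
    linarith
  · rintro j rfl
    rw [e4]
    have := ka_B (hm := hm) H j hω
    linarith
  · rintro j rfl
    rw [e5, e6]
    have := al_B H j hω
    linarith
  · rintro j rfl
    rw [e5, e6]
    exact ap
  · rintro j rfl j' rfl _
    rw [sub_self, sub_self, zero_mul, sub_zero, abs_zero]
    positivity
  · rintro j rfl j' rfl _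
    rw [sub_self, abs_zero, zero_mul]
    positivity
  · rintro j rfl
    exact hr

/-- **`Hy` of `mt`** -/
theorem hy_mt (H : c.Hyp Rm cc Ac rc) (i : ℕ) {K : ℝ} (hK : 8 ≤ K) {μ : ℕ} (hμ : μ ≤ c.I.m * c.I.B)
    (hr : 12 * K ^ 2 * q2 (c.D.lk i - μ / 2) ≤ 1) (o : Fin 7 → ℝ) (o' : ℕ → ℝ) {ω : Ω} (hω : 0 < c.Q.w ω) :
    (S3.mt (c.runX hm) (c.pfd hm k0 hk hl Bb) μ o o').Hy K {i} ω :=
  hy_gen (hm := hm) (D := S3.mt (c.runX hm) (c.pfd hm k0 hk hl Bb) μ o o') H hK rfl rfl rfl rfl rfl rfl hμ hr hω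
    (gvA (hm := hm) (hk := hk) (hl := hl) (Bb := Bb) H (by linarith) i ω hω)

/-- **`Hy` of `mt0`** -/
theorem hy_mt0 (H : c.Hyp Rm cc Ac rc) (i : ℕ) {K : ℝ} (hK : 8 ≤ K) {μ : ℕ} (hμ : μ ≤ c.I.m * c.I.B)
    (hr : 12 * K ^ 2 * q2 (c.D.r0 + c.D.m * k0 i - μ / 2) ≤ 1) (o : Fin 7 → ℝ) (o' : ℕ → ℝ) {ω : Ω}
    (hω : 0 < c.Q.w ω) : (S3.mt0 (c.runX hm) (c.pfd hm k0 hk hl Bb) μ o o').Hy K {i} ω :=
  hy_gen (hm := hm) (D := S3.mt0 (c.runX hm) (c.pfd hm k0 hk hl Bb) μ o o') H hK rfl rfl rfl rfl rfl rfl hμ hr hω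
    (gv0A (hm := hm) (hk := hk) (hl := hl) (Bb := Bb) H (by linarith) i ω hω)

end C2

end Vale.Agent.P106.U.H565
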