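import Vale.Agent.P106.U.H61.Reg

/-!
# P106 / U / H122 : labels of a path (helper122)

Over helper823's `PN`, labels `(a, r)` from the end of the level (helper61).

* `J_lt_n` : a level before the stop; `lev_stop` : an index of the path, not before the stop, is on the level of the stop.
* `Yg D a r` : the level `a` is diagonal and before the stop, `r ≤ F a - F (a - 1) + 1`; `Yg.li`, `Yg.lk`, `Yg.lf` : level and
  numbers of the label; `yg_of` : the label of an index of a diagonal level.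
* `flick` : a strictly increasing function has at most `y - x` values in `(x, y]`.
-/

set_option autoImplicit false

namespace Vale.Agent.P106.U.H122.Lab2

open Finset Vale.Agent.P106.U
open Vale.Agent.P106.U.H823.PathP Vale.Agent.P106.U.H823.PathNum
open Vale.Agent.P106.U.H61.Reg

section pn

variable {D : PN} {a r k : ℕ}

/-- **a level before the stop** -/
theorem J_lt_n (h1 : D.m * a < D.Ad) (h2 : D.r0 + D.m * D.R a < D.QK) : D.L.J a < D.n := by
  by_contra hc
  push Not at hc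
  have e1 : D.L.lev D.n ≤ a := by
    have := D.L.lev_mono hc
    rwa [D.L.lev_J] at this
  have e2 : D.L.k D.n ≤ D.R a := by
    have := D.L.k_mono hc
    rw [D.L.k_J] at this
    exact this
  rcases D.n_spec with h | h
  · have := Nat.mul_le_mul_left D.m e1
    omega
  · have := Nat.mul_le_mul_left D.m e2
    omega

/-- **an index of the path, not before the stop** -/
theorem lev_stop (hk : k ≤ D.n) (h : ¬ (D.m * D.L.lev k < D.Ad ∧ D.r0 + D.m * D.R (D.L.lev k) < D.QK)) :
    D.L.lev k = D.L.lev D.n := by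
  refine le_antisymm (D.L.lev_mono hk) ?_
  have h1 : D.n ≤ D.L.J (D.L.lev k) := by
    by_contra hc
    push Not at hc
    have h2 := D.n_stop hc
    rw [D.L.lev_J, D.L.k_J] at h2
    exact h ⟨h2.1, h2.2⟩
  have h3 := D.L.lev_mono h1
  rwa [D.L.lev_J] at h3

/-- the level of the label is diagonal and before the stop -/
structure Yg (D : PN) (a r : ℕ) : Prop where
  a1 : 1 ≤ a
  R : D.R a = D.R (a - 1) + 1
  rF : r ≤ D.F a - D.F (a - 1) + 1
  A : D.m * a < D.Ad
  Q : D.r0 + D.m * D.R a < D.QK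

theorem Yg.Rm (h : Yg D a r) : D.L.Rm a = D.R (a - 1) := by
  unfold Lv.Rm
  rw [if_neg (by have := h.a1; omega)]
  rfl

theorem Yg.Fm (h : Yg D a r) : D.L.Fm a = D.F (a - 1) + D.o := by
  unfold Lv.Fm
  rw [if_neg (by have := h.a1; omega)]
  rfl

theorem Yg.beg (h : Yg D a r) : beg D.L a + r ≤ D.L.J a := by
  have h1 := h.Rm
  have h2 := h.Fm
  have h3 := h.R
  have h4 := h.rF
  have h5 : D.F (a - 1) ≤ D.F a := D.nm.Fm (Nat.sub_le _ _)
  have h6 : D.L.F a = D.F a + D.o := rfl
  have h7 : D.L.R a = D.R a := rfl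
  unfold H61.Reg.beg Lv.J
  omega

theorem Yg.J_lt (h : Yg D a r) : D.L.J a < D.n := J_lt_n h.A h.Q

theorem Yg.k_lt (h : Yg D a r) : D.L.J a - r < D.N := by
  have h1 := h.J_lt
  have h2 := D.n_le
  omega

theorem Yg.k_pos (h : Yg D a r) : 1 ≤ D.L.J a - r := by
  have h1 := h.beg
  have h2 := h.a1
  unfold H61.Reg.beg at h1
  omega

theorem Yg.lev (h : Yg D a r) : D.L.lev (D.L.J a - r) = a := lev_sub D.L h.beg

theorem Yg.li (h : Yg D a r) : D.li (D.L.J a - r) = a := by
  rw [D.li_eq h.k_lt.le, h.lev]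

theorem Yg.la (h : Yg D a r) : D.la (D.L.J a - r) = D.m * a := by
  rw [D.la_eq h.k_lt.le, h.lev]

/-- digits of the line -/
theorem Yg.lk (h : Yg D a r) : D.lk (D.L.J a - r) = D.r0 + D.m * (D.R a - min r 1) := by
  rw [D.lk_eq h.k_lt.le, k_sub D.L h.beg, h.Rm]
  have h3 := h.R
  have h7 : D.L.R a = D.R a := rfl
  rw [h7]
  congr 2
  omega

/-- digits of the own slope: the same at all caps -/
theorem Yg.lf (h : Yg D a r) : D.lf (D.L.J a - r) = D.r0 + D.m * (D.F a + D.o - (r - 1)) := by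
  rw [D.lf_eq h.k_lt.le, f_sub D.L h.beg, h.Rm]
  have h3 := h.R
  have h7 : D.L.R a = D.R a := rfl
  have h6 : D.L.F a = D.F a + D.o := rfl
  rw [h7, h6]
  congr 2
  omega

/-- **the label of an index** of a diagonal level before the stop -/
theorem yg_of (h1 : 1 ≤ D.L.lev k) (hR : D.R (D.L.lev k) = D.R (D.L.lev k - 1) + 1)
    (h : D.m * D.L.lev k < D.Ad ∧ D.r0 + D.m * D.R (D.L.lev k) < D.QK) :
    Yg D (D.L.lev k) (D.L.J (D.L.lev k) - k) ∧ D.L.J (D.L.lev k) - (D.L.J (D.L.lev k) - k) = k := by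
  have h2 := D.L.le_J_lev k
  have h3 := beg_le D.L k
  refine ⟨⟨h1, hR, ?_, h.1, h.2⟩, Nat.sub_sub_self h2⟩
  have h4 : D.L.Rm (D.L.lev k) = D.R (D.L.lev k - 1) := by
    unfold Lv.Rm
    rw [if_neg (by omega)]
    rfl
  have h5 : D.L.Fm (D.L.lev k) = D.F (D.L.lev k - 1) + D.o := by
    unfold Lv.Fm
    rw [if_neg (by omega)]
    rfl
  have h6 : D.L.F (D.L.lev k) = D.F (D.L.lev k) + D.o := rfl
  have h7 : D.L.R (D.L.lev k) = D.R (D.L.lev k) := rfl
  unfold H61.Reg.beg at h3
  unfold Lv.J at h2 ⊢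
  omega

/-- the later a-step -/
theorem li_J {b : ℕ} (h : D.L.J b ≤ D.N) : D.li (D.L.J b) = b ∧ D.la (D.L.J b) = D.m * b ∧
    D.lk (D.L.J b) = D.r0 + D.m * D.R b ∧ D.lf (D.L.J b) = D.r0 + D.m * (D.F b + D.o) := by
  refine ⟨?_, ?_, ?_, ?_⟩
  · rw [D.li_eq h, D.L.lev_J]
  · rw [D.la_eq h, D.L.lev_J]
  · rw [D.lk_eq h, D.L.k_J]
    rfl
  · rw [D.lf_eq h, D.L.f_J]
    rfl

end pn

/-! ### counting -/

/-- **flicker** : a strictly increasing function has at most `y - x` values in `(x, y]` -/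
theorem flick {g : ℕ → ℕ} (hg : StrictMono g) (x y : ℕ) (S : Finset ℕ) (hS : ∀ k ∈ S, x < g k ∧ g k ≤ y) :
    S.card ≤ y - x := by
  have h1 : (S.image g).card = S.card := Finset.card_image_of_injective S hg.injective
  have h2 : S.image g ⊆ Finset.Ioc x y := by
    intro z hz
    rw [Finset.mem_image] at hz
    obtain ⟨k, hk, rfl⟩ := hz
    exact Finset.mem_Ioc.2 (hS k hk)
  have h3 := Finset.card_le_card h2
  rw [Nat.card_Ioc] at h3
  omega

/-- cap plus precision of the line is strictly increasing in the cap -/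
theorem cap_mono {b0 s : ℕ} {R : ℕ → ℕ} (hs : 1 ≤ s) (hR : Monotone R) : StrictMono fun k => b0 + k * s + R k := by
  refine strictMono_nat_of_lt_succ fun k => ?_
  have h1 := hR (Nat.le_succ k)
  show b0 + k * s + R k < b0 + (k + 1) * s + R (k + 1)
  have h2 : (k + 1) * s = k * s + s := Nat.succ_mul k s
  have h3 : R k ≤ R (k + 1) := h1
  omega

/-- **flicker of a label** : `F - B < b0 + k s + R k ≤ F + 1` for at most `B + 1` caps -/
theorem flick_lab {b0 s B F : ℕ} {R : ℕ → ℕ} (hs : 1 ≤ s) (hR : Monotone R) (S : Finset ℕ)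
    (hS : ∀ k ∈ S, F < b0 + k * s + R k + B ∧ b0 + k * s + R k ≤ F + 1) : S.card ≤ B + 2 := by
  have h1 : StrictMono fun k => b0 + k * s + R k + B := fun i j h => by
    have := cap_mono (b0 := b0) hs hR h
    show b0 + i * s + R i + B < b0 + j * s + R j + B
    have h2 : b0 + i * s + R i < b0 + j * s + R j := this
    omega
  have h2 := flick h1 F (F + 1 + B) S fun k hk => ⟨(hS k hk).1, by
    have := (hS k hk).2
    show b0 + k * s + R k + B ≤ F + 1 + B
    omega⟩
  omega

end Vale.Agent.P106.U.H122.Lab2
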