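import Vale.Agent.P106.U.H122.RowN

/-!
# P106 / U / H122 : numbers of the last step of the rows with square roots (helper122)

* `near_sum` : Cauchy–Schwarz over places, caps and labels.
* `num_tel` : choice of `K3`, `Tc`, `h` for the telescope part.
* `fin_near`, `fin_tel`, **`fin_row`** : division by the lower bound of `F2b` and sum over `d ≤ B`.
-/

set_option autoImplicit false

namespace Vale.Agent.P106.U.H122.LastN

open Finset Vale.Agent.P127 Vale.Agent.P127.Stk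
open Vale.Agent.P127.U.CellD (q2 q2_pos q2_le q2_add)

/-- **Cauchy–Schwarz over places, caps and labels** -/
theorem near_sum {ι κ ν : Type*} (S : Finset ι) (T : Finset κ) (Λ : Finset ν) (q : ι → ν → κ → ℝ)
    (hq : ∀ b ∈ S, ∀ x ∈ Λ, ∀ k ∈ T, 0 ≤ q b x k) {N Y : ℝ} (hN : (Λ.card : ℝ) ≤ N)
    (hY : ∑ b ∈ S, ∑ k ∈ T, ∑ x ∈ Λ, q b x k ≤ Y) :
    ∑ b ∈ S, ∑ x ∈ Λ, ∑ k ∈ T, Real.sqrt (q b x k) ≤ Real.sqrt ((S.card : ℝ) * T.card * N * Y) := by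
  have e1 : ∑ b ∈ S, ∑ x ∈ Λ, ∑ k ∈ T, Real.sqrt (q b x k) =
      ∑ y ∈ S ×ˢ T, ∑ x ∈ Λ, Real.sqrt (q y.1 x y.2) := by
    rw [Finset.sum_product]
    exact Finset.sum_congr rfl fun b _ => Finset.sum_comm
  have e2 : ∑ y ∈ S ×ˢ T, ∑ x ∈ Λ, q y.1 x y.2 ≤ Y := by
    rw [Finset.sum_product]
    exact hY
  rw [e1]
  refine RowN.sum_sqrt2 (S ×ˢ T) Λ (fun y x => q y.1 x y.2) (fun y hy x hx => hq _ (Finset.mem_product.1 hy).1 _ hx _
    (Finset.mem_product.1 hy).2) ?_ e2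
  rw [Finset.card_product]
  push_cast
  exact mul_le_mul_of_nonneg_left hN (by positivity)

/-- sum of the squares of the inverses -/
theorem sum_inv_sq (n : ℕ) : ∑ d ∈ range n, 1 / ((d : ℝ) + 1) ^ 2 ≤ 2 := by
  have h : ∀ n : ℕ, ∑ d ∈ range (n + 1), 1 / ((d : ℝ) + 1) ^ 2 ≤ 2 - 1 / ((n : ℝ) + 1) := by
    intro n
    induction n with
    | zero => norm_num
    | succ n ih =>
      rw [Finset.sum_range_succ]
      push_cast at ih ⊢
      have h1 : (0 : ℝ) < (n : ℝ) + 1 := by positivity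
      have h3 : 1 / ((n : ℝ) + 1) - 1 / ((n : ℝ) + 1 + 1) = 1 / (((n : ℝ) + 1) * ((n : ℝ) + 1 + 1)) := by
        field_simp
        ring
      have h4 : 1 / ((n : ℝ) + 1 + 1) ^ 2 ≤ 1 / (((n : ℝ) + 1) * ((n : ℝ) + 1 + 1)) := by
        refine one_div_le_one_div_of_le (by positivity) ?_
        nlinarith
      linarith
  have h2 : ∑ d ∈ range n, 1 / ((d : ℝ) + 1) ^ 2 ≤ ∑ d ∈ range (n + 1), 1 / ((d : ℝ) + 1) ^ 2 :=
    Finset.sum_le_sum_of_subset_of_nonneg (Finset.range_subset_range.2 (Nat.le_succ n)) fun _ _ _ => by positivity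
  have h0 : (0 : ℝ) ≤ 1 / ((n : ℝ) + 1) := by positivity
  linarith [h n]

/-- the lower bound of `F2b` (449, `H = h / m`) -/
noncomputable def Fl (h B m μ : ℕ) (K' δ1 : ℝ) (d : ℕ) : ℝ :=
  (h : ℝ) / B + K' * (d + 1) ^ 2 * (m + μ + 1) * q2 (μ / 8) * (5 * δ1 * ((h : ℝ) / m))

theorem Fl_nn {h B m μ d : ℕ} {K' δ1 : ℝ} (hK : 0 ≤ K') (hδ : 0 ≤ δ1) : 0 ≤ Fl h B m μ K' δ1 d := by
  unfold Fl
  have := (q2_pos (μ / 8)).le
  positivity

theorem Fl_pos {h B m μ d : ℕ} {K' δ1 : ℝ} (hK : 0 < K') (hδ : 0 < δ1) (hh : 0 < h) (hm : 0 < m) :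
    0 < Fl h B m μ K' δ1 d := by
  unfold Fl
  have := q2_pos (μ / 8)
  have h1 : (0 : ℝ) < h := by exact_mod_cast hh
  have h2 : (0 : ℝ) < m := by exact_mod_cast hm
  positivity

/-- `q2 (μ / 4)` and the powers of the target -/
theorem q_split (μ : ℕ) : q2 (μ / 4) ≤ q2 (μ / 8) * (q2 (μ / 16) * q2 (μ / 16)) := by
  rw [← q2_add, ← q2_add]
  exact q2_le (by omega)

theorem sqrt_q {j : ℕ} {K' : ℝ} (hK : K' = 2 ^ j) : Real.sqrt K' / K' ≤ q2 (j / 4) := by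
  have h0 : (0 : ℝ) < K' := by rw [hK]; positivity
  have h1 : Real.sqrt K' / K' = 1 / Real.sqrt K' := by
    rw [div_eq_div_iff h0.ne' (Real.sqrt_pos.2 h0).ne', Real.mul_self_sqrt h0.le, one_mul]
  rw [h1]
  have h2 : (2 : ℝ) ^ (j / 4) ≤ Real.sqrt K' := by
    refine Real.le_sqrt_of_sq_le ?_
    rw [hK, ← pow_mul]
    exact pow_le_pow_right₀ (by norm_num) (by omega)
  have h3 : q2 (j / 4) = 1 / 2 ^ (j / 4) := by
    unfold q2
    rw [one_div, one_div, inv_pow]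
  rw [h3]
  exact one_div_le_one_div_of_le (by positivity) h2

/-- **the near part** : `Nr ≤ CN √K' q2 (μ / 4) (h / m) A` -/
theorem fin_near {h B m μ j : ℕ} {K' δ1 CN A Nr : ℝ} (hK : K' = 2 ^ j) (hδ : 0 < δ1) (hh : 0 < h) (hm : 0 < m)
    (hμ : m ≤ μ) (hCN : 0 ≤ CN) (hA : 0 ≤ A) (hN : Nr ≤ CN * Real.sqrt K' * q2 (μ / 4) * ((h : ℝ) / m) * A)
    (hm0 : 2 * CN * q2 (m / 16) ≤ 5 * δ1) :
    ∑ d ∈ range (B + 1), Nr / Fl h B m μ K' δ1 d ≤ A * (q2 (μ / 16) * q2 (j / 4)) := by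
  have hK0 : (0 : ℝ) < K' := by rw [hK]; positivity
  have h1 : (0 : ℝ) < h := by exact_mod_cast hh
  have h2 : (0 : ℝ) < m := by exact_mod_cast hm
  set H : ℝ := (h : ℝ) / m with hH
  have hH0 : 0 < H := by rw [hH]; positivity
  have q8 := q2_pos (μ / 8)
  have q16 := q2_pos (μ / 16)
  have qj := q2_pos (j / 4)
  have hs := Real.sqrt_pos.2 hK0
  set M : ℝ := CN * Real.sqrt K' * q2 (μ / 4) * H * A with hM
  have hM0 : 0 ≤ M := by
    have := (q2_pos (μ / 4)).le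
    rw [hM]
    positivity
  -- one `d`
  have key : ∀ d : ℕ, Nr / Fl h B m μ K' δ1 d ≤
      (CN / (5 * δ1) * q2 (μ / 16)) * (q2 (μ / 16) * q2 (j / 4) * A) * (1 / ((d : ℝ) + 1) ^ 2) := by
    intro d
    have hF := Fl_pos (B := B) (μ := μ) (d := d) hK0 hδ hh hm
    have hd : (0 : ℝ) < ((d : ℝ) + 1) ^ 2 := by positivity
    have f1 : K' * ((d : ℝ) + 1) ^ 2 * q2 (μ / 8) * (5 * δ1 * H) ≤ Fl h B m μ K' δ1 d := by
      unfold Fl
      have g1 : (0 : ℝ) ≤ (h : ℝ) / B := by positivity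
      have g2 : (1 : ℝ) ≤ (m : ℝ) + μ + 1 := by
        have : (0 : ℝ) ≤ μ := Nat.cast_nonneg _
        linarith
      have g3 : 0 ≤ K' * ((d : ℝ) + 1) ^ 2 * q2 (μ / 8) * (5 * δ1 * H) := by positivity
      have g4 := mul_le_mul_of_nonneg_left g2 g3
      have g5 : K' * ((d : ℝ) + 1) ^ 2 * ((m : ℝ) + μ + 1) * q2 (μ / 8) * (5 * δ1 * H) =
          K' * ((d : ℝ) + 1) ^ 2 * q2 (μ / 8) * (5 * δ1 * H) * ((m : ℝ) + μ + 1) := by ring
      rw [← hH, g5]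
      linarith
    have f2 : Nr / Fl h B m μ K' δ1 d ≤ M / (K' * ((d : ℝ) + 1) ^ 2 * q2 (μ / 8) * (5 * δ1 * H)) := by
      refine (div_le_div_of_nonneg_right hN hF.le).trans ?_
      exact div_le_div_of_nonneg_left hM0 (by positivity) f1
    refine f2.trans ?_
    rw [div_le_iff₀ (by positivity)]
    have f3 : CN / (5 * δ1) * q2 (μ / 16) * (q2 (μ / 16) * q2 (j / 4) * A) * (1 / ((d : ℝ) + 1) ^ 2) *
        (K' * ((d : ℝ) + 1) ^ 2 * q2 (μ / 8) * (5 * δ1 * H)) =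
        CN * (q2 (μ / 8) * (q2 (μ / 16) * q2 (μ / 16))) * (q2 (j / 4) * K') * H * A := by
      field_simp
    rw [f3, hM]
    have f4 : Real.sqrt K' ≤ q2 (j / 4) * K' := by
      have := sqrt_q hK
      rwa [div_le_iff₀ hK0] at this
    have f5 := q_split μ
    have f6 : CN * Real.sqrt K' * q2 (μ / 4) * H * A = CN * H * A * (Real.sqrt K' * q2 (μ / 4)) := by ring
    have f7 : CN * (q2 (μ / 8) * (q2 (μ / 16) * q2 (μ / 16))) * (q2 (j / 4) * K') * H * A =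
        CN * H * A * ((q2 (j / 4) * K') * (q2 (μ / 8) * (q2 (μ / 16) * q2 (μ / 16)))) := by ring
    rw [f6, f7]
    exact mul_le_mul_of_nonneg_left (mul_le_mul f4 f5 (q2_pos _).le (by positivity)) (by positivity)
  refine (Finset.sum_le_sum fun d _ => key d).trans ?_
  rw [← Finset.mul_sum]
  have hq : 0 ≤ q2 (μ / 16) * q2 (j / 4) * A := by positivity
  have g1 : CN / (5 * δ1) * q2 (μ / 16) * 2 ≤ 1 := by
    have g2 : q2 (μ / 16) ≤ q2 (m / 16) := q2_le (by omega)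
    have g3 : CN / (5 * δ1) * q2 (μ / 16) * 2 ≤ CN / (5 * δ1) * q2 (m / 16) * 2 := by gcongr
    refine g3.trans ?_
    have g4 : CN / (5 * δ1) * q2 (m / 16) * 2 = (2 * CN * q2 (m / 16)) / (5 * δ1) := by ring
    rw [g4, div_le_one (by positivity)]
    exact hm0
  have g5 := mul_le_mul_of_nonneg_left (sum_inv_sq (B + 1))
    (show 0 ≤ CN / (5 * δ1) * q2 (μ / 16) * (q2 (μ / 16) * q2 (j / 4) * A) by positivity)
  have g6 := mul_le_mul_of_nonneg_right g1 hq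
  refine g5.trans ?_
  have g7 : CN / (5 * δ1) * q2 (μ / 16) * (q2 (μ / 16) * q2 (j / 4) * A) * 2 =
      CN / (5 * δ1) * q2 (μ / 16) * 2 * (q2 (μ / 16) * q2 (j / 4) * A) := by ring
  rw [g7]
  refine g6.trans (le_of_eq ?_)
  ring

/-- **the telescope part** -/
theorem fin_tel {h B m μ : ℕ} {K' δ1 A T0 : ℝ} (hK : 0 < K') (hδ : 0 < δ1) (hh : 0 < h) (hB : 0 < B) (hA : 0 ≤ A)
    (hT0 : 0 ≤ T0) (Tl : ℕ → ℝ) (hT : ∀ d ≤ B, Tl d ≤ T0 * A) (hn : ((B : ℝ) + 1) ^ 4 * B * T0 ≤ h) :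
    ∑ d ∈ range (B + 1), Tl d / Fl h B m μ K' δ1 d ≤ A * (1 / ((B : ℝ) + 1) ^ 3) := by
  have h1 : (0 : ℝ) < h := by exact_mod_cast hh
  have h2 : (0 : ℝ) < B := by exact_mod_cast hB
  have key : ∀ d ∈ range (B + 1), Tl d / Fl h B m μ K' δ1 d ≤ A * (1 / ((B : ℝ) + 1) ^ 4) := by
    intro d hd
    have hd' := Finset.mem_range.1 hd
    have f0 : (h : ℝ) / B ≤ Fl h B m μ K' δ1 d := by
      unfold Fl
      have := q2_pos (μ / 8)
      have : (0 : ℝ) ≤ K' * ((d : ℝ) + 1) ^ 2 * (m + μ + 1) * q2 (μ / 8) * (5 * δ1 * ((h : ℝ) / m)) := by positivity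
      linarith
    have f1 : (0 : ℝ) < (h : ℝ) / B := by positivity
    have f2 := hT d (by omega)
    refine (div_le_div_of_nonneg_right f2 (f1.trans_le f0).le).trans ?_
    refine (div_le_div_of_nonneg_left (by positivity) f1 f0).trans ?_
    rw [div_le_iff₀ f1]
    have f3 : A * (1 / ((B : ℝ) + 1) ^ 4) * ((h : ℝ) / B) = A * ((h : ℝ) / (((B : ℝ) + 1) ^ 4 * B)) := by
      field_simp
    rw [f3, mul_comm T0 A]
    refine mul_le_mul_of_nonneg_left ?_ hA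
    rw [le_div_iff₀ (by positivity)]
    linarith
  refine (Finset.sum_le_sum key).trans ?_
  rw [Finset.sum_const, Finset.card_range, nsmul_eq_mul]
  refine le_of_eq ?_
  push_cast
  field_simp

/-- **choice of the numbers of the telescope part** : `K3` after `C, L, k1, B`, then `Tc`, then `h` -/
theorem num_tel (C : ℝ) (hC : 0 ≤ C) (L k1 B m : ℕ) (hm : 0 < m) (hB : 0 < B) :
    ∃ K3 : ℕ, 0 < K3 ∧ ∃ Tc0 : ℕ, 0 < Tc0 ∧ ∀ Tc : ℕ, Tc0 ≤ Tc → ∃ h0 : ℕ, 0 < h0 ∧ ∀ h : ℕ, h0 ≤ h →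
      ((B : ℝ) + 1) ^ 4 * B * ((C * ((h : ℝ) / m) * ((L * K3 : ℝ) + (L * k1 * (Tc + L * K3) : ℝ) / K3 + B) / Tc +
        (B + 1)) * (B * m)) ≤ h := by
  have hm' : (0 : ℝ) < m := by exact_mod_cast hm
  have hB' : (0 : ℝ) < B := by exact_mod_cast hB
  set D : ℝ := ((B : ℝ) + 1) ^ 4 * B * B with hD
  have hD0 : 0 < D := by rw [hD]; positivity
  obtain ⟨K3, hK3⟩ := exists_nat_gt (4 * D * C * L * k1)
  have hK30 : 0 < K3 := by
    rcases Nat.eq_zero_or_pos K3 with h | h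
    · rw [h, Nat.cast_zero] at hK3
      have : 0 ≤ 4 * D * C * L * k1 := by positivity
      linarith
    · exact h
  have hK3' : (0 : ℝ) < K3 := by exact_mod_cast hK30
  obtain ⟨T0, hT0⟩ := exists_nat_gt (4 * D * C * ((L * K3 : ℝ) + (L * k1 * (L * K3) : ℝ) / K3 + B))
  refine ⟨K3, hK30, T0 + 1, Nat.succ_pos _, fun Tc hTc => ?_⟩
  have hTc' : (T0 : ℝ) + 1 ≤ Tc := by exact_mod_cast hTc
  have hT00 : (0 : ℝ) ≤ T0 := Nat.cast_nonneg _
  have hTp : (0 : ℝ) < Tc := by linarith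
  obtain ⟨h0, hh0⟩ := exists_nat_gt (2 * D * ((B : ℝ) + 1) * m)
  refine ⟨h0 + 1, Nat.succ_pos _, fun h hh => ?_⟩
  have hh' : (h0 : ℝ) + 1 ≤ h := by exact_mod_cast hh
  have hh2 : (0 : ℝ) < h := by
    have : (0 : ℝ) ≤ h0 := Nat.cast_nonneg _
    linarith
  -- first part
  have e0 : ((B : ℝ) + 1) ^ 4 * B * ((C * ((h : ℝ) / m) * ((L * K3 : ℝ) + (L * k1 * (Tc + L * K3) : ℝ) / K3 + B) / Tc +
        (B + 1)) * (B * m)) =
      D * C * (((L * K3 : ℝ) + (L * k1 * (L * K3) : ℝ) / K3 + B) / Tc) * h + D * C * (L * k1 / K3) * h +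
        D * ((B : ℝ) + 1) * m := by
    rw [hD]
    field_simp
    ring
  rw [e0]
  have e1 : D * C * (((L * K3 : ℝ) + (L * k1 * (L * K3) : ℝ) / K3 + B) / Tc) ≤ 1 / 4 := by
    rw [← mul_div_assoc, div_le_iff₀ hTp]
    linarith
  have e2 : D * C * ((L : ℝ) * k1 / K3) ≤ 1 / 4 := by
    rw [← mul_div_assoc, div_le_iff₀ hK3']
    nlinarith
  have e3 := mul_le_mul_of_nonneg_right e1 hh2.le
  have e4 := mul_le_mul_of_nonneg_right e2 hh2.le
  linarith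

end Vale.Agent.P106.U.H122.LastN
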