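import Vale.Agent.P106.TV.MStepR

/-!
# P106 / U / H122 : the M-step as self-couplings (helper122, after helper459's `mstepR_pt`)

* `erS` : the error of one chain, `mstepS_chain` : the self-coupling of the law given `(D, Θ)`, relation `Rel`, produced by the
  second letter `ω₂` and the directions `ω₄, ω₅` (all given `D`).
* `bS`, `bS_ex` : average error, `mstepS_avg`.
* `mstepS_pick` : inside an event `Ev` of probability at least `ρ` for the copies there is a choice of the copies for which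
  all self-couplings `p ∈ A` hold with total error at most `|A| bS / ρ` (weak non-atomicity).
-/

set_option autoImplicit false

namespace Vale.Agent.P106.U.H122

open Finset Vale.Agent.P127 Vale.Agent.P127.Stk Vale.Agent.P127.U.Pin Vale.Agent.P127.TV Vale.Agent.P106.TV

variable {Ω : Type} [Fintype Ω] {S U V Z X : Type*}

section main

variable (P : Law Ω) (D : Ω → U) (Θ : Ω → V) (W : Ω → S) (E : Ω → Z) (e : U → S → X)
    (Rel : U → V → V → X → X → Ω → Ω → Prop)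

/-- the law given `(D, Θ)` -/
noncomputable def lQ (ω : Ω) : Law Ω := P.cond (fun ω => (D ω, Θ ω)) (D ω, Θ ω)

/-- the error of one chain -/
noncomputable def erS (ω ω₂ ω₄ ω₅ : Ω) : ℝ :=
  erC (lQ P D Θ ω) (lQ P D Θ ω₂) W E (fun a => e (D ω) (W a)) (e (D ω) (W ω₄)) (e (D ω) (W ω₅))

theorem erS_nonneg (ω ω₂ ω₄ ω₅ : Ω) : 0 ≤ erS P D Θ W E e ω ω₂ ω₄ ω₅ := erC_nonneg _ _ _ _ _ _ _

/-- F1 of the cell `(D, Θ)` -/
noncomputable def jS (ω : Ω) : ℝ := il (lQ P D Θ ω) (fun ω' => e (D ω) (W ω')) E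

/-- F2 of the cell `(D, Θ)` -/
noncomputable def kS (ω : Ω) : ℝ := dl (lQ P D Θ ω) W (P.cond D (D ω)) W

/-- the error of the cell -/
noncomputable def bS (ω : Ω) : ℝ :=
  jS P D Θ W E e ω + (P.cond D (D ω)).ex (jS P D Θ W E e) + 8 * kS P D Θ W ω + 8 * (P.cond D (D ω)).ex (kS P D Θ W)

theorem jS_nonneg (ω : Ω) : 0 ≤ jS P D Θ W E e ω := il_nonneg _ _ _

theorem kS_nonneg (ω : Ω) : 0 ≤ kS P D Θ W ω := dl_nonneg _ _ _ _

theorem bS_nonneg (ω : Ω) : 0 ≤ bS P D Θ W E e ω := by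
  unfold bS
  have a1 := jS_nonneg P D Θ W E e ω
  have a2 := kS_nonneg P D Θ W ω
  have a3 : 0 ≤ (P.cond D (D ω)).ex (jS P D Θ W E e) := Law.ex_nonneg _ fun ω' _ => jS_nonneg P D Θ W E e ω'
  have a4 : 0 ≤ (P.cond D (D ω)).ex (kS P D Θ W) := Law.ex_nonneg _ fun ω' _ => kS_nonneg P D Θ W ω'
  positivity

theorem lQ_supp (ω : Ω) (hω : 0 < P.w ω) (ω' : Ω) (h' : 0 < (lQ P D Θ ω).w ω') :
    D ω' = D ω ∧ Θ ω' = Θ ω ∧ 0 < P.w ω' := by
  have h1 := cond_supp P (fun ω => (D ω, Θ ω)) (P.pr_pos (fun ω => (D ω, Θ ω)) hω) h'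
  exact ⟨(Prod.mk.inj h1.1).1, (Prod.mk.inj h1.1).2, h1.2⟩

/-- **average error** -/
theorem bS_ex : P.ex (bS P D Θ W E e) ≤
    8 * Real.sqrt (mi P (fun ω => e (D ω) (W ω)) E (fun ω => (D ω, Θ ω))) + 64 * Real.sqrt (mi P Θ W D) := by
  have hJ : P.ex (jS P D Θ W E e) ≤
      4 * Real.sqrt (mi P (fun ω => e (D ω) (W ω)) E (fun ω => (D ω, Θ ω))) := by
    refine le_trans (le_of_eq ?_) (pin_il P (fun ω => e (D ω) (W ω)) E (fun ω => (D ω, Θ ω)))
    refine P.ex_congr fun ω hω => ?_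
    have hDt := lQ_supp P D Θ ω hω
    unfold jS
    change il (lQ P D Θ ω) (fun ω' => e (D ω) (W ω')) E = il (lQ P D Θ ω) (fun ω => e (D ω) (W ω)) E
    rw [il_eq_ex, il_eq_ex]
    refine Law.ex_congr _ fun ω' h' => ?_
    have hD' := (hDt ω' h').1
    rw [hD']
    refine dl_pr_congr _ _ _ _ _ _ _ _ (fun y => ?_) fun _ => rfl
    have q1 : 0 < (lQ P D Θ ω).pr (fun a => e (D ω) (W a)) (e (D ω) (W ω')) :=
      Law.pr_pos _ (fun a => e (D ω) (W a)) h'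
    have q2 : 0 < (lQ P D Θ ω).pr (fun a => e (D a) (W a)) (e (D ω) (W ω')) := by
      have := Law.pr_pos _ (fun a => e (D a) (W a)) h'
      rwa [hD'] at this
    rw [Law.cond_pr _ _ _ q1, Law.cond_pr _ _ _ q2]
    congr 1
    · refine pr_congr _ (fun a ha => ?_) _
      rw [(hDt a ha).1]
    · refine pr_congr _ (fun a ha => ?_) _
      rw [(hDt a ha).1]
  have hK : P.ex (kS P D Θ W) ≤ 4 * Real.sqrt (mi P Θ W D) := pin_dl P Θ W D
  have hJ2 : P.ex (fun ω => (P.cond D (D ω)).ex (jS P D Θ W E e)) = P.ex (jS P D Θ W E e) := ex_cond P D _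
  have hK2 : P.ex (fun ω => (P.cond D (D ω)).ex (kS P D Θ W)) = P.ex (kS P D Θ W) := ex_cond P D _
  have h0 : P.ex (bS P D Θ W E e) = P.ex (jS P D Θ W E e) + P.ex (fun ω => (P.cond D (D ω)).ex (jS P D Θ W E e)) +
      8 * P.ex (kS P D Θ W) + 8 * P.ex (fun ω => (P.cond D (D ω)).ex (kS P D Θ W)) := by
    unfold bS
    rw [P.ex_add, P.ex_add, P.ex_add, P.ex_const_mul, P.ex_const_mul]
  rw [h0, hJ2, hK2]
  linarith

variable {P D Θ W E e Rel}

/-- **one chain** : self-coupling of the law given `(D, Θ)` -/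
theorem mstepS_chain (geo : GeoR P D Θ W E e Rel) (ω : Ω) (hω : 0 < P.w ω) (ω₂ ω₄ ω₅ : Ω)
    (hω₂ : 0 < (P.cond D (D ω)).w ω₂) :
    SubC (lQ P D Θ ω) (lQ P D Θ ω) (Rel (D ω) (Θ ω) (Θ ω₂) (e (D ω) (W ω₄)) (e (D ω) (W ω₅)))
      (erS P D Θ W E e ω ω₂ ω₄ ω₅) := by
  obtain ⟨hD2, hP2⟩ := cond_supp P D (P.pr_pos D hω) hω₂
  have hQs := lQ_supp P D Θ ω hω
  have hQ1s := lQ_supp P D Θ ω₂ hP2
  refine (chain5 (lQ P D Θ ω) (lQ P D Θ ω₂) W E (fun a => e (D ω) (W a)) (e (D ω) (W ω₄))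
    (e (D ω) (W ω₅))).mono ?_ le_rfl
  rintro a b ⟨a₁, a₂, a₃, a₄, p0, p1, p2, p3, p4, p5, q1, q2, q3, q4, q5, q6, q7⟩
  obtain ⟨u0, v0, w0⟩ := hQs a p0
  obtain ⟨u1, v1, w1⟩ := hQs a₁ p1
  obtain ⟨u2, v2, w2⟩ := hQ1s a₂ p2
  obtain ⟨u3, v3, w3⟩ := hQ1s a₃ p3
  obtain ⟨u4, v4, w4⟩ := hQs a₄ p4
  obtain ⟨u5, v5, w5⟩ := hQs b p5
  have h := geo a a₁ a₂ a₃ a₄ b w0 w1 w2 w3 w4 w5 (u1.trans u0.symm)
    ((u2.trans hD2).trans u0.symm) ((u3.trans hD2).trans u0.symm) (u4.trans u0.symm)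
    (u5.trans u0.symm) (v1.trans v0.symm) (v3.trans v2.symm) (v4.trans v0.symm)
    (v5.trans v0.symm) q1 q2 q3 q4 q5
  rw [u0, v0, v2] at h
  rw [q6, q7] at h
  exact h

/-- the average of the errors over the three copies -/
theorem mstepS_avg (P : Law Ω) (D : Ω → U) (Θ : Ω → V) (W : Ω → S) (E : Ω → Z) (e : U → S → X) (ω : Ω)
    (hω : 0 < P.w ω) :
    (P.cond D (D ω)).ex (fun ω₂ => (P.cond D (D ω)).ex (fun ω₄ => (P.cond D (D ω)).ex (fun ω₅ =>
      erS P D Θ W E e ω ω₂ ω₄ ω₅))) ≤ bS P D Θ W E e ω := by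
  set R := P.cond D (D ω) with hR
  have : R.ex (fun ω₂ => R.ex (fun ω₄ => R.ex (fun ω₅ => erS P D Θ W E e ω ω₂ ω₄ ω₅))) ≤
      R.ex (fun ω₂ => jS P D Θ W E e ω + jS P D Θ W E e ω₂ + 8 * kS P D Θ W ω + 8 * kS P D Θ W ω₂) := by
    refine R.ex_mono fun ω₂ h2 => ?_
    obtain ⟨hD2, hP2⟩ := cond_supp P D (P.pr_pos D hω) h2
    have h3 := chain5_err (lQ P D Θ ω) (lQ P D Θ ω₂) R W E (e (D ω))
    have h4 : jS P D Θ W E e ω₂ = il (lQ P D Θ ω₂) (fun a => e (D ω) (W a)) E := by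
      unfold jS
      rw [hD2]
    have h5 : kS P D Θ W ω₂ = dl (lQ P D Θ ω₂) W R W := by
      unfold kS
      rw [hD2]
    rw [h4, h5]
    exact h3
  refine this.trans (le_of_eq ?_)
  simp only [R.ex_add, R.ex_const_mul, R.ex_const]
  rfl

variable {κ₂ κ₃ : Type} [Fintype κ₂] [DecidableEq κ₂] [Fintype κ₃] [DecidableEq κ₃]

/-- **choice of the copies** inside an event of probability at least `ρ` -/
theorem mstepS_pick (geo : GeoR P D Θ W E e Rel) (A : Finset (κ₂ × κ₃ × κ₃)) (hA : ∀ p ∈ A, p.2.1 ≠ p.2.2)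
    (ω : Ω) (hω : 0 < P.w ω) (χ : (κ₂ → Ω) → (κ₃ → Ω) → ℝ) (hχ0 : ∀ z y, 0 ≤ χ z y) (hχ1 : ∀ z y, χ z y ≤ 1) {ρ : ℝ}
    (hρ : 0 < ρ) (hχ : ρ ≤ (cop (P.cond D (D ω)) κ₂).ex fun z => (cop (P.cond D (D ω)) κ₃).ex fun y => χ z y) :
    ∃ (z : κ₂ → Ω) (y : κ₃ → Ω), 0 < χ z y ∧ (∀ i, 0 < (P.cond D (D ω)).w (z i)) ∧
      (∀ j, 0 < (P.cond D (D ω)).w (y j)) ∧
      ∑ p ∈ A, erS P D Θ W E e ω (z p.1) (y p.2.1) (y p.2.2) ≤ A.card * bS P D Θ W E e ω / ρ ∧
      ∀ p ∈ A, SubC (lQ P D Θ ω) (lQ P D Θ ω)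
        (Rel (D ω) (Θ ω) (Θ (z p.1)) (e (D ω) (W (y p.2.1))) (e (D ω) (W (y p.2.2))))
        (erS P D Θ W E e ω (z p.1) (y p.2.1) (y p.2.2)) := by
  classical
  set R := P.cond D (D ω) with hR
  set b := bS P D Θ W E e ω with hb
  have hb0 : 0 ≤ b := bS_nonneg P D Θ W E e ω
  let er : (κ₂ → Ω) → (κ₃ → Ω) → ℝ := fun z y => ∑ p ∈ A, erS P D Θ W E e ω (z p.1) (y p.2.1) (y p.2.2)
  have her0 : ∀ z y, 0 ≤ er z y := fun z y => Finset.sum_nonneg fun p _ => erS_nonneg P D Θ W E e _ _ _ _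
  let av : ((κ₂ → Ω) → (κ₃ → Ω) → ℝ) → ℝ := fun f => (cop R κ₂).ex (fun z => (cop R κ₃).ex (fun y => f z y))
  have hs : ∀ (L : Law (κ₃ → Ω)) (f : κ₂ × κ₃ × κ₃ → (κ₃ → Ω) → ℝ),
      L.ex (fun y => ∑ p ∈ A, f p y) = ∑ p ∈ A, L.ex (f p) := by
    intro L f
    unfold Law.ex
    rw [Finset.sum_comm]
    exact Finset.sum_congr rfl fun y _ => by rw [Finset.mul_sum]
  have hs' : ∀ (L : Law (κ₂ → Ω)) (f : κ₂ × κ₃ × κ₃ → (κ₂ → Ω) → ℝ),
      L.ex (fun y => ∑ p ∈ A, f p y) = ∑ p ∈ A, L.ex (f p) := by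
    intro L f
    unfold Law.ex
    rw [Finset.sum_comm]
    exact Finset.sum_congr rfl fun y _ => by rw [Finset.mul_sum]
  -- average error
  have h1 : av er ≤ A.card * b := by
    have e1 : av er = ∑ p ∈ A, av (fun z y => erS P D Θ W E e ω (z p.1) (y p.2.1) (y p.2.2)) := by
      simp only [av, er]
      rw [← hs']
      refine Law.ex_congr _ fun z _ => ?_
      exact hs _ (fun p y => erS P D Θ W E e ω (z p.1) (y p.2.1) (y p.2.2))
    have e2 : ∀ p ∈ A, av (fun z y => erS P D Θ W E e ω (z p.1) (y p.2.1) (y p.2.2)) ≤ b := by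
      intro p hp
      have e3 : av (fun z y => erS P D Θ W E e ω (z p.1) (y p.2.1) (y p.2.2)) =
          R.ex (fun ω₂ => R.ex (fun ω₄ => R.ex (fun ω₅ => erS P D Θ W E e ω ω₂ ω₄ ω₅))) := by
        simp only [av]
        have h1 : ∀ z : κ₂ → Ω, (cop R κ₃).ex (fun y => erS P D Θ W E e ω (z p.1) (y p.2.1) (y p.2.2)) =
            R.ex (fun ω₄ => R.ex (fun ω₅ => erS P D Θ W E e ω (z p.1) ω₄ ω₅)) := fun z =>
          cop_ex2 R (hA p hp) (fun a b => erS P D Θ W E e ω (z p.1) a b)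
        simp only [h1]
        exact cop_ex1 R p.1 (fun ω₂ => R.ex (fun ω₄ => R.ex (fun ω₅ => erS P D Θ W E e ω ω₂ ω₄ ω₅)))
      rw [e3]
      exact mstepS_avg P D Θ W E e ω hω
    rw [e1]
    refine (Finset.sum_le_sum e2).trans (le_of_eq ?_)
    rw [Finset.sum_const, nsmul_eq_mul]
  -- a good choice
  by_contra hno
  push Not at hno
  have hgood : ∀ z y, 0 < (cop R κ₂).w z → 0 < (cop R κ₃).w y → χ z y * (A.card * b / ρ) ≤ er z y ∧
      (0 < χ z y → A.card * b / ρ < er z y) := by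
    intro z y hz hy
    have h3 : 0 < χ z y → A.card * b / ρ < er z y := by
      intro h
      by_contra hle
      have hle' := not_lt.1 hle
      obtain ⟨p, hp, hp'⟩ := hno z y h (fun i => cop_supp hz i) (fun j => cop_supp hy j) hle'
      exact hp' (mstepS_chain geo ω hω _ _ _ (cop_supp hz p.1))
    refine ⟨?_, h3⟩
    rcases (hχ0 z y).eq_or_lt with h0 | h0
    · rw [← h0, zero_mul]
      exact her0 z y
    · have h4 := h3 h0
      have h5 : 0 ≤ A.card * b / ρ := by positivity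
      calc χ z y * (A.card * b / ρ) ≤ 1 * (A.card * b / ρ) := mul_le_mul_of_nonneg_right (hχ1 z y) h5
        _ = A.card * b / ρ := one_mul _
        _ ≤ er z y := h4.le
  -- some pair has positive weight
  have hpos : 0 < av χ := hρ.trans_le hχ
  have hex : ∃ z y, 0 < (cop R κ₂).w z ∧ 0 < (cop R κ₃).w y ∧ 0 < χ z y := by
    by_contra hn
    push Not at hn
    have : av χ ≤ 0 := by
      have h6 : av χ ≤ (cop R κ₂).ex (fun _ => 0) := by
        refine Law.ex_mono _ fun z hz => ?_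
        have h7 : (cop R κ₃).ex (fun y => χ z y) ≤ (cop R κ₃).ex (fun _ => 0) :=
          Law.ex_mono _ fun y hy => hn z y hz hy
        rwa [Law.ex_const] at h7
      rwa [Law.ex_const] at h6
    linarith
  -- strict inequality of the averages
  have hstr : av χ * (A.card * b / ρ) < av er := by
    obtain ⟨z0, y0, hz0, hy0, hx0⟩ := hex
    have e1 : av χ * (A.card * b / ρ) = av (fun z y => χ z y * (A.card * b / ρ)) := by
      simp only [av, mul_comm _ (A.card * b / ρ), Law.ex_const_mul]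
    rw [e1]
    simp only [av]
    unfold Law.ex
    refine Finset.sum_lt_sum (fun z _ => ?_) ⟨z0, Finset.mem_univ _, ?_⟩
    · rcases ((cop R κ₂).nn z).eq_or_lt with hz | hz
      · rw [← hz, zero_mul, zero_mul]
      · refine mul_le_mul_of_nonneg_left (Finset.sum_le_sum fun y _ => ?_) hz.le
        rcases ((cop R κ₃).nn y).eq_or_lt with hy | hy
        · rw [← hy, zero_mul, zero_mul]
        · exact mul_le_mul_of_nonneg_left (hgood z y hz hy).1 hy.le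
    · refine mul_lt_mul_of_pos_left (Finset.sum_lt_sum (fun y _ => ?_) ⟨y0, Finset.mem_univ _, ?_⟩) hz0
      · rcases ((cop R κ₃).nn y).eq_or_lt with hy | hy
        · rw [← hy, zero_mul, zero_mul]
        · exact mul_le_mul_of_nonneg_left (hgood z0 y hz0 hy).1 hy.le
      · refine mul_lt_mul_of_pos_left ?_ hy0
        have h8 := (hgood z0 y0 hz0 hy0).2 hx0
        have h5 : 0 ≤ A.card * b / ρ := by positivity
        calc χ z0 y0 * (A.card * b / ρ) ≤ 1 * (A.card * b / ρ) := mul_le_mul_of_nonneg_right (hχ1 _ _) h5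
          _ = A.card * b / ρ := one_mul _
          _ < er z0 y0 := h8
  have hfin : ρ * (A.card * b / ρ) ≤ av χ * (A.card * b / ρ) :=
    mul_le_mul_of_nonneg_right hχ (by positivity)
  have : ρ * (A.card * b / ρ) = A.card * b := by field_simp
  linarith

end main

end Vale.Agent.P106.U.H122
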