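import Vale.Agent.P127.TV.Shift
import Vale.Agent.P127.S.StepEx

/-!
# P106 / U / H122 : from the strips to the base cell (two caps lemma of helper384, note 18130), abstract TV part

* `up` : `Δ` base data (base cell, second time, isotropic cell ..), `Z` the direction (long letter of velocity digits), `D` the
  strip cell, `E` the fine state.  Approximate self-couplings of the law given `(D, Z, Δ)` and `E ⊥ Z | Δ` (F1 at the base)
  give approximate self-couplings of the law given `Δ` alone, for every value of `Z`.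
* `word4` : composition `M₁ M₂ M₁⁻¹ M₂⁻¹`.
-/

set_option autoImplicit false

namespace Vale.Agent.P106.U.H122

open Finset Vale.Agent.P127 Vale.Agent.P127.Stk Vale.Agent.P127.U.Pin Vale.Agent.P127.TV

variable {Ω : Type} [Fintype Ω] {S T U V : Type*}

/-- the relation on the base law produced by the strips of direction `z` -/
def UpR (P : Law Ω) (Δ : Ω → U) (Z : Ω → T) (D : Ω → V) (E : Ω → S) (R : U → T → V → Ω → Ω → Prop) (δ : U) (z : T)
    (a b : Ω) : Prop :=
  ∃ a' b', 0 < P.w a' ∧ 0 < P.w b' ∧ Δ a' = δ ∧ Δ b' = δ ∧ Z a' = z ∧ Z b' = z ∧ E a = E a' ∧ D a' = D b' ∧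
    R δ z (D a') a' b' ∧ E b' = E b

/-- the error of the direction `Z ω` over the base cell `Δ ω` -/
noncomputable def upE (P : Law Ω) (Δ : Ω → U) (Z : Ω → T) (D : Ω → V) (E : Ω → S) (ε : U → T → V → ℝ) (ω : Ω) : ℝ :=
  (P.cond (fun ω => (Z ω, Δ ω)) (Z ω, Δ ω)).ex (fun ω' => ε (Δ ω') (Z ω') (D ω')) +
    dl (P.cond (fun ω => (Z ω, Δ ω)) (Z ω, Δ ω)) E (P.cond Δ (Δ ω)) E

/-- **strips to base**, pointwise -/
theorem up (P : Law Ω) (Δ : Ω → U) (Z : Ω → T) (D : Ω → V) (E : Ω → S) (R : U → T → V → Ω → Ω → Prop)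
    (ε : U → T → V → ℝ)
    (h : ∀ ω, 0 < P.w ω → SubC (P.cond (fun ω => (D ω, (Z ω, Δ ω))) (D ω, (Z ω, Δ ω)))
      (P.cond (fun ω => (D ω, (Z ω, Δ ω))) (D ω, (Z ω, Δ ω))) (R (Δ ω) (Z ω) (D ω)) (ε (Δ ω) (Z ω) (D ω)))
    (ω : Ω) (hω : 0 < P.w ω) :
    SubC (P.cond Δ (Δ ω)) (P.cond Δ (Δ ω)) (UpR P Δ Z D E R (Δ ω) (Z ω)) (upE P Δ Z D E ε ω) := by
  classical
  set Q := P.cond (fun ω => (Z ω, Δ ω)) (Z ω, Δ ω) with hQ
  have hpos : 0 < P.pr (fun ω => (Z ω, Δ ω)) (Z ω, Δ ω) := P.pr_pos (fun ω => (Z ω, Δ ω)) hω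
  have hQs : ∀ a, 0 < Q.w a → Z a = Z ω ∧ Δ a = Δ ω ∧ 0 < P.w a := fun a ha => by
    have h1 := cond_supp P (fun ω => (Z ω, Δ ω)) hpos ha
    exact ⟨(Prod.mk.inj h1.1).1, (Prod.mk.inj h1.1).2, h1.2⟩
  -- the strips of direction `Z ω`
  have h1 : SubC Q Q (fun a b => D a = D b ∧ R (Δ ω) (Z ω) (D a) a b) (Q.ex fun ω' => ε (Δ ω) (Z ω) (D ω')) := by
    refine SubC.mix Q D (fun d => R (Δ ω) (Z ω) d) (fun d => ε (Δ ω) (Z ω) d) fun a ha => ?_
    obtain ⟨e1, e2, e3⟩ := hQs a ha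
    have h2 := h a e3
    have h3 : Q.cond D (D a) = P.cond (fun ω => (D ω, (Z ω, Δ ω))) (D a, (Z a, Δ a)) := by
      rw [hQ, ← e1, ← e2]
      exact Vale.Agent.P127.S.StepEx.cond_cond e3
    rw [h3]
    rw [← e1, ← e2]
    exact h2
  have h2 := SubC.of_dl (P.cond Δ (Δ ω)) E Q E
  have h3 := SubC.of_dl Q E (P.cond Δ (Δ ω)) E
  have h4 := (h2.comp h1.pos).comp h3
  refine h4.mono ?_ ?_
  · rintro a b ⟨b', ⟨a', k1, k2, k3, k4, k5⟩, k6⟩
    obtain ⟨u1, u2, u3⟩ := hQs a' k2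
    obtain ⟨v1, v2, v3⟩ := hQs b' k3
    exact ⟨a', b', u3, v3, u2, v2, u1, v1, k1, k4, k5, k6⟩
  · unfold upE
    rw [dl_symm (P.cond Δ (Δ ω)) E Q E]
    have e1 : Q.ex (fun ω' => ε (Δ ω') (Z ω') (D ω')) = Q.ex (fun ω' => ε (Δ ω) (Z ω) (D ω')) := by
      refine Law.ex_congr _ fun a ha => ?_
      obtain ⟨u1, u2, u3⟩ := hQs a ha
      rw [u1, u2]
    rw [← hQ, e1]
    linarith

/-- the average error of `up` : strips + F1 at the base -/
theorem upE_ex (P : Law Ω) (Δ : Ω → U) (Z : Ω → T) (D : Ω → V) (E : Ω → S) (ε : U → T → V → ℝ) :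
    P.ex (upE P Δ Z D E ε) ≤ P.ex (fun ω => ε (Δ ω) (Z ω) (D ω)) + 4 * Real.sqrt (mi P Z E Δ) := by
  unfold upE
  rw [P.ex_add]
  have h1 := ex_cond P (fun ω => (Z ω, Δ ω)) (fun ω => ε (Δ ω) (Z ω) (D ω))
  have h2 := pin_dl P Z E Δ
  have h3 : P.ex (fun ω => dl (P.cond (fun ω => (Z ω, Δ ω)) (Z ω, Δ ω)) E (P.cond Δ (Δ ω)) E) =
      P.ex (fun ω => dl (P.cond (fun ω => (Δ ω, Z ω)) (Δ ω, Z ω)) E (P.cond Δ (Δ ω)) E) := by
    refine P.ex_congr fun ω hω => ?_
    refine dl_pr_congr _ _ _ _ _ _ _ _ (fun x => ?_) fun _ => rfl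
    have e1 : 0 < P.pr (fun ω => (Z ω, Δ ω)) (Z ω, Δ ω) := P.pr_pos (fun ω => (Z ω, Δ ω)) hω
    have e2 : 0 < P.pr (fun ω => (Δ ω, Z ω)) (Δ ω, Z ω) := P.pr_pos (fun ω => (Δ ω, Z ω)) hω
    rw [P.cond_pr _ _ e1, P.cond_pr _ _ e2, pr_swap P Z Δ]
    congr 1
    classical
    unfold Law.pr
    refine Finset.sum_congr ?_ fun _ _ => rfl
    ext ω'
    simp only [Finset.mem_filter, Finset.mem_univ, true_and, Prod.mk.injEq]
    tauto
  rw [h1, h3]
  linarith

/-- the same for an error which is averaged over the base cell: `(P.cond Δ δ)`-average of `upE` -/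
theorem upE_nonneg (P : Law Ω) (Δ : Ω → U) (Z : Ω → T) (D : Ω → V) (E : Ω → S) (ε : U → T → V → ℝ)
    (hε : ∀ ω, 0 < P.w ω → 0 ≤ ε (Δ ω) (Z ω) (D ω)) (ω : Ω) (hω : 0 < P.w ω) : 0 ≤ upE P Δ Z D E ε ω := by
  unfold upE
  refine add_nonneg (Law.ex_nonneg _ fun a ha => ?_) (dl_nonneg _ _ _ _)
  exact hε a (cond_supp P (fun ω => (Z ω, Δ ω)) (P.pr_pos (fun ω => (Z ω, Δ ω)) hω) ha).2

/-! ### words -/

/-- **the word** `M₁ M₂ M₁⁻¹ M₂⁻¹` -/
theorem word4 {Q : Law Ω} {M₁ M₂ : Ω → Ω → Prop} {e₁ e₂ : ℝ} (h₁ : SubC Q Q M₁ e₁) (h₂ : SubC Q Q M₂ e₂) :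
    SubC Q Q (fun a e => ∃ b c d, M₁ a b ∧ M₂ b c ∧ M₁ d c ∧ M₂ e d) (2 * e₁ + 2 * e₂) := by
  refine (((h₁.comp h₂).comp h₁.symm).comp h₂.symm).mono ?_ (by linarith)
  rintro a e ⟨d, ⟨c, ⟨b, h1, h2⟩, h3⟩, h4⟩
  exact ⟨b, c, d, h1, h2, h3, h4⟩

/-- the word `M₁ M₂⁻¹` -/
theorem word2 {Q : Law Ω} {M₁ M₂ : Ω → Ω → Prop} {e₁ e₂ : ℝ} (h₁ : SubC Q Q M₁ e₁) (h₂ : SubC Q Q M₂ e₂) :
    SubC Q Q (fun a c => ∃ b, M₁ a b ∧ M₂ c b) (e₁ + e₂) := by
  refine (h₁.comp h₂.symm).mono ?_ le_rfl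
  rintro a c ⟨b, h1, h2⟩
  exact ⟨b, h1, h2⟩

/-- a sub-coupling which preserves a letter restricts to the cells of the letter: the average of the errors of the cells -/
theorem split_letter (Q : Law Ω) (G : Ω → U) (R : Ω → Ω → Prop) {e : ℝ} (h : SubC Q Q (fun a b => G a = G b ∧ R a b) e) :
    ∃ er : U → ℝ, (∀ g, 0 ≤ er g) ∧ Q.ex (fun ω => er (G ω)) ≤ e ∧
      ∀ ω, 0 < Q.w ω → SubC (Q.cond G (G ω)) (Q.cond G (G ω)) R (er (G ω)) := by
  classical
  obtain ⟨q, h0, h1, h2, h3, h4⟩ := h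
  have hm : ∀ a b, 0 < q a b → G a = G b := fun a b hq => (h3 a b hq).1
  -- mass over the cell `g`
  set M : U → ℝ := fun g => ∑ a, ∑ b, if G a = g then q a b else 0 with hM
  have hM0 : ∀ g, 0 ≤ M g := fun g => Finset.sum_nonneg fun a _ => Finset.sum_nonneg fun b _ => by
    split_ifs
    · exact h0 a b
    · exact le_rfl
  have hMle : ∀ g, M g ≤ Q.pr G g := by
    intro g
    unfold Law.pr
    rw [Finset.sum_filter]
    refine Finset.sum_le_sum fun a _ => ?_
    by_cases hg : G a = g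
    · simp only [hg, if_true]
      exact h1 a
    · simp only [hg, if_false, Finset.sum_const_zero]
      exact le_rfl
  refine ⟨fun g => 1 - M g / Q.pr G g, fun g => ?_, ?_, ?_⟩
  · dsimp only
    rcases (Q.pr_nonneg G g).eq_or_lt with hz | hz
    · rw [← hz, div_zero]
      norm_num
    · rw [sub_nonneg, div_le_one hz]
      exact hMle g
  · rw [Q.ex_sub, Q.ex_const]
    have e1 : Q.ex (fun ω => M (G ω) / Q.pr G (G ω)) = ∑ a, ∑ b, q a b := by
      rw [ex_sp Q G (fun g => M g / Q.pr G g)]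
      have e2 : ∀ g ∈ sp Q G, Q.pr G g * (M g / Q.pr G g) = M g := fun g hg => by
        have := sp_pos Q G hg
        field_simp
      rw [Finset.sum_congr rfl e2, hM]
      rw [Finset.sum_comm]
      refine Finset.sum_congr rfl fun a _ => ?_
      rw [Finset.sum_comm]
      refine Finset.sum_congr rfl fun b _ => ?_
      rw [Finset.sum_ite_eq]
      split_ifs with hs
      · rfl
      · have hz := pr_zero_of_not_sp Q G hs
        have hw : Q.w a = 0 := by
          have := (Q.nn a)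
          rcases this.eq_or_lt with h' | h'
          · exact h'.symm
          · exact absurd hz (ne_of_gt (Q.pr_pos G h'))
        have h5 := h1 a
        rw [hw] at h5
        have h6 : q a b ≤ ∑ b, q a b := Finset.single_le_sum (fun b _ => h0 a b) (Finset.mem_univ b)
        exact le_antisymm (h0 a b) (h6.trans h5)
    rw [e1]
    linarith
  · intro ω hω
    have hp : 0 < Q.pr G (G ω) := Q.pr_pos G hω
    refine ⟨fun a b => if G a = G ω then q a b / Q.pr G (G ω) else 0, fun a b => ?_, fun a => ?_, fun b => ?_,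
      fun a b hab => ?_, ?_⟩
    · dsimp only
      split_ifs
      · exact div_nonneg (h0 a b) hp.le
      · exact le_rfl
    · rw [Q.cond_w G (G ω) hp]
      by_cases hg : G a = G ω
      · simp only [hg, if_true]
        rw [← Finset.sum_div]
        exact div_le_div_of_nonneg_right (h1 a) hp.le
      · simp only [hg, if_false, Finset.sum_const_zero]
        exact le_rfl
    · rw [Q.cond_w G (G ω) hp]
      by_cases hg : G b = G ω
      · rw [if_pos hg]
        have : ∀ a ∈ (Finset.univ : Finset Ω), (if G a = G ω then q a b / Q.pr G (G ω) else 0) ≤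
            q a b / Q.pr G (G ω) := fun a _ => by
          split_ifs
          · exact le_rfl
          · exact div_nonneg (h0 a b) hp.le
        refine (Finset.sum_le_sum this).trans ?_
        rw [← Finset.sum_div]
        exact div_le_div_of_nonneg_right (h2 b) hp.le
      · rw [if_neg hg]
        refine le_of_eq (Finset.sum_eq_zero fun a _ => ?_)
        dsimp only
        split_ifs with hga
        · rcases (h0 a b).eq_or_lt with h' | h'
          · rw [← h', zero_div]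
          · exact absurd ((hm a b h').symm.trans hga) hg
        · rfl
    · by_cases hg : G a = G ω
      · simp only [hg, if_true] at hab
        have : 0 < q a b := by
          by_contra hc
          have h' : q a b = 0 := le_antisymm (not_lt.1 hc) (h0 a b)
          rw [h', zero_div] at hab
          exact lt_irrefl _ hab
        exact (h3 a b this).2
      · simp only [hg, if_false] at hab
        exact absurd hab (lt_irrefl _)
    · have e3 : ∑ a, ∑ b, (if G a = G ω then q a b / Q.pr G (G ω) else 0) = M (G ω) / Q.pr G (G ω) := by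
        rw [hM, Finset.sum_div]
        refine Finset.sum_congr rfl fun a _ => ?_
        rw [Finset.sum_div]
        refine Finset.sum_congr rfl fun b _ => ?_
        split_ifs
        · rfl
        · rw [zero_div]
      rw [e3]
      linarith

end Vale.Agent.P106.U.H122
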