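import Vale.Agent.P106.U.H377.Quad
import Vale.Agent.P106.U.H122.Two

/-!
# P106 / U / H122 / Mesh : target vectors, words with drift (two-cap lemma, 958's point (2))

State `σ = (x, z, n, c, φ, κ)`, motions `qm X Z α` (377).  `K` a letter which is kept.

* `NK` : near-invariance with two tolerances (`ρ` for the coordinates `≠ n`, `τ` for `n`), composition, inverse, iterates.
* `mesh` : two independent vectors `u₁, u₂` of one cell ⇒ every target vector `V` up to `μ` (size of `u₁, u₂`).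
* `MR` : the relation `b = g(v; α) a`, `|v - V| ≤ μ`; `word_mesh` : the word `M₁ M₂ M₁⁻¹ M₂⁻¹` is the shift of `n` by
  `(α₁ - α₂) X₁ X₂` up to `C Φ (μ + ρ)` in all the coordinates.
-/

set_option autoImplicit false

namespace Vale.Agent.P106.U.H122

open Finset Vale.Agent.P127 Vale.Agent.P127.Stk Vale.Agent.P127.U.Pin Vale.Agent.P127.TV
open Vale.Agent.P106.U.Quad (NI Lip qm ns qm_inv qm_add)

variable {Ω : Type} [Fintype Ω] {S T U V : Type*}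

/-! ### near-invariance with two tolerances -/

/-- near-invariance of the state under the motion `(X, Z; α)`, the letter `K` is kept -/
def NK (Q : Law Ω) (K : Ω → T) (σ : Ω → Fin 6 → ℝ) (X Z α ρ τ ε : ℝ) : Prop :=
  SubC Q Q (fun a b => K a = K b ∧ (∀ i, i ≠ 2 → |σ b i - qm X Z α (σ a) i| ≤ ρ) ∧
    |σ b 2 - qm X Z α (σ a) 2| ≤ τ) ε

theorem NK.mono {Q : Law Ω} {K : Ω → T} {σ : Ω → Fin 6 → ℝ} {X Z α ρ τ ε ρ' τ' ε' : ℝ} (h : NK Q K σ X Z α ρ τ ε)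
    (h1 : ρ ≤ ρ') (h2 : τ ≤ τ') (h3 : ε ≤ ε') : NK Q K σ X Z α ρ' τ' ε' :=
  SubC.mono h (fun _ _ ⟨a1, a2, a3⟩ => ⟨a1, fun i hi => (a2 i hi).trans h1, a3.trans h2⟩) h3

lemma qm0 (X Z α : ℝ) (v : Fin 6 → ℝ) : qm X Z α v 0 = v 0 + X := rfl
lemma qm1 (X Z α : ℝ) (v : Fin 6 → ℝ) : qm X Z α v 1 = v 1 + Z := rfl
lemma qm2 (X Z α : ℝ) (v : Fin 6 → ℝ) : qm X Z α v 2 = v 2 + v 4 * X + v 5 * Z + α * X ^ 2 / 2 := rfl
lemma qm3 (X Z α : ℝ) (v : Fin 6 → ℝ) : qm X Z α v 3 = v 3 - α * Z := rfl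
lemma qm4 (X Z α : ℝ) (v : Fin 6 → ℝ) : qm X Z α v 4 = v 4 + α * X := rfl
lemma qm5 (X Z α : ℝ) (v : Fin 6 → ℝ) : qm X Z α v 5 = v 5 := rfl

/-- the differences of the motion, coordinates `≠ n` -/
lemma qm_ne {X Z α : ℝ} {x y : Fin 6 → ℝ} {i : Fin 6} (hi : i ≠ 2) : qm X Z α x i - qm X Z α y i = x i - y i := by
  fin_cases i
  · show (x 0 + X) - (y 0 + X) = x 0 - y 0
    ring
  · show (x 1 + Z) - (y 1 + Z) = x 1 - y 1
    ring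
  · exact absurd rfl hi
  · show (x 3 - α * Z) - (y 3 - α * Z) = x 3 - y 3
    ring
  · show (x 4 + α * X) - (y 4 + α * X) = x 4 - y 4
    ring
  · rfl

/-- the differences of the motion, coordinate `n` -/
lemma qm_two {X Z α ρ τ s : ℝ} {x y : Fin 6 → ℝ} (hs : |X| + |Z| ≤ s) (h4 : |x 4 - y 4| ≤ ρ) (h5 : |x 5 - y 5| ≤ ρ)
    (h2 : |x 2 - y 2| ≤ τ) : |qm X Z α x 2 - qm X Z α y 2| ≤ τ + ρ * s := by
  have hρ : 0 ≤ ρ := (abs_nonneg _).trans h4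
  have e : qm X Z α x 2 - qm X Z α y 2 = (x 2 - y 2) + ((x 4 - y 4) * X + (x 5 - y 5) * Z) := by
    rw [qm2, qm2]
    ring
  rw [e]
  have a1 : |(x 4 - y 4) * X| ≤ ρ * |X| := by
    rw [abs_mul]
    exact mul_le_mul_of_nonneg_right h4 (abs_nonneg _)
  have a2 : |(x 5 - y 5) * Z| ≤ ρ * |Z| := by
    rw [abs_mul]
    exact mul_le_mul_of_nonneg_right h5 (abs_nonneg _)
  have a3 := abs_add_le (x 2 - y 2) ((x 4 - y 4) * X + (x 5 - y 5) * Z)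
  have a4 := abs_add_le ((x 4 - y 4) * X) ((x 5 - y 5) * Z)
  have a5 := mul_le_mul_of_nonneg_left hs hρ
  nlinarith

theorem NK.comp {Q : Law Ω} {K : Ω → T} {σ : Ω → Fin 6 → ℝ} {X Z X' Z' α ρ τ ε ρ' τ' ε' s : ℝ}
    (h : NK Q K σ X Z α ρ τ ε) (h' : NK Q K σ X' Z' α ρ' τ' ε') (hs : |X'| + |Z'| ≤ s) :
    NK Q K σ (X + X') (Z + Z') α (ρ + ρ') (τ + τ' + ρ * s) (ε + ε') := by
  refine (SubC.comp h h').mono ?_ le_rfl
  rintro a c ⟨b, ⟨h1, h2, h3⟩, h1', h2', h3'⟩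
  refine ⟨h1.trans h1', fun i hi => ?_, ?_⟩
  · rw [← qm_add X Z X' Z' α (σ a) i]
    have e : σ c i - qm X' Z' α (qm X Z α (σ a)) i =
        (σ c i - qm X' Z' α (σ b) i) + (qm X' Z' α (σ b) i - qm X' Z' α (qm X Z α (σ a)) i) := by ring
    rw [e, qm_ne hi]
    exact (abs_add_le _ _).trans (by linarith [h2 i hi, h2' i hi])
  · rw [← qm_add X Z X' Z' α (σ a) 2]
    have e : σ c 2 - qm X' Z' α (qm X Z α (σ a)) 2 =
        (σ c 2 - qm X' Z' α (σ b) 2) + (qm X' Z' α (σ b) 2 - qm X' Z' α (qm X Z α (σ a)) 2) := by ring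
    rw [e]
    have h6 := qm_two (α := α) hs (h2 4 (by decide)) (h2 5 (by decide)) h3
    exact (abs_add_le _ _).trans (by linarith)

theorem NK.inv {Q : Law Ω} {K : Ω → T} {σ : Ω → Fin 6 → ℝ} {X Z α ρ τ ε s : ℝ}
    (h : NK Q K σ X Z α ρ τ ε) (hs : |X| + |Z| ≤ s) : NK Q K σ (-X) (-Z) α ρ (τ + ρ * s) ε := by
  refine (SubC.symm h).mono ?_ le_rfl
  rintro b a ⟨h1, h2, h3⟩
  -- `a → b`, `σ b ≈ g (σ a)`; so `σ a = g⁻¹ g σ a ≈ g⁻¹ σ b`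
  refine ⟨h1.symm, fun i hi => ?_, ?_⟩
  · rw [← qm_inv X Z α (σ a) i, qm_ne hi, abs_sub_comm]
    exact h2 i hi
  · rw [← qm_inv X Z α (σ a) 2]
    refine qm_two (by rwa [abs_neg, abs_neg]) ?_ ?_ ?_
    · rw [abs_sub_comm]
      exact h2 4 (by decide)
    · rw [abs_sub_comm]
      exact h2 5 (by decide)
    · rw [abs_sub_comm]
      exact h3

theorem NK.refl (Q : Law Ω) (K : Ω → T) (σ : Ω → Fin 6 → ℝ) (α : ℝ) : NK Q K σ 0 0 α 0 0 0 := by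
  refine (SubC.refl Q).mono ?_ le_rfl
  rintro a _ rfl
  refine ⟨rfl, fun i _ => ?_, ?_⟩
  · have : qm 0 0 α (σ a) i = σ a i := by
      fin_cases i <;> simp [qm]
    rw [this, sub_self, abs_zero]
  · have : qm 0 0 α (σ a) 2 = σ a 2 := by simp [qm]
    rw [this, sub_self, abs_zero]

/-- iterates, `k ≥ 0` -/
theorem NK.iter {Q : Law Ω} {K : Ω → T} {σ : Ω → Fin 6 → ℝ} {X Z α ρ τ ε s : ℝ}
    (h : NK Q K σ X Z α ρ τ ε) (hs : |X| + |Z| ≤ s) (hρ : 0 ≤ ρ) (hs0 : 0 ≤ s) (k : ℕ) :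
    NK Q K σ (k * X) (k * Z) α (k * ρ) (k * τ + k ^ 2 * (ρ * s)) (k * ε) := by
  induction k with
  | zero =>
    have := NK.refl Q K σ α
    simpa using this
  | succ k ih =>
    have h1 := ih.comp h hs
    have hρs : 0 ≤ ρ * s := mul_nonneg hρ hs0
    have e1 : (k : ℝ) * X + X = ((k + 1 : ℕ) : ℝ) * X := by push_cast; ring
    have e2 : (k : ℝ) * Z + Z = ((k + 1 : ℕ) : ℝ) * Z := by push_cast; ring
    rw [e1, e2] at h1
    refine h1.mono ?_ ?_ ?_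
    · push_cast; linarith
    · push_cast
      nlinarith [hρs, (Nat.cast_nonneg k : (0 : ℝ) ≤ k)]
    · push_cast; linarith

/-- iterates, `k ∈ ℤ` -/
theorem NK.ziter {Q : Law Ω} {K : Ω → T} {σ : Ω → Fin 6 → ℝ} {X Z α ρ ε s : ℝ}
    (h : NK Q K σ X Z α ρ ρ ε) (hs : |X| + |Z| ≤ s) (hρ : 0 ≤ ρ) (hs0 : 0 ≤ s) (k : ℤ) :
    NK Q K σ (k * X) (k * Z) α (|(k : ℝ)| * ρ) (|(k : ℝ)| * (ρ * (1 + s)) + |(k : ℝ)| ^ 2 * (ρ * s))
      (|(k : ℝ)| * ε) := by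
  have hρs : 0 ≤ ρ * s := mul_nonneg hρ hs0
  rcases le_or_gt 0 k with hk | hk
  · obtain ⟨n, rfl⟩ := Int.eq_ofNat_of_zero_le hk
    have h1 := h.iter hs hρ hs0 n
    have e1 : |((n : ℤ) : ℝ)| = n := by
      rw [Int.cast_natCast, abs_of_nonneg (Nat.cast_nonneg n)]
    rw [e1, Int.cast_natCast]
    refine h1.mono le_rfl ?_ le_rfl
    have := mul_nonneg (Nat.cast_nonneg n : (0 : ℝ) ≤ n) hρs
    nlinarith
  · obtain ⟨n, hn⟩ := Int.eq_ofNat_of_zero_le (by omega : 0 ≤ -k)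
    have h1 := (h.inv hs).iter (s := s) (by rwa [abs_neg, abs_neg]) hρ hs0 n
    have e0 : (k : ℝ) = -(n : ℝ) := by
      have : ((-k : ℤ) : ℝ) = ((n : ℤ) : ℝ) := by exact_mod_cast congrArg (Int.cast : ℤ → ℝ) hn
      push_cast at this
      linarith
    have e1 : |(k : ℝ)| = n := by
      rw [e0, abs_neg, abs_of_nonneg (Nat.cast_nonneg n)]
    rw [e1, e0]
    have e2 : (n : ℝ) * -X = -(n : ℝ) * X := by ring
    have e3 : (n : ℝ) * -Z = -(n : ℝ) * Z := by ring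
    rw [e2, e3] at h1
    refine h1.mono le_rfl ?_ le_rfl
    have : (n : ℝ) * (ρ + ρ * s) = n * (ρ * (1 + s)) := by ring
    rw [this]

/-- Cramer -/
lemma cramer {x1 z1 x2 z2 vx vz : ℝ} (hd : x1 * z2 - x2 * z1 ≠ 0) :
    (vx * z2 - x2 * vz) / (x1 * z2 - x2 * z1) * x1 + (x1 * vz - vx * z1) / (x1 * z2 - x2 * z1) * x2 = vx ∧
    (vx * z2 - x2 * vz) / (x1 * z2 - x2 * z1) * z1 + (x1 * vz - vx * z1) / (x1 * z2 - x2 * z1) * z2 = vz := by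
  constructor
  · rw [div_mul_eq_mul_div, div_mul_eq_mul_div, ← add_div, div_eq_iff hd]
    ring
  · rw [div_mul_eq_mul_div, div_mul_eq_mul_div, ← add_div, div_eq_iff hd]
    ring

/-- the numbers of `mesh` -/
lemma mesh_num {n m N ρ μ : ℝ} (n0 : 0 ≤ n) (m0 : 0 ≤ m) (hN1 : 1 ≤ N) (hnm : n + m ≤ N) (hρ : 0 ≤ ρ) (hμ1 : μ ≤ 1) :
    n * (ρ * (1 + 2 * μ)) + n ^ 2 * (ρ * (2 * μ)) + (m * (ρ * (1 + 2 * μ)) + m ^ 2 * (ρ * (2 * μ))) +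
      n * ρ * (m * (2 * μ)) ≤ N ^ 2 * (5 * ρ) := by
  have hNN : N ≤ N ^ 2 := by nlinarith
  have hsq : (n + m) ^ 2 ≤ N ^ 2 := pow_le_pow_left₀ (by positivity) hnm 2
  have hsm : ρ * (1 + 2 * μ) ≤ 3 * ρ := by nlinarith
  have hsm2 : ρ * (2 * μ) ≤ 2 * ρ := by nlinarith
  have j1 : n * (ρ * (1 + 2 * μ)) ≤ n * (3 * ρ) := mul_le_mul_of_nonneg_left hsm n0
  have j2 : m * (ρ * (1 + 2 * μ)) ≤ m * (3 * ρ) := mul_le_mul_of_nonneg_left hsm m0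
  have j3 : n ^ 2 * (ρ * (2 * μ)) ≤ n ^ 2 * (2 * ρ) := mul_le_mul_of_nonneg_left hsm2 (by positivity)
  have j4 : m ^ 2 * (ρ * (2 * μ)) ≤ m ^ 2 * (2 * ρ) := mul_le_mul_of_nonneg_left hsm2 (by positivity)
  have j5 : n * ρ * (m * (2 * μ)) ≤ (n * m) * (2 * ρ) := by
    have := mul_le_mul_of_nonneg_left hsm2 (mul_nonneg n0 m0)
    linarith
  have j6 := mul_le_mul_of_nonneg_right (hnm.trans hNN) (by positivity : 0 ≤ 3 * ρ)
  have j7 := mul_le_mul_of_nonneg_right hsq (by positivity : 0 ≤ 2 * ρ)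
  have j8 : 0 ≤ (n * m) * (2 * ρ) := by positivity
  have j9 : (n + m) ^ 2 * (2 * ρ) = n ^ 2 * (2 * ρ) + m ^ 2 * (2 * ρ) + 2 * ((n * m) * (2 * ρ)) := by ring
  have j10 : (n + m) * (3 * ρ) = n * (3 * ρ) + m * (3 * ρ) := by ring
  have j11 : N ^ 2 * (3 * ρ) + N ^ 2 * (2 * ρ) = N ^ 2 * (5 * ρ) := by ring
  linarith

/-- **MESH** : two independent vectors of one cell give every target vector up to the size of the two vectors -/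
theorem mesh {Q : Law Ω} {K : Ω → T} {σ : Ω → Fin 6 → ℝ} {X₁ Z₁ X₂ Z₂ α ρ ε μ θ Rg : ℝ} (hμ1 : μ ≤ 1)
    (hX₁ : |X₁| ≤ μ) (hZ₁ : |Z₁| ≤ μ) (hX₂ : |X₂| ≤ μ) (hZ₂ : |Z₂| ≤ μ) (hθ : 0 < θ) (hd : θ ≤ |X₁ * Z₂ - X₂ * Z₁|)
    (hρ : 0 ≤ ρ) (hε : 0 ≤ ε) (h₁ : NK Q K σ X₁ Z₁ α ρ ρ ε) (h₂ : NK Q K σ X₂ Z₂ α ρ ρ ε) {VX VZ : ℝ}
    (hVX : |VX| ≤ Rg) (hVZ : |VZ| ≤ Rg) :
    ∃ X Z : ℝ, |X - VX| ≤ μ ∧ |Z - VZ| ≤ μ ∧
      NK Q K σ X Z α ((4 * Rg * μ / θ + 1) ^ 2 * (5 * ρ)) ((4 * Rg * μ / θ + 1) ^ 2 * (5 * ρ))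
        ((4 * Rg * μ / θ + 1) * ε) := by
  have hμ0 : 0 ≤ μ := (abs_nonneg _).trans hX₁
  have hR0 : 0 ≤ Rg := (abs_nonneg _).trans hVX
  set D := X₁ * Z₂ - X₂ * Z₁ with hD
  have hDa : 0 < |D| := hθ.trans_le hd
  have hD0 : D ≠ 0 := abs_pos.1 hDa
  obtain ⟨c1, c2⟩ := cramer (vx := VX) (vz := VZ) hD0
  set p := (VX * Z₂ - X₂ * VZ) / D with hp
  set q := (X₁ * VZ - VX * Z₁) / D with hq
  have bnd : ∀ a b c d : ℝ, |a| ≤ Rg → |b| ≤ μ → |c| ≤ μ → |d| ≤ Rg → |(a * b - c * d) / D| ≤ 2 * Rg * μ / θ := by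
    intro a b c d ha hb hc hd'
    rw [abs_div]
    have h1 : |a * b - c * d| ≤ 2 * Rg * μ := by
      have := abs_sub (a * b) (c * d)
      rw [abs_mul, abs_mul] at this
      have i1 := mul_le_mul ha hb (abs_nonneg _) hR0
      have i2 := mul_le_mul hc hd' (abs_nonneg _) hμ0
      linarith
    have h2 : 0 ≤ 2 * Rg * μ := by positivity
    exact div_le_div₀ h2 h1 hθ hd
  have hpb : |p| ≤ 2 * Rg * μ / θ := bnd VX Z₂ X₂ VZ hVX hZ₂ hX₂ hVZ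
  have hqb : |q| ≤ 2 * Rg * μ / θ := by
    have := bnd VZ X₁ Z₁ VX hVZ hX₁ hZ₁ hVX
    have e : (X₁ * VZ - VX * Z₁) / D = (VZ * X₁ - Z₁ * VX) / D := by ring
    rw [hq, e]
    exact this
  set n : ℤ := round p
  set m : ℤ := round q
  have hn : |p - n| ≤ 1 / 2 := abs_sub_round p
  have hm : |q - m| ≤ 1 / 2 := abs_sub_round q
  set N : ℝ := 4 * Rg * μ / θ + 1 with hN
  have hN1 : 1 ≤ N := by
    have : 0 ≤ 4 * Rg * μ / θ := by positivity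
    linarith
  have hnm : |(n : ℝ)| + |(m : ℝ)| ≤ N := by
    have i1 : |(n : ℝ)| ≤ |p| + 1 / 2 := by
      have : (n : ℝ) = p - (p - n) := by ring
      rw [this]
      exact (abs_sub _ _).trans (by linarith)
    have i2 : |(m : ℝ)| ≤ |q| + 1 / 2 := by
      have : (m : ℝ) = q - (q - m) := by ring
      rw [this]
      exact (abs_sub _ _).trans (by linarith)
    have i3 : 4 * Rg * μ / θ = 2 * Rg * μ / θ + 2 * Rg * μ / θ := by ring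
    rw [hN, i3]
    linarith
  refine ⟨n * X₁ + m * X₂, n * Z₁ + m * Z₂, ?_, ?_, ?_⟩
  · have e : (n : ℝ) * X₁ + m * X₂ - VX = -(p - n) * X₁ - (q - m) * X₂ := by
      have := c1
      linarith
    rw [e]
    have i1 := abs_sub (-(p - n) * X₁) ((q - m) * X₂)
    rw [abs_mul, abs_mul, abs_neg] at i1
    have i2 := mul_le_mul hn hX₁ (abs_nonneg _) (by norm_num : (0 : ℝ) ≤ 1 / 2)
    have i3 := mul_le_mul hm hX₂ (abs_nonneg _) (by norm_num : (0 : ℝ) ≤ 1 / 2)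
    linarith
  · have e : (n : ℝ) * Z₁ + m * Z₂ - VZ = -(p - n) * Z₁ - (q - m) * Z₂ := by
      have := c2
      linarith
    rw [e]
    have i1 := abs_sub (-(p - n) * Z₁) ((q - m) * Z₂)
    rw [abs_mul, abs_mul, abs_neg] at i1
    have i2 := mul_le_mul hn hZ₁ (abs_nonneg _) (by norm_num : (0 : ℝ) ≤ 1 / 2)
    have i3 := mul_le_mul hm hZ₂ (abs_nonneg _) (by norm_num : (0 : ℝ) ≤ 1 / 2)
    linarith
  · have g1 := h₁.ziter (s := 2 * μ) (by linarith) hρ (by linarith) n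
    have g2 := h₂.ziter (s := 2 * μ) (by linarith) hρ (by linarith) m
    have g3 := g1.comp (s := |(m : ℝ)| * (2 * μ)) g2 (by
      rw [abs_mul, abs_mul, ← mul_add]
      exact mul_le_mul_of_nonneg_left (by linarith) (abs_nonneg _))
    have n0 := abs_nonneg (n : ℝ)
    have m0 := abs_nonneg (m : ℝ)
    refine g3.mono ?_ (mesh_num n0 m0 hN1 hnm hρ hμ1) ?_
    · have e : |(n : ℝ)| * ρ + |(m : ℝ)| * ρ = (|(n : ℝ)| + |(m : ℝ)|) * ρ := by ring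
      have hNN : N ≤ N ^ 2 := by nlinarith
      rw [e]
      have j1 := mul_le_mul_of_nonneg_right (hnm.trans hNN) hρ
      have j2 : 0 ≤ N ^ 2 * ρ := by positivity
      linarith
    · have e : |(n : ℝ)| * ε + |(m : ℝ)| * ε = (|(n : ℝ)| + |(m : ℝ)|) * ε := by ring
      rw [e]
      exact mul_le_mul_of_nonneg_right hnm hε

/-! ### the relation with a target, words -/

/-- `b = g(v; α) a` up to `ρ` with `|v - V| ≤ μ` -/
def MR (σ : Ω → Fin 6 → ℝ) (α VX VZ μ ρ : ℝ) (a b : Ω) : Prop :=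
  ∃ X Z : ℝ, |X - VX| ≤ μ ∧ |Z - VZ| ≤ μ ∧ ∀ i, |σ b i - qm X Z α (σ a) i| ≤ ρ

theorem NK.toMR {Q : Law Ω} {K : Ω → T} {σ : Ω → Fin 6 → ℝ} {X Z α ρ ε VX VZ μ : ℝ}
    (h : NK Q K σ X Z α ρ ρ ε) (hX : |X - VX| ≤ μ) (hZ : |Z - VZ| ≤ μ) :
    SubC Q Q (fun a b => K a = K b ∧ MR σ α VX VZ μ ρ a b) ε := by
  refine SubC.mono h ?_ le_rfl
  rintro a b ⟨h1, h2, h3⟩
  refine ⟨h1, X, Z, hX, hZ, fun i => ?_⟩
  by_cases hi : i = 2
  · subst hi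
    exact h3
  · exact h2 i hi

omit [Fintype Ω] in
/-- change of the curvature -/
theorem MR.alpha {σ : Ω → Fin 6 → ℝ} {α α' VX VZ μ ρ η : ℝ} {a b : Ω} (h : MR σ α VX VZ μ ρ a b) (hα : |α - α'| ≤ η)
    (hVX : |VX| + μ ≤ 1) (hVZ : |VZ| + μ ≤ 1) : MR σ α' VX VZ μ (ρ + η) a b := by
  obtain ⟨X, Z, h1, h2, h3⟩ := h
  refine ⟨X, Z, h1, h2, fun i => ?_⟩
  have hη : 0 ≤ η := (abs_nonneg _).trans hα
  have hX : |X| ≤ 1 := by
    have : X = VX + (X - VX) := by ring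
    rw [this]
    exact (abs_add_le _ _).trans (by linarith)
  have hZ : |Z| ≤ 1 := by
    have : Z = VZ + (Z - VZ) := by ring
    rw [this]
    exact (abs_add_le _ _).trans (by linarith)
  have hd : |qm X Z α (σ a) i - qm X Z α' (σ a) i| ≤ η := by
    fin_cases i
    · show |(σ a 0 + X) - (σ a 0 + X)| ≤ η
      rw [sub_self, abs_zero]; exact hη
    · show |(σ a 1 + Z) - (σ a 1 + Z)| ≤ η
      rw [sub_self, abs_zero]; exact hη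
    · show |(σ a 2 + σ a 4 * X + σ a 5 * Z + α * X ^ 2 / 2) - (σ a 2 + σ a 4 * X + σ a 5 * Z + α' * X ^ 2 / 2)| ≤ η
      have e : (σ a 2 + σ a 4 * X + σ a 5 * Z + α * X ^ 2 / 2) - (σ a 2 + σ a 4 * X + σ a 5 * Z + α' * X ^ 2 / 2) =
        (α - α') * (X ^ 2 / 2) := by ring
      rw [e, abs_mul]
      have : |X ^ 2 / 2| ≤ 1 := by
        have := pow_le_one₀ (n := 2) (abs_nonneg X) hX
        rw [abs_div, abs_pow, abs_of_pos (by norm_num : (0 : ℝ) < 2)]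
        linarith
      exact (mul_le_mul hα this (abs_nonneg _) hη).trans (by rw [mul_one])
    · show |(σ a 3 - α * Z) - (σ a 3 - α' * Z)| ≤ η
      have e : (σ a 3 - α * Z) - (σ a 3 - α' * Z) = -((α - α') * Z) := by ring
      rw [e, abs_neg, abs_mul]
      exact (mul_le_mul hα hZ (abs_nonneg _) hη).trans (by rw [mul_one])
    · show |(σ a 4 + α * X) - (σ a 4 + α' * X)| ≤ η
      have e : (σ a 4 + α * X) - (σ a 4 + α' * X) = (α - α') * X := by ring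
      rw [e, abs_mul]
      exact (mul_le_mul hα hX (abs_nonneg _) hη).trans (by rw [mul_one])
    · show |σ a 5 - σ a 5| ≤ η
      rw [sub_self, abs_zero]; exact hη
  have e : σ b i - qm X Z α' (σ a) i = (σ b i - qm X Z α (σ a) i) + (qm X Z α (σ a) i - qm X Z α' (σ a) i) := by ring
  rw [e]
  exact (abs_add_le _ _).trans (add_le_add (h3 i) hd)

omit [Fintype Ω] in
/-- the fine state changes by `r` at both ends -/
theorem MR.round {σ : Ω → Fin 6 → ℝ} {α VX VZ μ ρ r : ℝ} {a b a' b' : Ω} (h : MR σ α VX VZ μ ρ a' b')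
    (ha : ∀ i, |σ a i - σ a' i| ≤ r) (hb : ∀ i, |σ b' i - σ b i| ≤ r)
    (hVX : |VX| + μ ≤ 1) (hVZ : |VZ| + μ ≤ 1) : MR σ α VX VZ μ (ρ + 4 * r) a b := by
  obtain ⟨X, Z, h1, h2, h3⟩ := h
  have hX : |X| ≤ 1 := by
    have : X = VX + (X - VX) := by ring
    rw [this]
    exact (abs_add_le _ _).trans (by linarith)
  have hZ : |Z| ≤ 1 := by
    have : Z = VZ + (Z - VZ) := by ring
    rw [this]
    exact (abs_add_le _ _).trans (by linarith)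
  refine ⟨X, Z, h1, h2, fun i => ?_⟩
  have hL := Vale.Agent.P106.U.Quad.qm_lip (α := α) hX hZ (σ a') (σ a) r (fun i => by
    rw [abs_sub_comm]; exact ha i) i
  have e : σ b i - qm X Z α (σ a) i = -(σ b' i - σ b i) + (σ b' i - qm X Z α (σ a') i) +
      (qm X Z α (σ a') i - qm X Z α (σ a) i) := by ring
  rw [e]
  have i1 := abs_add_le (-(σ b' i - σ b i) + (σ b' i - qm X Z α (σ a') i)) (qm X Z α (σ a') i - qm X Z α (σ a) i)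
  have i2 := abs_add_le (-(σ b' i - σ b i)) (σ b' i - qm X Z α (σ a') i)
  rw [abs_neg] at i2
  linarith [h3 i, hb i]

omit [Fintype Ω] in
lemma mb {x y a b : ℝ} (hx : |x| ≤ a) (hy : |y| ≤ b) : |x * y| ≤ a * b := by
  rw [abs_mul]
  exact mul_le_mul hx hy (abs_nonneg _) ((abs_nonneg _).trans hx)

omit [Fintype Ω] in
/-- **the word** `M₁ M₂ M₁⁻¹ M₂⁻¹` with targets: shift of `n` by `(α₁ - α₂) VX₁ VX₂`, everything up to `C A Φ (μ + ρ)` -/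
theorem word_mesh {σ : Ω → Fin 6 → ℝ} {α₁ α₂ VX₁ VZ₁ VX₂ VZ₂ μ ρ A Φ : ℝ} {a b c d e : Ω}
    (hA₁ : |α₁| ≤ A) (hA₂ : |α₂| ≤ A) (hA : 1 ≤ A) (hΦ : 1 ≤ Φ) (hμ : 0 ≤ μ) (hμ1 : μ ≤ 1) (hρ : 0 ≤ ρ)
    (hVX₁ : |VX₁| ≤ 1) (hVZ₁ : |VZ₁| ≤ 1) (hVX₂ : |VX₂| ≤ 1) (hVZ₂ : |VZ₂| ≤ 1)
    (ha4 : |σ a 4| ≤ Φ) (ha5 : |σ a 5| ≤ Φ)
    (h1 : MR σ α₁ VX₁ VZ₁ μ ρ a b) (h2 : MR σ α₂ VX₂ VZ₂ μ ρ b c) (h3 : MR σ α₁ VX₁ VZ₁ μ ρ d c)
    (h4 : MR σ α₂ VX₂ VZ₂ μ ρ e d) :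
    |σ e 2 - σ a 2 - (α₁ - α₂) * (VX₁ * VX₂)| ≤ 40 * (A * Φ) * (μ + ρ) ∧
      ∀ i, i ≠ 2 → |σ e i - σ a i| ≤ 40 * (A * Φ) * (μ + ρ) := by
  obtain ⟨X1, Z1, x1, z1, g1⟩ := h1
  obtain ⟨X2, Z2, x2, z2, g2⟩ := h2
  obtain ⟨X3, Z3, x3, z3, g3⟩ := h3
  obtain ⟨X4, Z4, x4, z4, g4⟩ := h4
  -- sizes
  have sz : ∀ X V : ℝ, |X - V| ≤ μ → |V| ≤ 1 → |X| ≤ 2 := fun X V h h' => by
    have : X = (X - V) + V := by ring
    rw [this]
    exact (abs_add_le _ _).trans (by linarith)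
  have sX1 := sz X1 VX₁ x1 hVX₁
  have sX2 := sz X2 VX₂ x2 hVX₂
  have sX3 := sz X3 VX₁ x3 hVX₁
  have sX4 := sz X4 VX₂ x4 hVX₂
  have sZ1 := sz Z1 VZ₁ z1 hVZ₁
  have sZ2 := sz Z2 VZ₂ z2 hVZ₂
  have sZ3 := sz Z3 VZ₁ z3 hVZ₁
  have sZ4 := sz Z4 VZ₂ z4 hVZ₂
  have d13 : |X1 - X3| ≤ 2 * μ := by
    have := abs_le.1 x1; have := abs_le.1 x3
    rw [abs_le]; constructor <;> linarith
  have d24 : |X2 - X4| ≤ 2 * μ := by
    have := abs_le.1 x2; have := abs_le.1 x4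
    rw [abs_le]; constructor <;> linarith
  have k13 : |Z1 - Z3| ≤ 2 * μ := by
    have := abs_le.1 z1; have := abs_le.1 z3
    rw [abs_le]; constructor <;> linarith
  have k24 : |Z2 - Z4| ≤ 2 * μ := by
    have := abs_le.1 z2; have := abs_le.1 z4
    rw [abs_le]; constructor <;> linarith
  have hAΦ : A ≤ A * Φ := le_mul_of_one_le_right (by linarith) hΦ
  have hΦA : Φ ≤ A * Φ := le_mul_of_one_le_left (by linarith) hA
  have hAμ : A * μ ≤ A * Φ * μ := mul_le_mul_of_nonneg_right hAΦ hμ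
  have hΦμ : Φ * μ ≤ A * Φ * μ := mul_le_mul_of_nonneg_right hΦA hμ
  have h1AΦ : 1 ≤ A * Φ := hA.trans hAΦ
  have hμΦ : μ ≤ A * Φ * μ := by
    have := mul_le_mul_of_nonneg_right h1AΦ hμ
    linarith
  have hρΦ : ρ ≤ A * Φ * ρ := by
    have := mul_le_mul_of_nonneg_right h1AΦ hρ
    linarith
  have hT : 40 * (A * Φ) * (μ + ρ) = 40 * (A * Φ * μ) + 40 * (A * Φ * ρ) := by ring
  have hAΦμ0 : 0 ≤ A * Φ * μ := hμ.trans hμΦ
  have hAΦρ0 : 0 ≤ A * Φ * ρ := hρ.trans hρΦ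
  constructor
  · -- errors
    have p2 := g1 2; have p4 := g1 4; have p5 := g1 5
    have q2 := g2 2; have q4 := g2 4; have q5 := g2 5
    have r2 := g3 2; have r4 := g3 4; have r5 := g3 5
    have t2 := g4 2; have t4 := g4 4; have t5 := g4 5
    rw [qm2] at p2 q2 r2 t2
    rw [qm4] at p4 q4 r4 t4
    rw [qm5] at p5 q5 r5 t5
    generalize σ a 2 = a2 at *
    generalize σ b 2 = b2 at *
    generalize σ c 2 = c2 at *
    generalize σ d 2 = d2 at *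
    generalize σ e 2 = e2 at *
    generalize σ a 4 = a4 at *
    generalize σ b 4 = b4 at *
    generalize σ c 4 = c4 at *
    generalize σ d 4 = d4 at *
    generalize σ e 4 = e4 at *
    generalize σ a 5 = a5 at *
    generalize σ b 5 = b5 at *
    generalize σ c 5 = c5 at *
    generalize σ d 5 = d5 at *
    generalize σ e 5 = e5 at *
    obtain ⟨P2, hP2⟩ : ∃ P2, P2 = b2 - (a2 + a4 * X1 + a5 * Z1 + α₁ * X1 ^ 2 / 2) := ⟨_, rfl⟩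
    obtain ⟨P4, hP4⟩ : ∃ P4, P4 = b4 - (a4 + α₁ * X1) := ⟨_, rfl⟩
    obtain ⟨P5, hP5⟩ : ∃ P5, P5 = b5 - a5 := ⟨_, rfl⟩
    obtain ⟨Q2, hQ2⟩ : ∃ Q2, Q2 = c2 - (b2 + b4 * X2 + b5 * Z2 + α₂ * X2 ^ 2 / 2) := ⟨_, rfl⟩
    obtain ⟨Q4, hQ4⟩ : ∃ Q4, Q4 = c4 - (b4 + α₂ * X2) := ⟨_, rfl⟩
    obtain ⟨Q5, hQ5⟩ : ∃ Q5, Q5 = c5 - b5 := ⟨_, rfl⟩
    obtain ⟨R2, hR2⟩ : ∃ R2, R2 = c2 - (d2 + d4 * X3 + d5 * Z3 + α₁ * X3 ^ 2 / 2) := ⟨_, rfl⟩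
    obtain ⟨R4, hR4⟩ : ∃ R4, R4 = c4 - (d4 + α₁ * X3) := ⟨_, rfl⟩
    obtain ⟨R5, hR5⟩ : ∃ R5, R5 = c5 - d5 := ⟨_, rfl⟩
    obtain ⟨T2, hT2⟩ : ∃ T2, T2 = d2 - (e2 + e4 * X4 + e5 * Z4 + α₂ * X4 ^ 2 / 2) := ⟨_, rfl⟩
    obtain ⟨T4, hT4⟩ : ∃ T4, T4 = d4 - (e4 + α₂ * X4) := ⟨_, rfl⟩
    obtain ⟨T5, hT5⟩ : ∃ T5, T5 = d5 - e5 := ⟨_, rfl⟩
    rw [← hP2] at p2
    rw [← hP4] at p4
    rw [← hP5] at p5
    rw [← hQ2] at q2
    rw [← hQ4] at q4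
    rw [← hQ5] at q5
    rw [← hR2] at r2
    rw [← hR4] at r4
    rw [← hR5] at r5
    rw [← hT2] at t2
    rw [← hT4] at t4
    rw [← hT5] at t5
    have key : e2 - a2 - (α₁ - α₂) * (VX₁ * VX₂) =
        a4 * ((X1 - X3) + (X2 - X4)) + a5 * ((Z1 - Z3) + (Z2 - Z4)) +
        α₁ * ((X1 - VX₁) * X2) + α₁ * (VX₁ * (X2 - VX₂)) - α₂ * ((X2 - VX₂) * X3) - α₂ * (VX₂ * (X3 - VX₁)) +
        P4 * X2 + P5 * Z2 - (α₁ * (X1 - X3)) * (X3 + X4) - (α₂ * (X2 - X4)) * X4 -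
        (P4 + Q4 - R4) * (X3 + X4) + T4 * X4 - (P5 + Q5 - R5) * (Z3 + Z4) + T5 * Z4 +
        (α₁ * (X1 - X3)) * ((X1 + X3) / 2) + (α₂ * (X2 - X4)) * ((X2 + X4) / 2) + (P2 + Q2 - R2 - T2) := by
      have e_b4 : b4 = P4 + (a4 + α₁ * X1) := by linarith
      have e_b5 : b5 = P5 + a5 := by linarith
      have e_c4 : c4 = Q4 + (b4 + α₂ * X2) := by linarith
      have e_c5 : c5 = Q5 + b5 := by linarith
      have e_d4 : d4 = c4 - R4 - α₁ * X3 := by linarith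
      have e_d5 : d5 = c5 - R5 := by linarith
      have e_e4 : e4 = d4 - T4 - α₂ * X4 := by linarith
      have e_e5 : e5 = d5 - T5 := by linarith
      have e_e2 : e2 = d2 - T2 - (e4 * X4 + e5 * Z4 + α₂ * X4 ^ 2 / 2) := by linarith
      have e_d2 : d2 = c2 - R2 - (d4 * X3 + d5 * Z3 + α₁ * X3 ^ 2 / 2) := by linarith
      have e_c2 : c2 = Q2 + (b2 + b4 * X2 + b5 * Z2 + α₂ * X2 ^ 2 / 2) := by linarith
      have e_b2 : b2 = P2 + (a2 + a4 * X1 + a5 * Z1 + α₁ * X1 ^ 2 / 2) := by linarith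
      rw [e_e2, e_d2, e_c2, e_b2, e_e4, e_e5, e_d4, e_d5, e_c4, e_c5, e_b4, e_b5]
      ring
    have s2 : |X3 + X4| ≤ 4 := (abs_add_le _ _).trans (by linarith)
    have s3 : |Z3 + Z4| ≤ 4 := (abs_add_le _ _).trans (by linarith)
    have s4 : |(X1 + X3) / 2| ≤ 2 := by
      rw [abs_div, abs_of_pos (by norm_num : (0 : ℝ) < 2)]
      have := abs_add_le X1 X3
      linarith
    have s5 : |(X2 + X4) / 2| ≤ 2 := by
      rw [abs_div, abs_of_pos (by norm_num : (0 : ℝ) < 2)]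
      have := abs_add_le X2 X4
      linarith
    have s6 : |(X1 - X3) + (X2 - X4)| ≤ 4 * μ := (abs_add_le _ _).trans (by linarith)
    have s7 : |(Z1 - Z3) + (Z2 - Z4)| ≤ 4 * μ := (abs_add_le _ _).trans (by linarith)
    have s8 : |P4 + Q4 - R4| ≤ 3 * ρ := by
      have := abs_sub (P4 + Q4) R4
      have := abs_add_le P4 Q4
      linarith
    have s9 : |P5 + Q5 - R5| ≤ 3 * ρ := by
      have := abs_sub (P5 + Q5) R5
      have := abs_add_le P5 Q5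
      linarith
    have u1 := abs_le.1 (mb ha4 s6)
    have u2 := abs_le.1 (mb ha5 s7)
    have u3 := abs_le.1 (mb hA₁ (mb x1 sX2))
    have u4 := abs_le.1 (mb hA₁ (mb hVX₁ x2))
    have u5 := abs_le.1 (mb hA₂ (mb x2 sX3))
    have u6 := abs_le.1 (mb hA₂ (mb hVX₂ x3))
    have u7 := abs_le.1 (mb p4 sX2)
    have u8 := abs_le.1 (mb p5 sZ2)
    have u9 := abs_le.1 (mb (mb hA₁ d13) s2)
    have u10 := abs_le.1 (mb (mb hA₂ d24) sX4)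
    have u11 := abs_le.1 (mb s8 s2)
    have u12 := abs_le.1 (mb t4 sX4)
    have u13 := abs_le.1 (mb s9 s3)
    have u14 := abs_le.1 (mb t5 sZ4)
    have u15 := abs_le.1 (mb (mb hA₁ d13) s4)
    have u16 := abs_le.1 (mb (mb hA₂ d24) s5)
    have v1 := abs_le.1 p2
    have v2 := abs_le.1 q2
    have v3 := abs_le.1 r2
    have v4 := abs_le.1 t2
    rw [key, hT, abs_le]
    constructor <;> linarith
  · intro i hi
    have p := abs_le.1 (g1 i)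
    have q := abs_le.1 (g2 i)
    have r := abs_le.1 (g3 i)
    have t := abs_le.1 (g4 i)
    have u1 := abs_le.1 (mb hA₁ d13)
    have u2 := abs_le.1 (mb hA₂ d24)
    have u3 := abs_le.1 (mb hA₁ k13)
    have u4 := abs_le.1 (mb hA₂ k24)
    have d13' := abs_le.1 d13
    have d24' := abs_le.1 d24
    have k13' := abs_le.1 k13
    have k24' := abs_le.1 k24
    rw [hT]
    fin_cases i
    · change _ ≤ σ b 0 - (σ a 0 + X1) ∧ σ b 0 - (σ a 0 + X1) ≤ _ at p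
      change _ ≤ σ c 0 - (σ b 0 + X2) ∧ σ c 0 - (σ b 0 + X2) ≤ _ at q
      change _ ≤ σ c 0 - (σ d 0 + X3) ∧ σ c 0 - (σ d 0 + X3) ≤ _ at r
      change _ ≤ σ d 0 - (σ e 0 + X4) ∧ σ d 0 - (σ e 0 + X4) ≤ _ at t
      show |σ e 0 - σ a 0| ≤ _
      rw [abs_le]
      constructor <;> linarith
    · change _ ≤ σ b 1 - (σ a 1 + Z1) ∧ σ b 1 - (σ a 1 + Z1) ≤ _ at p
      change _ ≤ σ c 1 - (σ b 1 + Z2) ∧ σ c 1 - (σ b 1 + Z2) ≤ _ at q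
      change _ ≤ σ c 1 - (σ d 1 + Z3) ∧ σ c 1 - (σ d 1 + Z3) ≤ _ at r
      change _ ≤ σ d 1 - (σ e 1 + Z4) ∧ σ d 1 - (σ e 1 + Z4) ≤ _ at t
      show |σ e 1 - σ a 1| ≤ _
      rw [abs_le]
      constructor <;> linarith
    · exact absurd rfl hi
    · change _ ≤ σ b 3 - (σ a 3 - α₁ * Z1) ∧ σ b 3 - (σ a 3 - α₁ * Z1) ≤ _ at p
      change _ ≤ σ c 3 - (σ b 3 - α₂ * Z2) ∧ σ c 3 - (σ b 3 - α₂ * Z2) ≤ _ at q
      change _ ≤ σ c 3 - (σ d 3 - α₁ * Z3) ∧ σ c 3 - (σ d 3 - α₁ * Z3) ≤ _ at r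
      change _ ≤ σ d 3 - (σ e 3 - α₂ * Z4) ∧ σ d 3 - (σ e 3 - α₂ * Z4) ≤ _ at t
      show |σ e 3 - σ a 3| ≤ _
      rw [abs_le]
      constructor <;> linarith
    · change _ ≤ σ b 4 - (σ a 4 + α₁ * X1) ∧ σ b 4 - (σ a 4 + α₁ * X1) ≤ _ at p
      change _ ≤ σ c 4 - (σ b 4 + α₂ * X2) ∧ σ c 4 - (σ b 4 + α₂ * X2) ≤ _ at q
      change _ ≤ σ c 4 - (σ d 4 + α₁ * X3) ∧ σ c 4 - (σ d 4 + α₁ * X3) ≤ _ at r
      change _ ≤ σ d 4 - (σ e 4 + α₂ * X4) ∧ σ d 4 - (σ e 4 + α₂ * X4) ≤ _ at t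
      show |σ e 4 - σ a 4| ≤ _
      rw [abs_le]
      constructor <;> linarith
    · change _ ≤ σ b 5 - σ a 5 ∧ σ b 5 - σ a 5 ≤ _ at p
      change _ ≤ σ c 5 - σ b 5 ∧ σ c 5 - σ b 5 ≤ _ at q
      change _ ≤ σ c 5 - σ d 5 ∧ σ c 5 - σ d 5 ≤ _ at r
      change _ ≤ σ d 5 - σ e 5 ∧ σ d 5 - σ e 5 ≤ _ at t
      show |σ e 5 - σ a 5| ≤ _
      rw [abs_le]
      constructor <;> linarith

end Vale.Agent.P106.U.H122
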