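import Vale.Agent.P106.U.H785.MtrOk
import Vale.Agent.P106.U.CellE
import Vale.Agent.P106.U.H364.N4
import Vale.Agent.P106.U.H958.Frz
import Vale.Agent.P106.U.H300.YC

/-!
# P106 / U / H122 : the cells with true digits are near-nested in the step (helper122)

* `mtr_lt` : the cell `mtr j b` of a later step and the prefix of the step `i` determine the letter `lt i` off `Bad`.
* `mtr_down` : .. and the cell `mtr i b`.
* `hc_mtr_down` : entropy form.
-/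

set_option autoImplicit false

namespace Vale.Agent.P106.U.H122

open Finset Vale.Agent.P127 Vale.Agent.P127.Stk
open Vale.Agent.P127.U.CellD (q2 rd Nb q2_pos q2_le q2_add fl1_fl1 rd_sub rd_err)
open Vale.Agent.P106.U.Cell
open Vale.Agent.P106.U.H785.Mtr

section

variable {Ω π : Type} {D : Mtd Ω π} {K : ℝ} {I : Set ℕ} {i j b : ℕ} {ω ω' : Ω}

/-- the data of `mtr_down` -/
structure Dn (D : Mtd Ω π) (K : ℝ) (I : Set ℕ) (i j b : ℕ) : Prop where
  K1 : 1 ≤ K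
  hi : i ∈ I
  hj : j ∈ I
  ij : i ≤ j
  a : D.a i + 2 * D.μ ≤ D.a j
  k : D.rk i + D.ν ≤ D.rk j
  R : D.R i b + D.μ ≤ D.R j b
  b8 : 8 * D.μ ≤ b
  R8 : 8 * D.μ ≤ D.R i b

/-- two points with the same later cell and the same prefix -/
structure Sm (D : Mtd Ω π) (K : ℝ) (I : Set ℕ) (i j b : ℕ) (ω ω' : Ω) : Prop where
  h : D.Hy K I ω
  h' : D.Hy K I ω'
  pf : D.pf i ω = D.pf i ω'
  e : D.mtr j b ω = D.mtr j b ω'

lemma rr_le' (H : Dn D K I i j b) : q2 (D.rr j) ≤ q2 (D.rk i) := q2_le (by have := H.k; unfold Mtd.rr; omega)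

lemma Sm.g (S : Sm D K I i j b ω ω') : D.g i ω' = D.g i ω := by
  unfold Mtd.g
  rw [S.pf]

lemma Sm.tj (S : Sm D K I i j b ω ω') : fl1 (D.a j) (D.t ω) = fl1 (D.a j) (D.t ω') :=
  congrArg (fun x : Lt π × Pth.Dg => x.1.1) S.e

lemma Sm.kj (S : Sm D K I i j b ω ω') : D.kN j ω = D.kN j ω' :=
  congrArg (fun x : Lt π × Pth.Dg => x.1.2.2.1) S.e

lemma Sm.uj (S : Sm D K I i j b ω ω') : D.uN j ω = D.uN j ω' :=
  congrArg (fun x : Lt π × Pth.Dg => x.1.2.2.2.1) S.e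

lemma Sm.nj (S : Sm D K I i j b ω ω') : D.nN j ω = D.nN j ω' :=
  congrArg (fun x : Lt π × Pth.Dg => x.1.2.2.2.2) S.e

lemma Sm.ti (S : Sm D K I i j b ω ω') (H : Dn D K I i j b) : fl1 (D.a i) (D.t ω) = fl1 (D.a i) (D.t ω') :=
  fl1_fl1 (D.ha H.ij) S.tj

lemma s_of {n : ℕ} {D : Mtd Ω π} (h : fl1 (D.a n) (D.t ω) = fl1 (D.a n) (D.t ω')) : D.s n ω' = D.s n ω := by
  unfold Mtd.s rd
  rw [h]

lemma off_near {n : ℕ} {x y o : ℝ} (h : fl1 n (x + o) = fl1 n (y + o)) : |y - x| ≤ q2 n := by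
  have := near_of_fl h
  rwa [add_sub_add_right_eq_sub] at this

/-- kappa -/
lemma Sm.kappa (S : Sm D K I i j b ω ω') (H : Dn D K I i j b) :
    |D.κ i ω' - D.κ i ω| ≤ 3 * K * q2 (D.rk i) := by
  have e1 := S.h.ka i H.hi j H.hj H.ij
  have e2 := S.h'.ka i H.hi j H.hj H.ij
  rw [s_of S.tj, s_of (S.ti H), S.g] at e2
  have e3 : |D.κ j ω' - D.κ j ω| ≤ q2 (D.rr j) := off_near S.kj
  have e4 := rr_le' H
  have K1 := H.K1
  have q := q2_pos (D.rk i)
  rw [abs_le] at e1 e2 e3 ⊢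
  have : q2 (D.rk i) ≤ K * q2 (D.rk i) := by nlinarith
  constructor <;> linarith [e1.1, e1.2, e2.1, e2.2, e3.1, e3.2]

/-- the rays in the later cell -/
lemma Sm.nr (S : Sm D K I i j b ω ω') (H : Dn D K I i j b) :
    |(D.l ω').w - (D.l ω).w| ≤ 640 * K ^ 2 * q2 (b + 2 * D.μ) ∧
      |(D.l ω').N (D.s j ω) - (D.l ω).N (D.s j ω)| ≤ q2 (D.a j + b - D.μ) := by
  have hL : (D.p1 j).Lev 0 b := by
    refine ⟨H.b8, ?_⟩
    rw [D.p1_R]
    have := H.R8
    have := H.R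
    show 8 * D.μ ≤ D.R j b
    omega
  have hN := Pth.Nr_of_cell' (K := 8 * K) (by have := H.K1; linarith) (Mtd.pa_ok H.K1 S.h fun _ => H.hj) hL
    ((D.p1_cell_iff j 0 b ω ω').2 S.e)
  refine ⟨hN.w.trans (le_of_eq (by show 10 * (8 * K) ^ 2 * q2 (b + 2 * D.μ) = _; ring)), hN.N⟩

/-- N-position at the earlier step -/
lemma Sm.Npos (S : Sm D K I i j b ω ω') (H : Dn D K I i j b) :
    |(D.l ω').N (D.s i ω') - (D.l ω).N (D.s i ω)| ≤ 641 * K ^ 2 * q2 (D.a i + b) := by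
  obtain ⟨h1, h2⟩ := S.nr H
  have K1 := H.K1
  have K2 : 1 ≤ K ^ 2 := one_le_pow₀ K1
  have hs : |D.s i ω - D.s j ω| ≤ q2 (D.a i) := by
    rw [abs_sub_comm]
    exact rd_sub (D.ha H.ij) _
  have e : (D.l ω').N (D.s i ω') - (D.l ω).N (D.s i ω) = ((D.l ω').N (D.s j ω) - (D.l ω).N (D.s j ω)) +
      (D.s i ω - D.s j ω) * ((D.l ω').w - (D.l ω).w) := by
    rw [s_of (S.ti H)]
    unfold Ray.N
    ring
  rw [e]
  have t1 : |(D.s i ω - D.s j ω) * ((D.l ω').w - (D.l ω).w)| ≤ 640 * K ^ 2 * q2 (D.a i + b) := by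
    rw [abs_mul]
    calc _ ≤ q2 (D.a i) * (640 * K ^ 2 * q2 (b + 2 * D.μ)) := mul_le_mul hs h1 (abs_nonneg _) (q2_pos _).le
      _ = 640 * K ^ 2 * (q2 (D.a i) * q2 (b + 2 * D.μ)) := by ring
      _ ≤ _ := by
        refine mul_le_mul_of_nonneg_left ?_ (by positivity)
        rw [← q2_add]
        exact q2_le (by omega)
  have t2 : q2 (D.a j + b - D.μ) ≤ q2 (D.a i + b) := q2_le (by have := H.a; have := H.b8; omega)
  have q := q2_pos (D.a i + b)
  have : q2 (D.a i + b) ≤ K ^ 2 * q2 (D.a i + b) := by nlinarith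
  refine (abs_add_le _ _).trans ?_
  linarith

/-- gamma -/
lemma Sm.gamma (S : Sm D K I i j b ω ω') (H : Dn D K I i j b) (hn : D.nN i ω = D.nN i ω') :
    |D.u i ω' - D.u i ω| ≤ 19 * K * q2 (D.rk i) := by
  have K1 := H.K1
  have K0 : 0 < K := by linarith
  set r := q2 (D.rk i) with hr
  have r0 : 0 < r := q2_pos _
  set σ := D.s j ω - D.s i ω with hσ
  have hs : |σ| ≤ q2 (D.a i) := by
    have := rd_sub (D.ha H.ij) (D.t ω)
    exact this
  have sj := s_of S.tj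
  have si := s_of (S.ti H)
  have hNi : D.Nr i ω' = D.Nr i ω := by unfold Mtd.Nr; rw [hn]
  have hNj : D.Nr j ω' = D.Nr j ω := by unfold Mtd.Nr; rw [S.nj]
  -- the identity
  have id : ∀ x : Ω, D.s j x = D.s j ω → D.s i x = D.s i ω →
      D.u i x - D.u j x = (D.κ i x - D.κ j x - σ * D.g i x) * (D.l x).w +
        (D.g i x - D.al i x) * σ * (D.l x).w + (D.al i x - D.al j x) * ((D.l x).N (D.s j x) - D.Nr j x) +
        D.al i x * (D.Nr j x - D.Nr i x) := by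
    intro x h1 h2
    unfold Mtd.u
    have : (D.l x).N (D.s i x) = (D.l x).N (D.s j x) - σ * (D.l x).w := by
      rw [h1, h2, hσ]
      unfold Ray.N
      ring
    rw [this]
    ring
  have E1 := id ω rfl rfl
  have E2 := id ω' sj si
  -- bounds of the terms
  have A1 : ∀ x : Ω, D.Hy K I x → D.s j x = D.s j ω → D.s i x = D.s i ω →
      |(D.κ i x - D.κ j x - σ * D.g i x) * (D.l x).w| ≤ 2 * K * r := by
    intro x hx h1 h2
    have t := hx.ka i H.hi j H.hj H.ij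
    rw [h1, h2] at t
    rw [abs_mul]
    calc _ ≤ K * r * 2 := mul_le_mul t hx.w1 (abs_nonneg _) (by positivity)
      _ = _ := by ring
  have A2 : ∀ x : Ω, D.Hy K I x → |(D.g i x - D.al i x) * σ * (D.l x).w| ≤ 2 * K * r := by
    intro x hx
    have t := hx.ap i H.hi
    rw [abs_mul, abs_mul, abs_sub_comm]
    have t2 : |D.al i x - D.g i x| * |σ| ≤ K * r := (mul_le_mul_of_nonneg_left hs (abs_nonneg _)).trans t
    calc _ ≤ K * r * 2 := mul_le_mul t2 hx.w1 (abs_nonneg _) (by positivity)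
      _ = _ := by ring
  have A3 : ∀ x : Ω, D.Hy K I x → |(D.al i x - D.al j x) * ((D.l x).N (D.s j x) - D.Nr j x)| ≤ K * r := by
    intro x hx
    have t := hx.aa i H.hi j H.hj H.ij
    rw [abs_mul, abs_sub_comm (D.al i x)]
    exact (mul_le_mul_of_nonneg_left (Mtd.Nr_near D j x) (abs_nonneg _)).trans t
  have A4 : |(D.al i ω' - D.al i ω) * (D.Nr j ω - D.Nr i ω)| ≤ 8 * K * r := by
    have t1 := S.h.ap i H.hi
    have t2 := S.h'.ap i H.hi
    rw [S.g] at t2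
    have t3 : |D.al i ω' - D.al i ω| * q2 (D.a i) ≤ 2 * K * r := by
      have e : D.al i ω' - D.al i ω = (D.al i ω' - D.g i ω) - (D.al i ω - D.g i ω) := by ring
      rw [e]
      have := mul_le_mul_of_nonneg_right (abs_sub (D.al i ω' - D.g i ω) (D.al i ω - D.g i ω)) (q2_pos (D.a i)).le
      linarith
    have t4 : |D.Nr j ω - D.Nr i ω| ≤ 4 * q2 (D.a i) := by
      have n1 := Mtd.Nr_near D j ω
      have n2 := Mtd.Nr_near D i ω
      have n3 : q2 (D.a j) ≤ q2 (D.a i) := q2_le (D.ha H.ij)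
      have n4 : (D.l ω).N (D.s i ω) = (D.l ω).N (D.s j ω) - σ * (D.l ω).w := by
        rw [hσ]
        unfold Ray.N
        ring
      have n5 : |σ * (D.l ω).w| ≤ 2 * q2 (D.a i) := by
        rw [abs_mul, mul_comm 2]
        exact mul_le_mul hs S.h.w1 (abs_nonneg _) (q2_pos _).le
      rw [n4] at n2
      rw [abs_le] at n1 n2 n5 ⊢
      constructor <;> linarith [n1.1, n1.2, n2.1, n2.2, n5.1, n5.2]
    rw [abs_mul]
    calc _ ≤ |D.al i ω' - D.al i ω| * (4 * q2 (D.a i)) := mul_le_mul_of_nonneg_left t4 (abs_nonneg _)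
      _ = 4 * (|D.al i ω' - D.al i ω| * q2 (D.a i)) := by ring
      _ ≤ 4 * (2 * K * r) := by linarith
      _ = _ := by ring
  have B1 := A1 ω S.h rfl rfl
  have B1' := A1 ω' S.h' sj si
  have B2 := A2 ω S.h
  have B2' := A2 ω' S.h'
  have B3 := A3 ω S.h
  have B3' := A3 ω' S.h'
  have e5 : |D.u j ω' - D.u j ω| ≤ q2 (D.rr j) := off_near S.uj
  have e6 : q2 (D.rr j) ≤ r := rr_le' H
  have e7 : r ≤ K * r := by nlinarith
  rw [hNi, hNj] at E2
  have E4 : D.al i ω' * (D.Nr j ω - D.Nr i ω) = D.al i ω * (D.Nr j ω - D.Nr i ω) +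
      (D.al i ω' - D.al i ω) * (D.Nr j ω - D.Nr i ω) := by ring
  rw [hNj] at B3'
  rw [abs_le] at *
  constructor <;> linarith [B1.1, B1.2, B1'.1, B1'.2, B2.1, B2.2, B2'.1, B2'.2, B3.1, B3.2, B3'.1, B3'.2, A4.1, A4.2,
    e5.1, e5.2]

/-- the digits of the N-position of the earlier step -/
lemma Sm.nN (S : Sm D K I i j b ω ω') (H : Dn D K I i j b)
    (hB : ¬ (D.p2 i j H.ij).Bad (640 * (8 * K) ^ 7) 0 b ω) : D.nN i ω = D.nN i ω' := by
  have h1 := S.Npos H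
  have K1 := H.K1
  have hb := H.b8
  have h2 : fl1 (D.a i + b - D.μ) ((D.l ω).N (D.s i ω) + D.o 2) =
      fl1 (D.a i + b - D.μ) ((D.l ω').N (D.s i ω') + D.o 2) := by
    refine Pth.fl_eq hB 2 ?_
    show |(D.l ω').N (D.s i ω') - (D.l ω).N (D.s i ω)| ≤ 640 * (8 * K) ^ 7 * q2 (D.a i + b - D.μ + D.μ)
    rw [show D.a i + b - D.μ + D.μ = D.a i + b by omega]
    refine h1.trans (mul_le_mul_of_nonneg_right ?_ (q2_pos _).le)
    have k2 : K ^ 2 ≤ K ^ 7 := pow_le_pow_right₀ K1 (by norm_num)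
    have k3 : (0 : ℝ) ≤ K ^ 7 := by positivity
    calc 641 * K ^ 2 ≤ 641 * K ^ 7 := by linarith
      _ ≤ 640 * 8 ^ 7 * K ^ 7 := by nlinarith
      _ = _ := by ring
  exact fl1_fl1 (by omega) h2

/-- **the letter of the earlier step** -/
theorem mtr_lt (S : Sm D K I i j b ω ω') (H : Dn D K I i j b)
    (hB : ¬ (D.p2 i j H.ij).Bad (640 * (8 * K) ^ 7) 0 b ω)
    (hκ : ¬ Nb (D.rr i) (D.κ i ω + D.oκ) (3 * K * q2 (D.rk i)))
    (hu : ¬ Nb (D.rr i) (D.u i ω + D.oγ) (19 * K * q2 (D.rk i))) : D.lt i ω = D.lt i ω' := by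
  have K0 : 0 < K := by have := H.K1; linarith
  have q := q2_pos (D.rk i)
  have hn := S.nN H hB
  have h1 : D.kN i ω = D.kN i ω' := Nb.eq hκ (by rw [sub_self, abs_zero]; positivity)
    (by rw [add_sub_add_right_eq_sub]; exact S.kappa H)
  have h2 : D.uN i ω = D.uN i ω' := Nb.eq hu (by rw [sub_self, abs_zero]; positivity)
    (by rw [add_sub_add_right_eq_sub]; exact S.gamma H hn)
  unfold Mtd.lt
  rw [S.ti H, S.pf, h1, h2, hn]

/-- the levels of the path of two letters -/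
lemma Dn.lev0 (H : Dn D K I i j b) : (D.p2 i j H.ij).Lev 0 b := by
  refine ⟨H.b8, ?_⟩
  rw [Pth.R_eq]
  exact H.R8

lemma Dn.R1 (H : Dn D K I i j b) : (D.p2 i j H.ij).R 1 b = D.R j b := by
  rw [Pth.R_eq]
  rfl

lemma Dn.R0 (H : Dn D K I i j b) : (D.p2 i j H.ij).R 0 b = D.R i b := by
  rw [Pth.R_eq]
  rfl

lemma Dn.lev1 (H : Dn D K I i j b) : (D.p2 i j H.ij).Lev 1 b := by
  refine ⟨H.b8, ?_⟩
  rw [H.R1]
  have := H.R8
  have := H.R
  show 8 * D.μ ≤ D.R j b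
  omega

/-- the path of two letters is admissible -/
lemma Dn.ok (H : Dn D K I i j b) {x : Ω} (hx : D.Hy K I x) : (D.p2 i j H.ij).Ok (8 * K) x := by
  refine Mtd.pa_ok H.K1 hx fun k => ?_
  unfold Mtd.tw
  split_ifs
  · exact H.hi
  · exact H.hj

/-- **[MTR-I]** : the cell `mtr j b` of a later step and the prefix of the step `i` determine the cell `mtr i b` off `Bad` -/
theorem mtr_down (S : Sm D K I i j b ω ω') (H : Dn D K I i j b)
    (hB : ¬ (D.p2 i j H.ij).Bad (640 * (8 * K) ^ 7) 0 b ω)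
    (hκ : ¬ Nb (D.rr i) (D.κ i ω + D.oκ) (3 * K * q2 (D.rk i)))
    (hu : ¬ Nb (D.rr i) (D.u i ω + D.oγ) (19 * K * q2 (D.rk i))) : D.mtr i b ω = D.mtr i b ω' := by
  have hl := mtr_lt S H hB hκ hu
  have h1 : (D.p2 i j H.ij).cell 1 b ω = (D.p2 i j H.ij).cell 1 b ω' := (D.p2_cell1_iff i j H.ij b ω ω').2 ⟨hl, S.e⟩
  refine (D.p2_cell0_iff i j H.ij b ω ω').1 ?_
  refine Pth.cell_down (by have := H.K1; linarith) (H.ok S.h) (H.ok S.h') (Nat.zero_le 1) H.lev0 H.lev1 H.a ?_ hB h1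
  rw [H.R0, H.R1]
  exact H.R

/-! ### entropy form -/

lemma prE_mono' [Fintype Ω] (P : Law Ω) {E F : Ω → Prop} (h : ∀ ω, 0 < P.w ω → E ω → F ω) : prE P E ≤ prE P F := by
  rw [← H300.ex_ind_eq, ← H300.ex_ind_eq]
  refine P.ex_mono fun ω hω => ?_
  by_cases hE : E ω
  · rw [Law.ind_of hE, Law.ind_of (h ω hω hE)]
  · rw [Law.ind_not hE]
    by_cases hF : F ω
    · rw [Law.ind_of hF]; norm_num
    · rw [Law.ind_not hF]

/-- the exceptional event of `mtr_down` -/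
def BdI (D : Mtd Ω π) (K : ℝ) (i j b : ℕ) (h : i ≤ j) (ω : Ω) : Prop :=
  (D.p2 i j h).Bad (640 * (8 * K) ^ 7) 0 b ω ∨ Nb (D.rr i) (D.κ i ω + D.oκ) (3 * K * q2 (D.rk i)) ∨
    Nb (D.rr i) (D.u i ω + D.oγ) (19 * K * q2 (D.rk i))

/-- the constant of `hc_mtr_down` -/
noncomputable def cI (K : ℝ) (M : ℕ) : ℝ := 10 + 3 * Real.log ((2 * M + 3 : ℕ) : ℝ) + 9 * Real.log (2 * H300.MK (8 * K) + 3)

variable [Fintype Ω]

/-- the letter, entropy form -/
theorem hc_lt_down (P : Law Ω) (H : Dn D K I i j b) (hy : ∀ ω, 0 < P.w ω → D.Hy K I ω) {M : ℕ} (hM : 641 * K ^ 2 ≤ M) :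
    hc P (D.lt i) (fun ω => (D.pf i ω, D.mtr j b ω)) ≤
      (6 + 3 * Real.log ((2 * M + 3 : ℕ) : ℝ)) * Real.sqrt (prE P (BdI D K i j b H.ij)) := by
  have K1 := H.K1
  have K2 : 1 ≤ K ^ 2 := one_le_pow₀ K1
  have KK : K ≤ K ^ 2 := by nlinarith
  set B := BdI D K i j b H.ij with hB
  set Y : Ω → π × (Lt π × Pth.Dg) := fun ω => (D.pf i ω, D.mtr j b ω) with hY
  have sm : ∀ ω ω', 0 < P.w ω → 0 < P.w ω' → Y ω = Y ω' → Sm D K I i j b ω ω' := fun ω ω' p p' e =>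
    ⟨hy ω p, hy ω' p', congrArg Prod.fst e, congrArg Prod.snd e⟩
  have hr : q2 (D.rk i) ≤ q2 (D.rr i) := Mtd.rr_le D i
  have ltE : ∀ ω ω', 0 < P.w ω → 0 < P.w ω' → ¬ B ω → Y ω = Y ω' → D.lt i ω = D.lt i ω' := by
    intro ω ω' p p' n e
    rw [hB] at n
    unfold BdI at n
    push Not at n
    exact mtr_lt (sm ω ω' p p' e) H n.1 n.2.1 n.2.2
  have a1 : hc P (D.nN i) Y ≤ (2 + Real.log ((2 * M + 3 : ℕ) : ℝ)) * Real.sqrt (prE P B) := by
    refine H364.nhc P _ Y B (2 * M + 3) (by omega)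
      (fun ω ω' p p' n _ e => congrArg (fun x : Lt π => x.2.2.2.2) (ltE ω ω' p p' n e))
      (H364.N4.int_card P _ Y fun ω ω' p p' e => ?_)
    refine H364.fl1_le_of_near (M := M) ?_
    rw [add_sub_add_right_eq_sub]
    refine ((sm ω ω' p p' e).Npos H).trans (mul_le_mul hM (q2_le (by omega)) (q2_pos _).le (by positivity))
  have a2 : hc P (D.kN i) Y ≤ (2 + Real.log ((2 * M + 3 : ℕ) : ℝ)) * Real.sqrt (prE P B) := by
    refine H364.nhc P _ Y B (2 * M + 3) (by omega)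
      (fun ω ω' p p' n _ e => congrArg (fun x : Lt π => x.2.2.1) (ltE ω ω' p p' n e))
      (H364.N4.int_card P _ Y fun ω ω' p p' e => ?_)
    refine H364.fl1_le_of_near (M := M) ?_
    rw [add_sub_add_right_eq_sub]
    refine ((sm ω ω' p p' e).kappa H).trans (mul_le_mul ?_ hr (q2_pos _).le (by positivity))
    linarith
  have a3 : hc P (D.uN i) (fun ω => (D.nN i ω, Y ω)) ≤
      (2 + Real.log ((2 * M + 3 : ℕ) : ℝ)) * Real.sqrt (prE P B) := by
    refine H364.nhc P _ _ B (2 * M + 3) (by omega)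
      (fun ω ω' p p' n _ e => congrArg (fun x : Lt π => x.2.2.2.1) (ltE ω ω' p p' n (congrArg Prod.snd e)))
      (H364.N4.int_card P _ _ fun ω ω' p p' e => ?_)
    refine H364.fl1_le_of_near (M := M) ?_
    rw [add_sub_add_right_eq_sub]
    refine ((sm ω ω' p p' (congrArg Prod.snd e)).gamma H (congrArg Prod.fst e)).trans
      (mul_le_mul ?_ hr (q2_pos _).le (by positivity))
    linarith
  have b1 : hc P (D.lt i) Y ≤ hc P (fun ω => (D.nN i ω, (D.uN i ω, D.kN i ω))) Y := by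
    refine hc_mono_left P ?_
    intro ω ω' p p' e
    simp only [Prod.mk.injEq] at e
    obtain ⟨⟨e1, e2, e3⟩, e4⟩ := e
    have S := sm ω ω' p p' e4
    unfold Mtd.lt
    rw [S.ti H, S.pf, e1, e2, e3]
  have b2 := hc_pair P (D.nN i) (fun ω => (D.uN i ω, D.kN i ω)) Y
  have b3 := hc_pair P (D.uN i) (D.kN i) (fun ω => (D.nN i ω, Y ω))
  have b4 : hc P (D.kN i) (fun ω => (D.uN i ω, (D.nN i ω, Y ω))) ≤ hc P (D.kN i) Y :=
    hc_mono_right P _ fun _ _ _ _ e => congrArg Prod.snd (congrArg Prod.snd e)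
  nlinarith

/-- **[MTR-I], entropy form** -/
theorem hc_mtr_down (P : Law Ω) (H : Dn D K I i j b) (hy : ∀ ω, 0 < P.w ω → D.Hy K I ω) {M : ℕ} (hM : 641 * K ^ 2 ≤ M) :
    hc P (D.mtr i b) (fun ω => (D.pf i ω, D.mtr j b ω)) ≤ cI K M * Real.sqrt (prE P (BdI D K i j b H.ij)) := by
  have a1 := hc_lt_down P H hy hM
  have a2 := H958.near1 P (D.p2 i j H.ij) (K := 8 * K) (i := 0) (j := 1) (b := b) (by have := H.K1; linarith)
    (fun ω p => H.ok (hy ω p)) (Nat.zero_le 1) H.lev0 H.lev1 H.a (by rw [H.R0, H.R1]; exact H.R)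
  have a3 : Real.sqrt (prE P ((D.p2 i j H.ij).Bad (640 * (8 * K) ^ 7) 0 b)) ≤
      Real.sqrt (prE P (BdI D K i j b H.ij)) :=
    Real.sqrt_le_sqrt (prE_mono' P fun ω _ h => Or.inl h)
  have a4 := hc_le_add' P (D.mtr i b) (D.lt i) (fun ω => (D.pf i ω, D.mtr j b ω))
  have a5 : hc P (D.mtr i b) (fun ω => (D.lt i ω, (D.pf i ω, D.mtr j b ω))) ≤
      hc P ((D.p2 i j H.ij).cell 0 b) ((D.p2 i j H.ij).cell 1 b) := by
    refine (hc_mono_left P (X' := (D.p2 i j H.ij).cell 0 b) ?_).trans (hc_mono_right P _ ?_)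
    · intro ω ω' _ _ e
      exact (D.p2_cell0_iff i j H.ij b ω ω').1 (Prod.mk.inj e).1
    · intro ω ω' _ _ e
      simp only [Prod.mk.injEq] at e
      exact (D.p2_cell1_iff i j H.ij b ω ω').2 ⟨e.1, e.2.2⟩
  have a6 : 0 ≤ 4 + 9 * Real.log (2 * H300.MK (8 * K) + 3) := by
    have : 0 ≤ Real.log (2 * H300.MK (8 * K) + 3) := Real.log_nonneg (by
      have : (0 : ℝ) ≤ H300.MK (8 * K) := Nat.cast_nonneg _
      linarith)
    linarith
  have a7 := mul_le_mul_of_nonneg_left a3 a6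
  unfold cI
  linarith

end

end Vale.Agent.P106.U.H122
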