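import Vale.Agent.P106.U.H122.V1
import Vale.Agent.P106.U.H565.SelA

/-!
# P106 / U / H122 : last step of the rows with square roots (helper122)

* `p1_Bad` : the exceptional event of `p1 i` is the one of `fz i i` at `i`.
* `prE_tower`, **`sum_prE_le`** : one cap: the sum over the labels of the probabilities of the exceptional events (regime, word)
  is at most the mean of the sum over the indices of the record.
* `sum_sqrt2` : Cauchy–Schwarz over caps and labels; **`row_sqrt`** : both.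
-/

set_option autoImplicit false

namespace Vale.Agent.P106.U.H122.RowN

open Finset Vale.Agent.P127 Vale.Agent.P127.Stk
open Vale.Agent.P127.U.CellD (q2 rd Nb q2_pos q2_le q2_add)
open Vale.Agent.P106.U.Cell
open Vale.Agent.P106.U.H785.Mtr
open Vale.Agent.P106.U.H470.Fib (cond_supp)

/-! ### the exceptional event of one letter -/

/-- **the exceptional event of `p1 i` is the one of the frozen path** -/
theorem p1_Bad {Ω π : Type} (D : Mtd Ω π) (i : ℕ) (K : ℝ) (b : ℕ) (ω : Ω) :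
    (D.p1 i).Bad K 0 b ω ↔ (D.fz i i).Bad K i b ω := by
  have hF : (D.p1 i).F 0 ω = (D.fz i i).F i ω := by
    rw [D.fz_Fk le_rfl]
  have hs : (D.p1 i).s 0 ω = (D.fz i i).s i ω := by
    rw [D.fz_s le_rfl]; rfl
  have hbs : (D.p1 i).bs 0 b = (D.fz i i).bs i b := by
    rw [D.fz_bs le_rfl]
  have hR : (D.p1 i).R 0 b = (D.fz i i).R i b := by
    rw [D.fz_R le_rfl, D.p1_R]
  have ha : (D.p1 i).a 0 = (D.fz i i).a i := by
    rw [D.fz_a le_rfl]; rfl
  have hsl : (D.p1 i).sl 0 b ω = (D.fz i i).sl i b ω := by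
    unfold Pth.sl
    rw [hF, hbs]
    rfl
  have hFr : ∀ n, (D.p1 i).Fr 0 b n ω = (D.fz i i).Fr i b n ω := by
    intro n
    unfold Pth.Fr
    rw [hF, hbs, hsl]
    rfl
  have hva : (D.p1 i).va 0 b ω = (D.fz i i).va i b ω := by
    unfold Pth.va
    rw [hsl, hs, hR, hFr]
    rfl
  have hlv : (D.p1 i).lv 0 b = (D.fz i i).lv i b := by
    unfold Pth.lv
    rw [ha, hR]
    rfl
  unfold Pth.Bad
  rw [hva, hlv]
  rfl

/-! ### one cap: labels and indices -/

section cap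

variable {Ω : Type} [Fintype Ω] {W X : Type}

/-- **tower** -/
theorem prE_tower (P : Law Ω) (v : Ω → W) (E : Ω → Prop) :
    P.ex (fun ω => prE (P.cond v (v ω)) E) = prE P E := by
  have h := Vale.Agent.P127.U.Pin.ex_cond P v (fun ω => Law.ind (E ω))
  rw [H300.ex_ind_eq] at h
  rw [← h]
  refine P.ex_congr fun ω _ => ?_
  rw [H300.ex_ind_eq]

open Classical in
/-- **labels and indices** : the sum over the labels of the probabilities of the events (regime of the word, exceptional event of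
the label) is at most the mean of the sum over the indices of the word -/
theorem sum_prE_le (P : Law Ω) (v : Ω → W) (Λ : Finset X) (C : X → W → Prop) (E : X → W → Ω → Prop) (S : W → Finset ℕ)
    (i : X → W → ℕ) (F : W → ℕ → Ω → Prop) (G : W → Prop)
    (hG : ∀ x ∈ Λ, ∀ ω, 0 < P.w ω → C x (v ω) → G (v ω) ∧ i x (v ω) ∈ S (v ω))
    (hinj : ∀ ω, 0 < P.w ω → ∀ x ∈ Λ, ∀ y ∈ Λ, C x (v ω) → C y (v ω) → i x (v ω) = i y (v ω) → x = y)
    (hE : ∀ x ∈ Λ, ∀ ω, 0 < P.w ω → C x (v ω) → ∀ ω', 0 < (P.cond v (v ω)).w ω' → E x (v ω) ω' →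
      F (v ω) (i x (v ω)) ω') :
    ∑ x ∈ Λ, prE P (fun ω => C x (v ω) ∧ E x (v ω) ω) ≤
      P.ex (fun ω => if G (v ω) then ∑ j ∈ S (v ω), prE (P.cond v (v ω)) (F (v ω) j) else 0) := by
  have e1 : ∑ x ∈ Λ, prE P (fun ω => C x (v ω) ∧ E x (v ω) ω) =
      P.ex (fun ω => ∑ x ∈ Λ, prE (P.cond v (v ω)) (fun ω' => C x (v ω') ∧ E x (v ω') ω')) := by
    rw [H565.ex_sum' P Λ]
    exact Finset.sum_congr rfl fun x _ => (prE_tower P v _).symm
  rw [e1]
  refine P.ex_mono fun ω hω => ?_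
  have key : ∀ x ∈ Λ, prE (P.cond v (v ω)) (fun ω' => C x (v ω') ∧ E x (v ω') ω') ≤
      if C x (v ω) then prE (P.cond v (v ω)) (F (v ω) (i x (v ω))) else 0 := by
    intro x hx
    by_cases hc : C x (v ω)
    · rw [if_pos hc]
      refine prE_mono' _ fun ω' h' h2 => ?_
      have q := cond_supp P hω h'
      rw [q.2] at h2
      exact hE x hx ω hω hc ω' h' h2.2
    · rw [if_neg hc]
      have h0 : prE (P.cond v (v ω)) (fun ω' => C x (v ω') ∧ E x (v ω') ω') ≤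
          prE (P.cond v (v ω)) (fun _ => False) := prE_mono' _ fun ω' h' h2 => by
        have q := cond_supp P hω h'
        rw [q.2] at h2
        exact hc h2.1
      have h1 : prE (P.cond v (v ω)) (fun _ => False) = 0 := by
        unfold prE
        simp
      linarith
  refine (Finset.sum_le_sum key).trans ?_
  rw [← Finset.sum_filter]
  by_cases hg : G (v ω)
  · rw [if_pos hg]
    have h1 : ∑ x ∈ Λ.filter (fun x => C x (v ω)), prE (P.cond v (v ω)) (F (v ω) (i x (v ω))) =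
        ∑ j ∈ (Λ.filter fun x => C x (v ω)).image fun x => i x (v ω), prE (P.cond v (v ω)) (F (v ω) j) := by
      rw [Finset.sum_image]
      intro x hx y hy e
      rw [Finset.coe_filter] at hx hy
      exact hinj ω hω x hx.1 y hy.1 hx.2 hy.2 e
    rw [h1]
    refine Finset.sum_le_sum_of_subset_of_nonneg ?_ fun _ _ _ => prE_nonneg _ _
    intro j hj
    rw [Finset.mem_image] at hj
    obtain ⟨x, hx, rfl⟩ := hj
    rw [Finset.mem_filter] at hx
    exact (hG x hx.1 ω hω hx.2).2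
  · rw [if_neg hg]
    have h1 : Λ.filter (fun x => C x (v ω)) = ∅ := by
      rw [Finset.filter_eq_empty_iff]
      intro x hx hc
      exact hg (hG x hx ω hω hc).1
    rw [h1, Finset.sum_empty]

end cap

/-! ### Cauchy–Schwarz -/

/-- caps and labels -/
theorem sum_sqrt2 {ι κ : Type*} (S : Finset ι) (T : Finset κ) (q : ι → κ → ℝ) (hq : ∀ i ∈ S, ∀ x ∈ T, 0 ≤ q i x)
    {N Y : ℝ} (hN : (S.card : ℝ) * T.card ≤ N) (hY : ∑ i ∈ S, ∑ x ∈ T, q i x ≤ Y) :
    ∑ i ∈ S, ∑ x ∈ T, Real.sqrt (q i x) ≤ Real.sqrt (N * Y) := by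
  rw [← Finset.sum_product' S T fun i x => Real.sqrt (q i x)]
  rw [← Finset.sum_product' S T fun i x => q i x] at hY
  have hI : ∀ z ∈ S ×ˢ T, 0 ≤ q z.1 z.2 := fun z hz =>
    hq z.1 (Finset.mem_product.1 hz).1 z.2 (Finset.mem_product.1 hz).2
  have h0 : 0 ≤ ∑ z ∈ S ×ˢ T, q z.1 z.2 := Finset.sum_nonneg hI
  have h1 : (∑ z ∈ S ×ˢ T, Real.sqrt (q z.1 z.2)) ^ 2 ≤ (S ×ˢ T).card * ∑ z ∈ S ×ˢ T, Real.sqrt (q z.1 z.2) ^ 2 :=
    sq_sum_le_card_mul_sum_sq
  have h2 : ∑ z ∈ S ×ˢ T, Real.sqrt (q z.1 z.2) ^ 2 = ∑ z ∈ S ×ˢ T, q z.1 z.2 :=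
    Finset.sum_congr rfl fun z hz => Real.sq_sqrt (hI z hz)
  rw [h2, Finset.card_product] at h1
  push_cast at h1
  have hN0 : 0 ≤ N := le_trans (by positivity) hN
  have h3 : (S.card : ℝ) * T.card * ∑ z ∈ S ×ˢ T, q z.1 z.2 ≤ N * Y :=
    mul_le_mul hN hY h0 hN0
  exact Real.le_sqrt_of_sq_le (h1.trans h3)

open Classical in
/-- **the near part of a row** : caps `k ∈ S`, labels `x ∈ Λ`, events at the word of the cap -/
theorem row_sqrt {Ω : Type} [Fintype Ω] {W X : Type} (P : Law Ω) (S : Finset ℕ) (v : ℕ → Ω → W) (Λ : Finset X)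
    (C : ℕ → X → W → Prop) (E : ℕ → X → W → Ω → Prop) (I : ℕ → W → Finset ℕ) (i : ℕ → X → W → ℕ)
    (F : ℕ → W → ℕ → Ω → Prop) (G : ℕ → W → Prop)
    (hG : ∀ k ∈ S, ∀ x ∈ Λ, ∀ ω, 0 < P.w ω → C k x (v k ω) → G k (v k ω) ∧ i k x (v k ω) ∈ I k (v k ω))
    (hinj : ∀ k ∈ S, ∀ ω, 0 < P.w ω → ∀ x ∈ Λ, ∀ y ∈ Λ, C k x (v k ω) → C k y (v k ω) →
      i k x (v k ω) = i k y (v k ω) → x = y)
    (hE : ∀ k ∈ S, ∀ x ∈ Λ, ∀ ω, 0 < P.w ω → C k x (v k ω) → ∀ ω', 0 < (P.cond (v k) (v k ω)).w ω' →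
      E k x (v k ω) ω' → F k (v k ω) (i k x (v k ω)) ω') {N Y : ℝ} (hN : (S.card : ℝ) * Λ.card ≤ N)
    (hY : ∑ k ∈ S, P.ex (fun ω => if G k (v k ω) then
      ∑ j ∈ I k (v k ω), prE (P.cond (v k) (v k ω)) (F k (v k ω) j) else 0) ≤ Y) :
    ∑ k ∈ S, ∑ x ∈ Λ, Real.sqrt (prE P (fun ω => C k x (v k ω) ∧ E k x (v k ω) ω)) ≤ Real.sqrt (N * Y) :=
  sum_sqrt2 S Λ (fun k x => prE P (fun ω => C k x (v k ω) ∧ E k x (v k ω) ω)) (fun _ _ _ _ => prE_nonneg _ _) hN
    ((Finset.sum_le_sum fun k hk => sum_prE_le P (v k) Λ (C k) (E k) (I k) (i k) (F k) (G k) (hG k hk) (hinj k hk)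
      (hE k hk)).trans hY)

end Vale.Agent.P106.U.H122.RowN
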