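import Vale.Agent.P106.U.H339.XsC
import Vale.Agent.P106.U.H470.AgeL

/-!
# P106 / U / H122 : age of the young levels (helper122)

* `age_le`, `age_lt` : the age is at most the cap; smaller than `K1` if the index has changed since the cap `k - K1`.
* `C0.yngA` : for a level `v ∈ Vs` of a place `(b0, kk)`: the index `RT v` has age `< K1`, the lags of `v - 1` and `v` are at
  least `D0`, the level is diagonal.
-/

set_option autoImplicit false

namespace Vale.Agent.P106.U.H122.YngA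

open Vale.Agent.P106.U.H661.Age

/-- the age is at most the cap -/
theorem age_le (k : ℕ → ℕ) (b : ℕ) : age k b ≤ b := by
  induction b with
  | zero => exact le_refl _
  | succ b ih =>
    have : age k (b + 1) = if k (b + 1) = k b then age k b + 1 else 0 := rfl
    rw [this]
    split_ifs <;> omega

/-- **the index has changed since the cap `b - K1`** : age `< K1` -/
theorem age_lt (k : ℕ → ℕ) {b K1 : ℕ} (h : k (b - K1) ≠ k b) : age k b < K1 := by
  by_contra hc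
  push Not at hc
  have h1 := age_le k b
  have h2 := age_back k (b - K1) K1 (by
    have : b - K1 + K1 = b := by omega
    rwa [this])
  have h3 : b - K1 + K1 = b := by omega
  rw [h3] at h2
  exact h h2.2.symm

end Vale.Agent.P106.U.H122.YngA

namespace Vale.Agent.P106.U.H565

open Finset Vale.Agent.P127 Vale.Agent.P127.Stk Vale.Agent.P127.U Vale.Agent.P106.W
open Vale.Agent.P106.U Vale.Agent.P106.U.H449 Vale.Agent.P106.U.StripL Vale.Agent.P106.U.StripE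
open Vale.Agent.P106.U.LinkR Vale.Agent.P106.U.H661
open Vale.Agent.P106.U.H661.Age (ag)

namespace C0

variable {Ω : Type} [Fintype Ω] {c : C0 Ω} {hm : 3 ≤ c.I.m} {cc : ℝ} {Q1 : Law Ω} {E1 : List (Lt 2)} {x1 : ℝ}
  {s b0 kk : ℕ} {ω : Ω} {z : ℕ → ℕ → ℕ} {K1 D0 g v : ℕ}

/-- **the young levels of a place** -/
theorem yngA (cn : Cn c.rule c.P Q1 c.I.pm.n E1 x1) (in0 : ∀ ω, c.d0.In (c.tW ω) (c.κ ω)) (hc : 0 ≤ cc)
    (hz : c.Zr hm cc s Q1 b0 kk ω = z) (hg : 1 ≤ g) (hD : 2 ≤ D0)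
    (hv : v ∈ Yng.Vs (H339W.RCz c.I.ha kk z) (Rw c.I.pm.n E1 1) c.I.ha D0 g (kk - K1) kk) :
    1 ≤ v ∧ v + g ≤ c.I.ha ∧ c.RT hm cc Q1 (b0 + (kk - K1) * s) v ω ≠ c.RT hm cc Q1 (b0 + kk * s) v ω ∧
      ag (fun j ω => c.RT hm cc Q1 (b0 + j * s) v ω) kk ω < K1 ∧
      c.RT hm cc Q1 (b0 + kk * s) (v - 1) ω + D0 ≤ Rw c.I.pm.n E1 1 (v - 1) ∧
      c.RT hm cc Q1 (b0 + kk * s) v ω + D0 ≤ Rw c.I.pm.n E1 1 v ∧
      c.RT hm cc Q1 (b0 + kk * s) v ω = c.RT hm cc Q1 (b0 + kk * s) (v - 1) ω + 1 := by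
  obtain ⟨h1, h2, h3, h4⟩ := Yng.mem_Vs.1 hv
  have key : ∀ a', a' ≤ v + g → v ≤ a' + g → c.RT hm cc Q1 (b0 + (kk - K1) * s) a' ω ≠
      c.RT hm cc Q1 (b0 + kk * s) a' ω ∧ c.RT hm cc Q1 (b0 + kk * s) a' ω + D0 ≤ Rw c.I.pm.n E1 1 a' := by
    intro a' q1 q2
    have h5 := h4 a' q1 q2
    unfold Yng.dp Yng.ch at h5
    rw [Finset.mem_filter, Finset.mem_range] at h5
    obtain ⟨h6, h7, h8⟩ := h5
    have ha : a' ≤ c.I.ha := by omega
    rw [H339W.rcz hz (Nat.sub_le _ _) ha, H339W.rcz hz le_rfl ha] at h7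
    rw [H339W.rcz hz le_rfl ha] at h8
    exact ⟨h7, h8⟩
  have k1 := key v (by omega) (by omega)
  have k2 := key (v - 1) (by omega) (by omega)
  refine ⟨by omega, h3, k1.1, H122.YngA.age_lt (fun j => c.RT hm cc Q1 (b0 + j * s) v ω) k1.1, k2.2, k1.2, ?_⟩
  have h5 := rt_eq (hm := hm) cn in0 hc (b0 + kk * s) ω (a := v - 1) (by omega) (by omega)
  have h6 : v - 1 + 1 = v := by omega
  rwa [h6] at h5

end C0

end Vale.Agent.P106.U.H565
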