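import Vale.Agent.P106.U.H61.PLem
import Vale.Agent.P106.U.H449.NGe
import Vale.Agent.P106.U.H428.RunPt
import Vale.Agent.P106.U.H470.V2Win
import Vale.Agent.P106.U.H122.LastN
import Vale.Agent.P106.U.H122.YngA

/-!
# P106 / U / H122 : last step of [V2] over the windows of helper712 and the frame of helper61 (helper122)

* `cv_cases` : the data at a cap are those of a value of the word.
* `nJ_le` : `n + J + 1 ≤ (5 + 2 K1) h / m` at every place; `F2b_low` : `F2b ≥ Fl`.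
* `sV2_eq` : the left side of `F2o.V2` does not depend on the numbers of the deep phi regime.
* `wn_of` : helper470's `Wn` ; `yw_of` : `Yw`.
* `card_labs` : number of the labels.
-/

set_option autoImplicit false

namespace Vale.Agent.P106.U.H122.V2Fin

open Finset Vale.Agent.P127 Vale.Agent.P127.Stk Vale.Agent.P127.U Vale.Agent.P106.W
open Vale.Agent.P127.U.CellD (q2 q2_pos q2_le q2_add)
open Vale.Agent.P106.U Vale.Agent.P106.U.H449 Vale.Agent.P106.U.LinkR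
open Vale.Agent.P106.U.H565 Vale.Agent.P106.U.H823.NumW Vale.Agent.P106.U.H823.PathNum
open Vale.Agent.P106.U.S3 (Run Pf)
open Vale.Agent.P106.U.H61.Ext2 Vale.Agent.P106.U.H61.PS
open Vale.Agent.P106.U.H712.Fam (Win Vl Pl pfC)
open Vale.Agent.P106.U.H122.LastN

section win

variable {Ω : Type} [Fintype Ω] (w : Win Ω)

/-- the data after word 1 -/
noncomputable def wc1 : C1 Ω := w.c.c1 w.gd w.cn

/-- **the data at a cap** -/
theorem cv_cases (k : ℕ) (z : Vl) : ∃ (z' : Vl) (hz : 0 < w.Q1.pr (w.Z k) z'),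
    w.cv k z = w.c.c2 w.hm w.cc w.gd w.cn w.in0 w.hc w.s w.bt w.b0 k z' hz w.oO w.oK w.oG w.oN := by
  classical
  unfold Win.cv
  split_ifs with h
  · exact ⟨z, h, rfl⟩
  · exact ⟨_, w.Q1.pr_pos _ w.pt_pos, rfl⟩

theorem cv_I (k : ℕ) (z : Vl) : (w.cv k z).I = w.c.I ∧ (w.cv k z).N0 = w.N0 ∧ (w.cv k z).K1 = w.K1 := by
  obtain ⟨z', hz, e⟩ := cv_cases w k z
  rw [e]
  exact ⟨rfl, rfl, rfl⟩

/-- **number of the steps** -/
theorem nJ_le (hN : w.N0 = 4) (k : ℕ) (z : Vl) :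
    ((w.R k z).n : ℝ) + (w.nm k z).J + 1 ≤ 2 * (2 + w.K1) * ((w.c.I.h : ℝ) / w.c.I.m) := by
  obtain ⟨e1, e2, e3⟩ := cv_I w k z
  set C := w.cv k z with hC
  have h1 : C.D.n ≤ C.D.L.lev C.D.n + 2 * C.I.QFb + 2 := H428.RunPt.n_J C.D
  have h2 := H428.RunPt.lev_n C
  have h3 := C.good.Ab1
  have h4 := C.good.Ab2
  have h5 := C.good.n2
  have f1 : (w.R k z).n = C.D.n := rfl
  have f2 : (w.nm k z).J = C.I.J := rfl
  rw [e2, hN] at h3 h4 h5
  rw [e1] at h1 h2 h3 h4 h5 f2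
  rw [e3] at h5
  have h6 : C.D.n + w.c.I.J + 1 ≤ 2 * (w.c.I.ha + w.c.I.QFb + 4) := by omega
  have h7 : ((C.D.n : ℝ) + w.c.I.J + 1) ≤ 2 * ((w.c.I.ha : ℝ) + w.c.I.QFb + 4) := by exact_mod_cast h6
  rw [f1, f2]
  refine h7.trans ?_
  push_cast at h5
  linarith

/-- **lower bound of `F2b`** -/
theorem F2b_low (hC1 : 1 ≤ w.c.I.C1) (hδ : 0 ≤ w.c.I.δ1) (hδ8 : 8 * w.c.I.δ1 ≤ 1 / 4) (k : ℕ) (z : Vl) {B μ d : ℕ} {K' : ℝ}
    (hK : 0 ≤ K') :
    Fl w.c.I.h B w.c.I.m μ K' w.c.I.δ1 d ≤ S3.F2b (w.R k z) (w.nm k z) B μ K' d := by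
  obtain ⟨e1, e2, e3⟩ := cv_I w k z
  have h := NGe.F2b_ge (w.cv k z) (R := w.R k z) (p := w.nm k z) (B := B) (μ := μ)
    (d := d) rfl rfl rfl (by rw [e1]; exact hC1) (by rw [e1]; exact hδ) (by rw [e1]; exact hδ8) hK
  rw [e1] at h
  exact h

/-- **the left side of `F2o.V2` at a value of the word** -/
theorem sV2_eq (p : H712.Fam.Par) {k : ℕ} {z : Vl} (hz : 0 < w.Q1.pr (w.Z k) z) (bV : ℕ) (Vs Xs : Finset ℕ) (μ : ℕ)
    (o : Fin 7 → ℝ) (o' : ℕ → ℝ) (d : ℕ) :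
    sV2 (w.R k z) (w.nm k z) p.B bV (w.F p k z) Vs Xs μ o o' d =
      v2S (((wc1 w).mk2 w.hm w.cc w.in0 w.hc (w.b0 + k * w.s) (w.Z k) z hz 4 w.oO w.oK w.oG w.oN).erun w.hm)
        ((wc1 w).mk2 w.hm w.cc w.in0 w.hc (w.b0 + k * w.s) (w.Z k) z hz 4 w.oO w.oK w.oG w.oN).num p.B bV
        (((wc1 w).mk2 w.hm w.cc w.in0 w.hc (w.b0 + k * w.s) (w.Z k) z hz 4 w.oO w.oK w.oG w.oN).pfd w.hm (fun _ => 0)
          (fun _ _ _ => le_rfl) (fun _ => Nat.zero_le _) p.B) Vs Xs μ o o' d := by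
  classical
  have e := w.cv_eq hz
  have h3 := w.cv_m k z
  show sV2 ((w.cv k z).erun h3) (w.cv k z).num p.B bV (pfC (w.cv k z) h3 (w.rt z 0) p.B) Vs Xs μ o o' d = _
  revert h3
  rw [e]
  intro h3
  unfold pfC
  split_ifs
  · rfl
  · rfl

/-- the bits are true -/
def bt (k : ℕ) (z : Vl) : Prop := Win.good k z

/-- **470's hypotheses of the window** -/
theorem wn_of {Rm : ℕ} (h : w.Ho Rm) (T : ℕ) :
    (wc1 w).Wn w.hm w.cc w.in0 w.hc w.b0 w.s T (fun k => w.Z k) Win.good w.oO w.oK w.oG w.oN where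
  ne := fun k ω ω' _ _ e => w.Z_nest (Nat.le_succ k) e
  det := fun k ω ω' _ _ e a ha => w.Z_rt e le_rfl ha
  bdec := fun k ω _ hb => w.Z_nest_iff (Nat.le_succ k) ω hb
  hyp := fun k _ e hz hb => by
    obtain ⟨Ac, rc, H⟩ := h.hyp k e hz hb
    rw [w.cv_eq hz] at H
    exact ⟨Rm, Ac, rc, H⟩

/-- **470's young levels of the window** -/
theorem yw_of {Rm : ℕ} (h : w.Ho Rm) (p : H712.Fam.Par) (hg : 1 ≤ p.g) (hD : 2 ≤ p.D0) (T : ℕ) (Xs : ℕ → Vl → Finset ℕ) :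
    C1.Yw (wc1 w) w.hm w.cc w.b0 w.s T p.k1 (fun k => w.Z k) Win.good (w.Vs p) Xs where
  yg := fun k hk ω hω _ v hv _ => by
    obtain ⟨y1, y2, y3, y4, y5, y6, y7⟩ := C0.yngA (c := w.c) (hm := w.hm) (cc := w.cc) (s := w.s) (b0 := w.b0) (kk := k)
      (ω := ω) w.cn w.in0 w.hc (w.Z_snd k ω).symm hg hD hv
    refine ⟨y1, show v ≤ w.c.I.ha by omega, ?_, y4⟩
    rw [(wn_of w h (T + 1)).rz_eq (k := k) (a := v - 1) (show v - 1 ≤ w.c.I.ha by omega) hω]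
    show w.c.RT w.hm w.cc w.Q1 (w.b0 + k * w.s) (v - 1) ω + 2 ≤ Rw w.c.I.pm.n w.E1 1 (v - 1)
    omega

/-- **number of the labels** -/
theorem card_labs (c : C1 Ω) (B : ℕ) : (labs c B).card ≤ 2 * c.I.ha + c.I.pm.n := by
  classical
  have hmono : ∀ a b, a ≤ b → Rw c.I.pm.n c.E1 0 a ≤ Rw c.I.pm.n c.E1 0 b := fun a b h => c.cn.Rw_mono 0 h
  have h1 : labs c B ⊆ (Icc 1 c.I.ha).biUnion fun a =>
      (range (Rw c.I.pm.n c.E1 0 a - Rw c.I.pm.n c.E1 0 (a - 1) + 2)).image fun r => (a, r) := by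
    intro x hx
    unfold labs at hx
    rw [Finset.mem_filter, Finset.mem_product, Finset.mem_range, Finset.mem_range] at hx
    obtain ⟨⟨x1, x2⟩, x3, x4⟩ := hx
    rw [Finset.mem_biUnion]
    refine ⟨x.1, Finset.mem_Icc.2 ⟨x3, by omega⟩, ?_⟩
    rw [Finset.mem_image]
    exact ⟨x.2, Finset.mem_range.2 (by omega), rfl⟩
  refine (Finset.card_le_card h1).trans (Finset.card_biUnion_le.trans ?_)
  have h2 : ∀ n : ℕ, ∑ a ∈ Icc 1 n, ((range (Rw c.I.pm.n c.E1 0 a - Rw c.I.pm.n c.E1 0 (a - 1) + 2)).image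
      fun r => (a, r)).card ≤ 2 * n + Rw c.I.pm.n c.E1 0 n := by
    intro n
    induction n with
    | zero => simp
    | succ n ih =>
      rw [← Finset.insert_Icc_right_eq_Icc_add_one (by omega), Finset.sum_insert (by simp)]
      have h3 := (Finset.card_image_le (s := range (Rw c.I.pm.n c.E1 0 (n + 1) - Rw c.I.pm.n c.E1 0 (n + 1 - 1) + 2))
        (f := fun r => (n + 1, r)))
      rw [Finset.card_range] at h3
      have h4 := hmono n (n + 1) (Nat.le_succ n)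
      rw [Nat.add_sub_cancel] at h3 ⊢
      omega
  refine (h2 c.I.ha).trans (Nat.add_le_add_left ?_ _)
  have h1 := c.cn.lv_sum (i := H449.tw c.I.pm.n c.E1 c.I.ha) (Cn.tw_le c.I.ha)
  have h2 := Cn.tw_le (n := c.I.pm.n) (E := c.E1) c.I.ha
  show lv c.I.pm.n c.E1 (some 0) (H449.tw c.I.pm.n c.E1 c.I.ha) ≤ _
  omega

theorem card_labs' (c : C1 Ω) (B : ℕ) : ((labs c B).card : ℝ) ≤ (4 + 2 * c.K1) * ((c.I.h : ℝ) / c.I.m) := by
  have h1 := card_labs c B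
  have h2 : ((labs c B).card : ℝ) ≤ 2 * (c.I.ha : ℝ) + c.I.pm.n := by exact_mod_cast h1
  have h3 := c.good.n1
  have hm : (0 : ℝ) < c.I.m := by exact_mod_cast c.good.m1
  have h4 : (c.I.ha : ℝ) ≤ (c.I.h : ℝ) / c.I.m := by
    rw [le_div_iff₀ hm, mul_comm]
    exact_mod_cast c.good.hah
  linarith

end win

end Vale.Agent.P106.U.H122.V2Fin
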