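import Vale.Agent.P106.U.H122.V2Last
import Vale.Agent.P106.U.H470.V2BdW

/-!
# P106 / U / H122 : `row_v2 : RowV2` (helper122, over helper470's window theorem and bad lemma and helper404's `row_of_win`)
-/

set_option autoImplicit false

namespace Vale.Agent.P106.U.H122.V2Fin

/-- **row [V2]** -/
theorem row_v2 : H61.PS.RowV2 :=
  row_v2_of fun _ _ w _ h K p μ o o' hB k b => H470.V2BdW.bd_place w h p hB μ o o' K k b

end Vale.Agent.P106.U.H122.V2Fin
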