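import Vale.Agent.P106.U.H122.V12
import Vale.Agent.P106.U.H465.PfD
import Vale.Agent.P106.U.H420.PhiL

/-!
# P106 / U / H122 : two caps of one label over the concrete data (helper122)

`X Y : C2 Ω` over the same `C1` (two caps, two words); labels: the same level `li` and the same `lf`.

* `C2.sm2_mt` : `Sm2` of `mt` (kappa regime); `C2.sn_mt0` : 420's `Sn` of `mt0` over the two indices `(k, i)` (deep phi regime,
  the same `k0`).
* `C2.fn_pf`, `C2.fn_pf0` : the prefix letters are nested; `C2.fn_ao` : `Ao` is a function of the later prefix letter.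
* `C1.rcx_mono` : the second path grows with the cap.
-/

set_option autoImplicit false

namespace Vale.Agent.P106.U.H565

open Finset Vale.Agent.P127 Vale.Agent.P127.Stk Vale.Agent.P127.U Vale.Agent.P106.W
open Vale.Agent.P106.K (Ry RyOk bl Bin)
open Vale.Agent.P127.U.CellD (q2 rd q2_pos q2_le q2_mul_pow)
open Vale.Agent.P106.U Vale.Agent.P106.U.H449 Vale.Agent.P106.U.StripL Vale.Agent.P106.U.StripE
open Vale.Agent.P106.U.LinkR Vale.Agent.P106.U.InsL Vale.Agent.P106.U.InpC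
open Vale.Agent.P106.U.H823.NumG
open Vale.Agent.P106.U.H428.Cls (Dt)
open Vale.Agent.P106.U.H122 (Sm2)
open Vale.Agent.P106.U.H420 (Sn Sm two)

/-- kappa of the line at the level `li` (digits `la`) -/
noncomputable def C1.kaC {Ω : Type} [Fintype Ω] (c : C1 Ω) (li la : ℕ) (ω : Ω) : ℝ :=
  c.κ ω + c.ala c.E1 li ω * (c.tW ω - rd la (c.t ω))

/-- the gamma number at the level `li` (digits `la`) -/
noncomputable def C1.uC {Ω : Type} [Fintype Ω] (c : C1 Ω) (o : Fin 7 → ℝ) (li la : ℕ) (ω : Ω) : ℝ :=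
  (c.FW ω).cN (H786.Adp.toR c.θ (c.l ω)) (c.tW ω) + c.kaC li la ω * (H786.Adp.toR c.θ (c.l ω)).w +
    c.ala c.E1 li ω * ((H786.Adp.toR c.θ (c.l ω)).N (rd la (c.t ω)) -
      ((fl1 la ((H786.Adp.toR c.θ (c.l ω)).N (rd la (c.t ω)) + o 2) : ℝ) / 2 ^ la - o 2))

namespace C2

variable {Ω : Type} [Fintype Ω] {X Y : C2 Ω} {hm : 3 ≤ X.I.m} {hm' : 3 ≤ Y.I.m} {k0 k0' : ℕ → ℕ} {hk : Monotone k0}
  {hk' : Monotone k0'} {hl : ∀ i, k0 i ≤ X.D.L.k (X.D.ix i)} {hl' : ∀ i, k0' i ≤ Y.D.L.k (Y.D.ix i)} {Bb Bb' : ℕ}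

/-- **two caps of one label**, kappa regime -/
theorem sm2_mt (h : X.toC1 = Y.toC1) {k k' : ℕ} (h1 : X.D.li k = Y.D.li k') (h2 : X.D.lf k = Y.D.lf k')
    (h3 : X.D.lk k ≤ Y.D.lk k') (μ : ℕ) (o : Fin 7 → ℝ) (o' : ℕ → ℝ) :
    Sm2 (S3.mt (X.runX hm) (X.pfd hm k0 hk hl Bb) μ o o') (S3.mt (Y.runX hm') (Y.pfd hm' k0' hk' hl' Bb') μ o o') k k' := by
  rcases X with ⟨c1, Q, x2, cn2, b1, G, g, RC, s, w2, ps, o1, oK, oG, oN⟩
  rcases Y with ⟨c1', Q', x2', cn2', b1', G', g', RC', s', w2', ps', o1', oK', oG', oN'⟩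
  dsimp only at h
  subst h
  have ha : ∀ (Z : C2 Ω) (i : ℕ), Z.D.la i = Z.I.m * Z.D.li i := fun _ _ => rfl
  have ea : (C2.mk c1 Q x2 cn2 b1 G g RC s w2 ps o1 oK oG oN).D.la k =
      (C2.mk c1 Q' x2' cn2' b1' G' g' RC' s' w2' ps' o1' oK' oG' oN').D.la k' := by
    rw [ha, ha, h1]
  have es : (fun ω => rd ((C2.mk c1 Q x2 cn2 b1 G g RC s w2 ps o1 oK oG oN).D.la k) (c1.t ω)) =
      fun ω => rd ((C2.mk c1 Q' x2' cn2' b1' G' g' RC' s' w2' ps' o1' oK' oG' oN').D.la k') (c1.t ω) := by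
    rw [ea]
  have eal : c1.ala c1.E1 ((C2.mk c1 Q x2 cn2 b1 G g RC s w2 ps o1 oK oG oN).D.li k) =
      c1.ala c1.E1 ((C2.mk c1 Q' x2' cn2' b1' G' g' RC' s' w2' ps' o1' oK' oG' oN').D.li k') := by
    rw [h1]
  exact
    { a := ea
      rf := h2
      rk := h3
      μ := rfl
      ν := rfl
      o := rfl
      oκ := rfl
      oγ := rfl
      l := rfl
      t := rfl
      p := rfl
      un := rfl
      κ := by
        funext ω
        show c1.κ ω + c1.ala c1.E1 ((C2.mk c1 Q x2 cn2 b1 G g RC s w2 ps o1 oK oG oN).D.li k) ω *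
            (c1.tW ω - rd ((C2.mk c1 Q x2 cn2 b1 G g RC s w2 ps o1 oK oG oN).D.la k) (c1.t ω)) =
          c1.κ ω + c1.ala c1.E1 ((C2.mk c1 Q' x2' cn2' b1' G' g' RC' s' w2' ps' o1' oK' oG' oN').D.li k') ω *
            (c1.tW ω - rd ((C2.mk c1 Q' x2' cn2' b1' G' g' RC' s' w2' ps' o1' oK' oG' oN').D.la k') (c1.t ω))
        rw [eal, ea]
      al := eal }

/-- **the prefix letters are nested** -/
theorem fn_pfc (h : X.toC1 = Y.toC1) {k k' : ℕ} (h1 : X.D.li k ≤ Y.D.li k') (hR : ∀ a ≤ X.D.li k, X.RC a ≤ Y.RC a)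
    (Q : Law Ω) : Fn Q ((X.pfd hm k0 hk hl Bb).pf k) ((Y.pfd hm' k0' hk' hl' Bb').pf k') := by
  rcases X with ⟨c1, Q1, x2, cn2, b1, G, g, RC, s, w2, ps, o1, oK, oG, oN⟩
  rcases Y with ⟨c1', Q', x2', cn2', b1', G', g', RC', s', w2', ps', o1', oK', oG', oN'⟩
  dsimp only at h
  subst h
  exact Dt.fn_A_res (d := c1.dt hm) Q h1 hR

/-- **the curvature of the line is a function of the later prefix letter** -/
theorem fn_ao (h : X.toC1 = Y.toC1) {k' v : ℕ} (h1 : v ≤ Y.D.li k') (hv : v ≤ X.I.ha) (hR : X.RC v + Bb ≤ Y.RC v)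
    (Q : Law Ω) : Fn Q ((X.pfd hm k0 hk hl Bb).Ao v) ((Y.pfd hm' k0' hk' hl' Bb').pf k') := by
  rcases X with ⟨c1, Q1, x2, cn2, b1, G, g, RC, s, w2, ps, o1, oK, oG, oN⟩
  rcases Y with ⟨c1', Q', x2', cn2', b1', G', g', RC', s', w2', ps', o1', oK', oG', oN'⟩
  dsimp only at h
  subst h
  intro ω ω' _ _ e
  have e1 : (c1.dt hm).pfR RC' v ω = (c1.dt hm).pfR RC' v ω' := Dt.pfA_R h1 e
  have y1 : -((c1.dt hm).N : ℤ) ≤ (RC v : ℤ) - v + Bb := by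
    show -((c1.I.ha : ℕ) : ℤ) ≤ _
    have : v ≤ c1.I.ha := hv
    omega
  have y2 : (RC v : ℤ) - v + Bb ≤ (RC' v : ℤ) - v := by
    have : RC v + Bb ≤ RC' v := hR
    omega
  have e2 := Dt.pfR_L e1 y1 y2
  show - absl c1.I.m c1.d0 ((((c1.dt hm).L v ((RC v : ℤ) - v + Bb) ω : ℝ) + 1 / 2) *
      ((2 : ℝ) ^ c1.I.m) ^ (-((RC v : ℤ) - v + Bb))) =
    - absl c1.I.m c1.d0 ((((c1.dt hm).L v ((RC v : ℤ) - v + Bb) ω' : ℝ) + 1 / 2) *
      ((2 : ℝ) ^ c1.I.m) ^ (-((RC v : ℤ) - v + Bb)))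
  rw [e2]

theorem kaL_c (X : C2 Ω) (hm : 3 ≤ X.I.m) (k : ℕ) :
    S3.kaL (X.runX hm) k = X.toC1.kaC (X.D.li k) (X.I.m * X.D.li k) := rfl

theorem uL_c (X : C2 Ω) (hm : 3 ≤ X.I.m) (o : Fin 7 → ℝ) (k : ℕ) :
    S3.uL (X.runX hm) o k = X.toC1.uC o (X.D.li k) (X.I.m * X.D.li k) := rfl

/-- kappa of the line: the same variable -/
theorem kaL_eq (h : X.toC1 = Y.toC1) {k k' : ℕ} (h1 : X.D.li k = Y.D.li k') :
    S3.kaL (X.runX hm) k = S3.kaL (Y.runX hm') k' := by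
  rw [kaL_c, kaL_c, h1, h]

/-- the gamma number: the same variable -/
theorem uL_eq (h : X.toC1 = Y.toC1) {k k' : ℕ} (h1 : X.D.li k = Y.D.li k') (o : Fin 7 → ℝ) :
    S3.uL (X.runX hm) o k = S3.uL (Y.runX hm') o k' := by
  rw [uL_c, uL_c, h1, h]

/-- **the letters of `mt0` are nested** -/
theorem fn_pf0 (h : X.toC1 = Y.toC1) {k k' : ℕ} (h1 : X.D.li k = Y.D.li k') (h3 : X.D.lk k ≤ Y.D.lk k')
    (hR : ∀ a ≤ X.D.li k, X.RC a ≤ Y.RC a) (μ : ℕ) (o : Fin 7 → ℝ) (o' : ℕ → ℝ) (Q : Law Ω) :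
    Fn Q ((S3.mt0 (X.runX hm) (X.pfd hm k0 hk hl Bb) μ o o').pf k)
      ((S3.mt0 (Y.runX hm') (Y.pfd hm' k0' hk' hl' Bb') μ o o').pf k') := by
  intro ω ω' p p' e
  have e1 := congrArg Prod.fst e
  have e2 : fl1 (Y.D.lk k' - μ / 2) (S3.kaL (Y.runX hm') k' ω + o' 0) =
      fl1 (Y.D.lk k' - μ / 2) (S3.kaL (Y.runX hm') k' ω' + o' 0) := congrArg (fun y => y.2.1) e
  have e3 : fl1 (Y.D.lk k' - μ / 2) (S3.uL (Y.runX hm') o k' ω + o' 1) =
      fl1 (Y.D.lk k' - μ / 2) (S3.uL (Y.runX hm') o k' ω' + o' 1) := congrArg (fun y => y.2.2) e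
  have f1 := fn_pfc (hm := hm) (hm' := hm') (hk := hk) (hl := hl) (hk' := hk') (hl' := hl') (Bb := Bb) (Bb' := Bb')
    h h1.le hR Q ω ω' p p' e1
  have f2 := Vale.Agent.P127.U.CellD.fl1_fl1 (Nat.sub_le_sub_right h3 (μ / 2)) e2
  have f3 := Vale.Agent.P127.U.CellD.fl1_fl1 (Nat.sub_le_sub_right h3 (μ / 2)) e3
  show ((X.pfd hm k0 hk hl Bb).pf k ω, fl1 (X.D.lk k - μ / 2) (S3.kaL (X.runX hm) k ω + o' 0),
      fl1 (X.D.lk k - μ / 2) (S3.uL (X.runX hm) o k ω + o' 1)) =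
    ((X.pfd hm k0 hk hl Bb).pf k ω', fl1 (X.D.lk k - μ / 2) (S3.kaL (X.runX hm) k ω' + o' 0),
      fl1 (X.D.lk k - μ / 2) (S3.uL (X.runX hm) o k ω' + o' 1))
  rw [f1, kaL_eq (hm := hm) (hm' := hm') h h1, uL_eq (hm := hm) (hm' := hm') h h1 o, f2, f3]

/-- **the number of the prefix letter at the depth `k0`** -/
theorem gv0_eq (X : C2 Ω) (hm : 3 ≤ X.I.m) {k0 : ℕ → ℕ} {hk : Monotone k0} {hl : ∀ i, k0 i ≤ X.D.L.k (X.D.ix i)}
    {Bb k : ℕ} (hN : X.D.li k ≤ X.I.ha) (ω : Ω) :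
    (X.pfd hm k0 hk hl Bb).gv0 k ((X.pfd hm k0 hk hl Bb).pf k ω) =
      - absl X.I.m X.d0 (if 0 < k0 k then (((X.toC1.dt hm).L (X.D.li k) ((k0 k : ℤ) - X.D.li k) ω : ℝ) + 1 / 2) *
        ((2 : ℝ) ^ X.I.m) ^ ((X.D.li k : ℤ) - k0 k) else 0) := by
  show - absl X.I.m X.d0 ((X.dt hm).gv (X.D.li k) (k0 k) (X.X hm k ω (X.D.li k))) = _
  unfold C2.X C2.pX
  rw [Dt.pfA_le le_rfl]
  unfold Dt.gv
  have h1 : k0 k ≤ X.RC (X.D.li k) := (hl k).trans (X.D.L.k_le _)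
  rw [Dt.pfR_some (by
    show -((X.I.ha : ℕ) : ℤ) ≤ _
    omega) (by omega)]
  rfl

/-- **420's `Sn`** : two caps of one label, deep phi regime, the same `k0` -/
theorem sn_mt0 (h : X.toC1 = Y.toC1) {k k' i i' : ℕ} (hki : k ≤ i) (hki' : k' ≤ i') (h1 : X.D.li k = Y.D.li k')
    (h2 : X.D.lf k = Y.D.lf k') (h4 : X.D.li i = Y.D.li i') (h5 : X.D.lf i = Y.D.lf i') (h0 : k0 k = k0' k')
    (hN : X.D.li k ≤ X.I.ha) (μ : ℕ) (o : Fin 7 → ℝ) (o' : ℕ → ℝ) :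
    Sn (two (S3.mt0 (X.runX hm) (X.pfd hm k0 hk hl Bb) μ o o') k i hki)
      (two (S3.mt0 (Y.runX hm') (Y.pfd hm' k0' hk' hl' Bb') μ o o') k' i' hki') 0 := by
  have g1 := gv0_eq X hm (hk := hk) (hl := hl) (Bb := Bb) hN
  have g2 := gv0_eq Y hm' (hk := hk') (hl := hl') (Bb := Bb') (k := k') (by rw [← h1]; rw [← h]; exact hN)
  have e0 := kaL_eq (hm := hm) (hm' := hm') h h1
  have gg : ∀ ω, (X.pfd hm k0 hk hl Bb).gv0 k ((X.pfd hm k0 hk hl Bb).pf k ω) =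
      (Y.pfd hm' k0' hk' hl' Bb').gv0 k' ((Y.pfd hm' k0' hk' hl' Bb').pf k' ω) := by
    intro ω
    rw [g1 ω, g2 ω, h0, h1]
    clear g1 g2
    rcases X with ⟨c1, Q, x2, cn2, b1, G, g, RC, s, w2, ps, o1, oK, oG, oN⟩
    rcases Y with ⟨c1', Q', x2', cn2', b1', G', g', RC', s', w2', ps', o1', oK', oG', oN'⟩
    dsimp only at h
    subst h
    rfl
  clear g1 g2
  have ha : ∀ (Z : C2 Ω) (i : ℕ), Z.D.la i = Z.I.m * Z.D.li i := fun _ _ => rfl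
  rcases X with ⟨c1, Q, x2, cn2, b1, G, g, RC, s, w2, ps, o1, oK, oG, oN⟩
  rcases Y with ⟨c1', Q', x2', cn2', b1', G', g', RC', s', w2', ps', o1', oK', oG', oN'⟩
  dsimp only at h
  subst h
  have ea : (C2.mk c1 Q x2 cn2 b1 G g RC s w2 ps o1 oK oG oN).D.la k =
      (C2.mk c1 Q' x2' cn2' b1' G' g' RC' s' w2' ps' o1' oK' oG' oN').D.la k' := by
    rw [ha, ha, h1]
  have ei : (C2.mk c1 Q x2 cn2 b1 G g RC s w2 ps o1 oK oG oN).D.la i =
      (C2.mk c1 Q' x2' cn2' b1' G' g' RC' s' w2' ps' o1' oK' oG' oN').D.la i' := by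
    rw [ha, ha, h4]
  have eal : c1.ala c1.E1 ((C2.mk c1 Q x2 cn2 b1 G g RC s w2 ps o1 oK oG oN).D.li k) =
      c1.ala c1.E1 ((C2.mk c1 Q' x2' cn2' b1' G' g' RC' s' w2' ps' o1' oK' oG' oN').D.li k') := by
    rw [h1]
  have er : c1.I.rs + c1.I.m * k0 k = c1.I.rs + c1.I.m * k0' k' := by rw [h0]
  exact
    { sm :=
        { a := ea
          rf := h2
          rk := er.le
          μ := rfl
          ν := rfl
          o := rfl
          oκ := rfl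
          oγ := rfl
          l := rfl
          t := rfl
          p := rfl
          un := rfl
          κ := e0
          al := eal }
      aa := by
        funext j
        show (if j = 0 then (C2.mk c1 Q x2 cn2 b1 G g RC s w2 ps o1 oK oG oN).D.la k else _) =
          (if j = 0 then (C2.mk c1 Q' x2' cn2' b1' G' g' RC' s' w2' ps' o1' oK' oG' oN').D.la k' else _)
        rw [ea]
        exact congrArg _ ei
      ff := by
        funext j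
        show (if j = 0 then (C2.mk c1 Q x2 cn2 b1 G g RC s w2 ps o1 oK oG oN).D.lf k else _) =
          (if j = 0 then (C2.mk c1 Q' x2' cn2' b1' G' g' RC' s' w2' ps' o1' oK' oG' oN').D.lf k' else _)
        rw [h2]
        exact congrArg _ h5
      rk := er
      g := funext gg }

end C2

namespace C1

variable {Ω : Type} [Fintype Ω] {c : C1 Ω} {hm : 3 ≤ c.I.m} {cc : ℝ} {b b' : ℕ} {V V' : Type} {w : Ω → V} {z : V}
  {w' : Ω → V'} {z' : V'}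

/-- **the second path grows with the cap** (`w` a function of `w'`, `z` over `z'`) -/
theorem rcx_mono (hb : b ≤ b')
    (hw : ∀ ω ω', 0 < c.Q1.w ω → 0 < c.Q1.w ω' → w ω = w ω' → ∀ a ≤ c.I.ha,
      c.RT hm cc c.Q1 b a ω = c.RT hm cc c.Q1 b a ω')
    (hw' : ∀ ω ω', 0 < c.Q1.w ω → 0 < c.Q1.w ω' → w' ω = w' ω' → ∀ a ≤ c.I.ha,
      c.RT hm cc c.Q1 b' a ω = c.RT hm cc c.Q1 b' a ω')
    (hz : 0 < c.Q1.pr w z) (hz' : 0 < c.Q1.pr w' z') (hn : ∀ ω, 0 < c.Q1.w ω → w' ω = z' → w ω = z) (a : ℕ) :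
    c.rcx hm cc b w z a ≤ c.rcx hm cc b' w' z' a := by
  have key : ∀ a ≤ c.I.ha, c.rcx hm cc b w z a ≤ c.rcx hm cc b' w' z' a := by
    intro a ha
    obtain ⟨h1, h2⟩ := supp_cond hz' (H465.GcK.ex_supp (c.Q1.cond w' z')).choose_spec
    rw [← rcx_eq hw hz ha h1 (hn _ h1 h2), ← rcx_eq hw' hz' ha h1 h2]
    exact C0.rt_mono c.cn hb _ a
  rcases Nat.lt_or_ge c.I.ha a with h | h
  · have h0 := key c.I.ha le_rfl
    have e1 : ∀ (b : ℕ) (V : Type) (w : Ω → V) (z : V), c.rcx hm cc b w z a =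
        min (c.rcx hm cc b w z c.I.ha + (a - c.I.ha)) (Rw c.I.pm.n c.E1 1 a) := by
      intro b V w z
      unfold rcx H823.NumG.ext
      rw [if_neg (by omega), if_pos le_rfl]
    rw [e1, e1]
    omega
  · exact key a h

end C1

end Vale.Agent.P106.U.H565
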