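import Vale.Agent.P106.U.H470.Fib

/-!
# P106 / U / H122 : telescope over the caps without ages (helper122)

One family of steps, as in `H470.Fib`.  `w k` = joint word up to the cap `k`, `C k` = a regime, a function of `w k`, which
holds on an interval of caps.  `s` = a fixed letter, `D k e` = cell, `X k e` = finer cell, near-functions of the cell
`D (k + β)`.

* **`tel_fib`** : `∑_k E [1{C k} mi (P | w k) s (X k) (D k)] ≤ 3 β log N + errors`: fields (V1), (P1) of F2.
-/

set_option autoImplicit false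

namespace Vale.Agent.P106.U.H122

open Finset Vale.Agent.P127 Vale.Agent.P127.Stk Vale.Agent.P106.U.H661.Age
open Vale.Agent.P106.U.H470.AgeL Vale.Agent.P106.U.H470.AgeP Vale.Agent.P106.U.H470.Fib

/-- counting for an interval -/
theorem count_exit (C : ℕ → Prop) (hI : ∀ i j l, i ≤ j → j ≤ l → C i → C l → C j) (β : ℕ) (F : Finset ℕ)
    (hF : ∀ k ∈ F, C k ∧ ¬ C (k + β)) : F.card ≤ β := by
  classical
  rcases F.eq_empty_or_nonempty with h | h
  · rw [h]; exact Nat.zero_le _
  · set a := F.min' h with ha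
    have hm := hF a (F.min'_mem h)
    have hs : F ⊆ Finset.Ico a (a + β) := by
      intro k hk
      rw [Finset.mem_Ico]
      refine ⟨F.min'_le k hk, ?_⟩
      by_contra hc
      push Not at hc
      exact hm.2 (hI a (a + β) k (by omega) hc hm.1 (hF k hk).1)
    have := Finset.card_le_card hs
    rw [Nat.card_Ico] at this
    omega

theorem count_enter (C : ℕ → Prop) (hI : ∀ i j l, i ≤ j → j ≤ l → C i → C l → C j) (β : ℕ) (F : Finset ℕ)
    (hF : ∀ k ∈ F, C (k + β) ∧ ¬ C k) : F.card ≤ β := by
  classical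
  rcases F.eq_empty_or_nonempty with h | h
  · rw [h]; exact Nat.zero_le _
  · set a := F.min' h with ha
    have hm := hF a (F.min'_mem h)
    have hs : F ⊆ Finset.Ico a (a + β) := by
      intro k hk
      rw [Finset.mem_Ico]
      refine ⟨F.min'_le k hk, ?_⟩
      by_contra hc
      push Not at hc
      exact (hF k hk).2 (hI (a + β) k (k + β) hc (by omega) hm.1 (hF k hk).1)
    have := Finset.card_le_card hs
    rw [Nat.card_Ico] at this
    omega

section law

variable {Ω : Type} [Fintype Ω] (P : Law Ω) {S S' V W : Type*}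

open Classical in
/-- the letter on an event -/
noncomputable def on (A : Ω → Prop) (X : Ω → S) (ω : Ω) : Option S := if A ω then some (X ω) else none

omit [Fintype Ω] in
theorem on_pos {A : Ω → Prop} {X : Ω → S} {ω : Ω} (h : A ω) : on A X ω = some (X ω) := if_pos h

omit [Fintype Ω] in
theorem on_neg {A : Ω → Prop} {X : Ω → S} {ω : Ω} (h : ¬ A ω) : on A X ω = none := if_neg h

/-- an entropy concentrated on an event -/
theorem hc_local (X : Ω → S) (Y : Ω → V) (bad : Ω → Prop) (N : ℕ) (hN : 1 ≤ N)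
    (h1 : ∀ ω, 0 < P.w ω → ¬ bad ω → ∀ ω', 0 < P.w ω' → Y ω' = Y ω → X ω' = X ω)
    (h2 : ∀ ω, 0 < P.w ω → bad ω → ∃ F : Finset S, F.card ≤ N ∧ ∀ ω', 0 < P.w ω' → Y ω' = Y ω → X ω' ∈ F) :
    hc P X Y ≤ prE P bad * Real.log N := by
  have h := mi_local2 P X X Y bad N hN (fun ω hω hb => Or.inl (h1 ω hω hb)) h2
  unfold mi at h
  have e : hc P X (fun ω => (X ω, Y ω)) = 0 := hc_zero P fun _ _ _ _ e => congrArg Prod.fst e
  rw [e, sub_zero] at h
  exact h

variable {w : ℕ → Ω → W} (hW : ∀ b, Fn P (w b) (w (b + 1)))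

include hW in
/-- **telescope over the caps** -/
theorem tel_fib (C : ℕ → Ω → Prop) (hC : ∀ k ω ω', 0 < P.w ω → 0 < P.w ω' → w k ω = w k ω' → (C k ω ↔ C k ω'))
    (hI : ∀ ω, 0 < P.w ω → ∀ i j l, i ≤ j → j ≤ l → C i ω → C l ω → C j ω)
    (s : Ω → S') (D : ℕ → W → Ω → S) (X : ℕ → W → Ω → V) (N : ℕ) (hN : 1 ≤ N) {β K : ℕ}
    (h2 : ∀ k < K + β, ∀ ω, 0 < P.w ω → C k ω → ∃ F : Finset S', F.card ≤ N ∧
      ∀ ω', 0 < P.w ω' → w k ω' = w k ω → D k (w k ω) ω' = D k (w k ω) ω → s ω' ∈ F)
    (ν₁ ν₂ : ℕ → Ω → ℝ) (n₁ : ∀ k ω, 0 ≤ ν₁ k ω) (n₂ : ∀ k ω, 0 ≤ ν₂ k ω)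
    (hν : ∀ k < K, ∀ ω, 0 < P.w ω → C k ω → C (k + β) ω →
      hc (P.cond (w (k + β)) (w (k + β) ω)) (D k (w k ω)) (D (k + β) (w (k + β) ω)) ≤ ν₁ k ω)
    (hX : ∀ k < K, ∀ ω, 0 < P.w ω → C k ω → C (k + β) ω →
      hc (P.cond (w (k + β)) (w (k + β) ω)) (X k (w k ω)) (D (k + β) (w (k + β) ω)) ≤ ν₂ k ω) :
    ∑ k ∈ range K, P.ex (fun ω => Law.ind (C k ω) *
      mi (P.cond (w k) (w k ω)) s (X k (w k ω)) (D k (w k ω))) ≤
      3 * β * Real.log N + ∑ k ∈ range K, P.ex (ν₁ k) + ∑ k ∈ range K, P.ex (ν₂ k) := by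
  classical
  have hlog : 0 ≤ Real.log N := Real.log_nonneg (by exact_mod_cast hN)
  set M : ℕ → Ω → S × W := Mw w D with hMdef
  have hWM : ∀ b, Fn P (w b) (M b) := fun b _ _ _ _ e => congrArg Prod.snd e
  have hback : ∀ b ω ω', 0 < P.w ω → 0 < P.w ω' → w (b + β) ω = w (b + β) ω' → w b ω = w b ω' :=
    fun b ω ω' p p' e => nest P hW b β ω ω' p p' e
  set A : ℕ → Ω → Prop := fun k ω => C k ω ∧ C (k + β) ω with hA
  have hAf : ∀ k ω ω', 0 < P.w ω → 0 < P.w ω' → w (k + β) ω = w (k + β) ω' → (A k ω ↔ A k ω') :=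
    fun k ω ω' p p' e => and_congr (hC k ω ω' p p' (hback k ω ω' p p' e)) (hC (k + β) ω ω' p p' e)
  -- the two fibre bounds
  have c1 : ∀ b < K, hc P (on (A b) (fib (w b) (D b))) (M (b + β)) ≤ P.ex (ν₁ b) := by
    intro b hb
    refine hc_fib_le P (w (b + β)) _ (D (b + β)) _ fun ω hω => ?_
    by_cases hp : A b ω
    · refine le_trans (hc_mono_left _ (X' := D b (w b ω)) ?_) (hν b hb ω hω hp.1 hp.2)
      intro a a' ha ha' e
      have q := cond_supp P hω ha
      have q' := cond_supp P hω ha'
      rw [on_pos ((hAf b ω a hω q.1 q.2.symm).1 hp), on_pos ((hAf b ω a' hω q'.1 q'.2.symm).1 hp)]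
      simp only [Prod.mk.injEq] at e
      simp only [fib, hback b a ω q.1 hω q.2, hback b a' ω q'.1 hω q'.2, e.1]
    · refine le_trans (le_of_eq (hc_zero _ ?_)) (n₁ b ω)
      intro a a' ha ha' _
      have q := cond_supp P hω ha
      have q' := cond_supp P hω ha'
      rw [on_neg fun h => hp ((hAf b ω a hω q.1 q.2.symm).2 h), on_neg fun h => hp ((hAf b ω a' hω q'.1 q'.2.symm).2 h)]
  have c2 : ∀ b < K, hc P (on (A b) (fib (w b) (X b))) (M (b + β)) ≤ P.ex (ν₂ b) := by
    intro b hb
    refine hc_fib_le P (w (b + β)) _ (D (b + β)) _ fun ω hω => ?_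
    by_cases hp : A b ω
    · refine le_trans (hc_mono_left _ (X' := X b (w b ω)) ?_) (hX b hb ω hω hp.1 hp.2)
      intro a a' ha ha' e
      have q := cond_supp P hω ha
      have q' := cond_supp P hω ha'
      rw [on_pos ((hAf b ω a hω q.1 q.2.symm).1 hp), on_pos ((hAf b ω a' hω q'.1 q'.2.symm).1 hp)]
      simp only [Prod.mk.injEq] at e
      simp only [fib, hback b a ω q.1 hω q.2, hback b a' ω q'.1 hω q'.2, e.1]
    · refine le_trans (le_of_eq (hc_zero _ ?_)) (n₂ b ω)
      intro a a' ha ha' _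
      have q := cond_supp P hω ha
      have q' := cond_supp P hω ha'
      rw [on_neg fun h => hp ((hAf b ω a hω q.1 q.2.symm).2 h), on_neg fun h => hp ((hAf b ω a' hω q'.1 q'.2.symm).2 h)]
  -- values
  have c4 : ∀ b < K + β, ∀ ω, 0 < P.w ω → C b ω → ∃ F : Finset S', F.card ≤ N ∧
      ∀ ω', 0 < P.w ω' → M b ω' = M b ω → s ω' ∈ F := by
    intro b hb ω hω hp
    obtain ⟨F, hF, hF2⟩ := h2 b hb ω hω hp
    refine ⟨F, hF, fun ω' h' e => ?_⟩
    simp only [hMdef, Mw, fib, Prod.mk.injEq] at e
    exact hF2 ω' h' e.2 (by rw [← e.1, e.2])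
  have c5 : ∀ b < K + β, ∀ ω, 0 < P.w ω → C b ω → ∃ F : Finset (Option S'), F.card ≤ N ∧
      ∀ ω', 0 < P.w ω' → M b ω' = M b ω → on (C b) s ω' ∈ F := by
    intro b hb ω hω hp
    obtain ⟨F, hF, hF2⟩ := c4 b hb ω hω hp
    refine ⟨F.image some, Finset.card_image_le.trans hF, fun ω' h' e => ?_⟩
    rw [on_pos ((hC b ω ω' hω h' (hWM b ω' ω h' hω e).symm).1 hp)]
    exact Finset.mem_image_of_mem _ (hF2 ω' h' e)
  -- the potential
  set G : ℕ → ℝ := fun k => hc P (on (C k) s) (M k) with hG
  have hGle : ∀ k < K + β, G k ≤ Real.log N := by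
    intro k hk
    have h := hc_local P (on (C k) s) (M k) (C k) N hN
      (fun ω hω hb ω' hω' e => by
        have := hC k ω ω' hω hω' (hWM k ω' ω hω' hω e).symm
        rw [on_neg hb, on_neg fun h => hb (this.2 h)])
      (fun ω hω hb => c5 k hk ω hω hb)
    refine h.trans ?_
    have := prE_le_one P (C k)
    nlinarith
  have hG0 : ∀ k, 0 ≤ G k := fun k => hc_nonneg P _ _
  -- one cap
  have hstep : ∀ b ∈ range K, P.ex (fun ω => Law.ind (C b ω) *
      mi (P.cond (w b) (w b ω)) s (X b (w b ω)) (D b (w b ω))) ≤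
      (G b - G (b + β)) + P.ex (ν₁ b) + P.ex (ν₂ b) +
        (prE P (fun ω => C b ω ∧ ¬ C (b + β) ω) + prE P (fun ω => C (b + β) ω ∧ ¬ C b ω)) * Real.log N := by
    intro b hb
    have hbK := Finset.mem_range.1 hb
    set sb := on (C b) s with hsb
    set S1 := on (A b) s with hS1
    have e0 : P.ex (fun ω => Law.ind (C b ω) * mi (P.cond (w b) (w b ω)) s (X b (w b ω)) (D b (w b ω))) =
        mi P sb (fib (w b) (X b)) (M b) := by
      have e1 := mi_fib P (w b) (fun _ => sb) (X b) (D b)
      have e2 : fib (w b) (fun _ => sb) = sb := rfl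
      rw [e2] at e1
      rw [hMdef]
      unfold Mw
      rw [e1]
      refine P.ex_congr fun ω hω => ?_
      by_cases hp : C b ω
      · rw [Law.ind_of hp, one_mul]
        unfold mi
        congr 1
        · refine hc_congr _ ?_ ?_ (fun _ _ _ _ e => e) (fun _ _ _ _ e => e)
          · intro a a' ha ha' e
            have q := cond_supp P hω ha
            have q' := cond_supp P hω ha'
            have i1 := (hC b ω a hω q.1 q.2.symm).1 hp
            have i2 := (hC b ω a' hω q'.1 q'.2.symm).1 hp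
            simp only [Prod.mk.injEq] at e
            have e3 := e.1
            rw [hsb, on_pos i1, on_pos i2] at e3
            exact Option.some.inj e3
          · intro a a' ha ha' e
            have q := cond_supp P hω ha
            have q' := cond_supp P hω ha'
            have i1 := (hC b ω a hω q.1 q.2.symm).1 hp
            have i2 := (hC b ω a' hω q'.1 q'.2.symm).1 hp
            simp only [Prod.mk.injEq] at e
            rw [hsb, on_pos i1, on_pos i2, e.1]
        · refine hc_congr _ ?_ ?_ (fun _ _ _ _ e => e) (fun _ _ _ _ e => e)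
          · intro a a' ha ha' e
            have q := cond_supp P hω ha
            have q' := cond_supp P hω ha'
            have i1 := (hC b ω a hω q.1 q.2.symm).1 hp
            have i2 := (hC b ω a' hω q'.1 q'.2.symm).1 hp
            simp only [Prod.mk.injEq] at e
            have e3 := e.1
            rw [hsb, on_pos i1, on_pos i2] at e3
            exact Option.some.inj e3
          · intro a a' ha ha' e
            have q := cond_supp P hω ha
            have q' := cond_supp P hω ha'
            have i1 := (hC b ω a hω q.1 q.2.symm).1 hp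
            have i2 := (hC b ω a' hω q'.1 q'.2.symm).1 hp
            simp only [Prod.mk.injEq] at e
            rw [hsb, on_pos i1, on_pos i2, e.1]
      · rw [Law.ind_not hp, zero_mul]
        symm
        have e5 : hc (P.cond (w b) (w b ω)) sb (D b (w b ω)) = 0 := by
          refine hc_zero _ ?_
          intro a a' ha ha' _
          have q := cond_supp P hω ha
          have q' := cond_supp P hω ha'
          rw [hsb, on_neg fun h => hp ((hC b ω a hω q.1 q.2.symm).2 h),
            on_neg fun h => hp ((hC b ω a' hω q'.1 q'.2.symm).2 h)]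
        have e6 := mi_nonneg (P.cond (w b) (w b ω)) sb (X b (w b ω)) (D b (w b ω))
        have e7 := mi_le_hc (P.cond (w b) (w b ω)) sb (X b (w b ω)) (D b (w b ω))
        linarith
    rw [e0]
    set Er := on (A b) (fib (w b) (X b)) with hEr
    set Dr := on (A b) (fib (w b) (D b)) with hDr
    have a1 : mi P sb (fib (w b) (X b)) (M b) ≤
        mi P sb (fun ω => ((M (b + β) ω, Er ω), fib (w b) (X b) ω)) (M b) :=
      mi_mono_right P _ fun ω ω' _ _ e => by
        simp only [Prod.mk.injEq] at e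
        exact e.1.2
    have a2 := mi_pair P sb (fun ω => (M (b + β) ω, Er ω)) (fib (w b) (X b)) (M b)
    have a3 := mi_pair P sb (M (b + β)) Er (M b)
    have a4 : mi P sb Er (fun ω => (M (b + β) ω, M b ω)) ≤ P.ex (ν₂ b) := by
      refine (mi_le_hc' P _ _ _).trans ((hc_mono_right P _ ?_).trans (c2 b hbK))
      exact fun ω ω' _ _ e => congrArg Prod.fst e
    have a5 : mi P sb (fib (w b) (X b)) (fun ω => ((M (b + β) ω, Er ω), M b ω)) ≤
        prE P (fun ω => C b ω ∧ ¬ C (b + β) ω) * Real.log N := by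
      refine mi_local2 P _ _ _ _ N hN ?_ ?_
      · intro ω hω hbad
        by_cases hp : C b ω
        · left
          have hpc : C (b + β) ω := by
            by_contra hne
            exact hbad ⟨hp, hne⟩
          intro ω' h' e
          simp only [Prod.mk.injEq] at e
          have w1 : w (b + β) ω' = w (b + β) ω := hWM (b + β) ω' ω h' hω e.1.1
          have e3 := e.1.2
          rw [hEr, on_pos (show A b ω from ⟨hp, hpc⟩), on_pos ((hAf b ω ω' hω h' w1.symm).1 ⟨hp, hpc⟩)] at e3
          exact Option.some.inj e3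
        · right
          intro ω' h' e
          simp only [Prod.mk.injEq] at e
          have w0 : w b ω' = w b ω := hWM b ω' ω h' hω e.2
          rw [hsb, on_neg hp, on_neg fun h => hp ((hC b ω ω' hω h' w0.symm).2 h)]
      · intro ω hω hbad
        obtain ⟨F, hF, hF2⟩ := c5 b (by omega) ω hω hbad.1
        refine ⟨F, hF, fun ω' h' e => hF2 ω' h' ?_⟩
        simp only [Prod.mk.injEq] at e
        exact e.2
    -- the difference of the potentials
    have b1 : hc P S1 (fun ω => (M (b + β) ω, M b ω)) ≤ hc P sb (fun ω => (M (b + β) ω, M b ω)) := by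
      refine hc_mono_left P ?_
      intro ω ω' hω h' e
      simp only [Prod.mk.injEq] at e
      have w1 : w (b + β) ω = w (b + β) ω' := hWM (b + β) ω ω' hω h' e.2.1
      by_cases hp : A b ω
      · have hp' := (hAf b ω ω' hω h' w1).1 hp
        have e3 := e.1
        rw [hsb, on_pos hp.1, on_pos hp'.1] at e3
        rw [hS1, on_pos hp, on_pos hp', Option.some.inj e3]
      · rw [hS1, on_neg hp, on_neg fun h => hp ((hAf b ω ω' hω h' w1).2 h)]
    have b2 : mi P S1 (M b) (M (b + β)) ≤ P.ex (ν₁ b) := by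
      have t1 : mi P S1 (M b) (M (b + β)) ≤ mi P S1 (fun ω => (Dr ω, M b ω)) (M (b + β)) :=
        mi_mono_right P _ fun ω ω' _ _ e => by
          simp only [Prod.mk.injEq] at e
          exact e.1.2
      have t2 := mi_pair P S1 Dr (M b) (M (b + β))
      have t3 : mi P S1 Dr (M (b + β)) ≤ P.ex (ν₁ b) := (mi_le_hc' P _ _ _).trans (c1 b hbK)
      have t4 : mi P S1 (M b) (fun ω => (Dr ω, M (b + β) ω)) ≤ 0 := by
        have := mi_local2 P S1 (M b) (fun ω => (Dr ω, M (b + β) ω)) (fun _ => False) 1 le_rfl ?_ (fun _ _ h => h.elim)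
        · simpa using this
        intro ω hω _
        by_cases hp : A b ω
        · left
          intro ω' h' e
          simp only [Prod.mk.injEq] at e
          have w1 : w (b + β) ω' = w (b + β) ω := hWM (b + β) ω' ω h' hω e.2
          have w0 := hback b ω' ω h' hω w1
          have e3 := e.1
          rw [hDr, on_pos hp, on_pos ((hAf b ω ω' hω h' w1.symm).1 hp)] at e3
          have e4 := Option.some.inj e3
          simp only [hMdef, Mw, e4, w0]
        · right
          intro ω' h' e
          simp only [Prod.mk.injEq] at e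
          have w1 : w (b + β) ω' = w (b + β) ω := hWM (b + β) ω' ω h' hω e.2
          rw [hS1, on_neg hp, on_neg fun h => hp ((hAf b ω ω' hω h' w1.symm).2 h)]
      linarith
    have b3 : G (b + β) ≤ hc P S1 (M (b + β)) + prE P (fun ω => C (b + β) ω ∧ ¬ C b ω) * Real.log N := by
      have t1 := hc_le_add' P (on (C (b + β)) s) S1 (M (b + β))
      have t2 : hc P (on (C (b + β)) s) (fun ω => (S1 ω, M (b + β) ω)) ≤
          prE P (fun ω => C (b + β) ω ∧ ¬ C b ω) * Real.log N := by
        refine hc_local P _ _ _ N hN ?_ ?_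
        · intro ω hω hbad ω' h' e
          simp only [Prod.mk.injEq] at e
          have w1 : w (b + β) ω' = w (b + β) ω := hWM (b + β) ω' ω h' hω e.2
          have w0 := hback b ω' ω h' hω w1
          by_cases hp : C (b + β) ω
          · have hp0 : C b ω := by
              by_contra hne
              exact hbad ⟨hp, hne⟩
            have hp' := (hAf b ω ω' hω h' w1.symm).1 ⟨hp0, hp⟩
            have e3 := e.1
            rw [hS1, on_pos hp', on_pos (show A b ω from ⟨hp0, hp⟩)] at e3
            rw [on_pos hp, on_pos hp'.2, Option.some.inj e3]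
          · rw [on_neg hp, on_neg fun h => hp ((hC (b + β) ω ω' hω h' w1.symm).2 h)]
        · intro ω hω hbad
          obtain ⟨F, hF, hF2⟩ := c5 (b + β) (by omega) ω hω hbad.1
          refine ⟨F, hF, fun ω' h' e => hF2 ω' h' ?_⟩
          simp only [Prod.mk.injEq] at e
          exact e.2
      linarith
    have b4 : mi P sb (M (b + β)) (M b) = G b - hc P sb (fun ω => (M (b + β) ω, M b ω)) := rfl
    have b5 : mi P S1 (M b) (M (b + β)) = hc P S1 (M (b + β)) - hc P S1 (fun ω => (M b ω, M (b + β) ω)) := rfl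
    have b6 : hc P S1 (fun ω => (M b ω, M (b + β) ω)) = hc P S1 (fun ω => (M (b + β) ω, M b ω)) := by
      refine hc_congr P (fun _ _ _ _ e => congrArg Prod.fst e) (fun _ _ _ _ e => congrArg Prod.fst e) ?_ ?_
      · intro a a' _ _ e
        simp only [Prod.mk.injEq] at e ⊢
        exact ⟨e.2, e.1⟩
      · intro a a' _ _ e
        simp only [Prod.mk.injEq] at e ⊢
        exact ⟨e.2, e.1⟩
    rw [add_mul]
    linarith
  refine (Finset.sum_le_sum hstep).trans ?_
  rw [Finset.sum_add_distrib, Finset.sum_add_distrib, Finset.sum_add_distrib, ← Finset.sum_mul, Finset.sum_add_distrib,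
    Finset.sum_sub_distrib]
  have t1 : ∑ k ∈ range K, G k - ∑ k ∈ range K, G (k + β) ≤ β * Real.log N := by
    have e1 := Finset.sum_range_add G K β
    have e2 := Finset.sum_range_add G β K
    rw [add_comm β K] at e2
    have e3 : ∑ k ∈ range K, G (β + k) = ∑ k ∈ range K, G (k + β) :=
      Finset.sum_congr rfl fun k _ => by rw [add_comm]
    have e4 : 0 ≤ ∑ k ∈ range β, G (K + k) := Finset.sum_nonneg fun k _ => hG0 _
    have e5 : ∑ k ∈ range β, G k ≤ β * Real.log N := by
      have := Finset.sum_le_card_nsmul (range β) G (Real.log N) fun k hk => hGle k (by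
        have := Finset.mem_range.1 hk
        omega)
      rwa [Finset.card_range, nsmul_eq_mul] at this
    linarith
  have t2 : ∑ b ∈ range K, prE P (fun ω => C b ω ∧ ¬ C (b + β) ω) ≤ β := by
    refine sum_prE P _ K _ fun ω hω => ?_
    refine ⟨(range K).filter fun b => C b ω ∧ ¬ C (b + β) ω, fun b hb h =>
      Finset.mem_filter.2 ⟨Finset.mem_range.2 hb, h⟩, ?_⟩
    exact_mod_cast count_exit (fun k => C k ω) (hI ω hω) β _ fun k hk => (Finset.mem_filter.1 hk).2
  have t3 : ∑ b ∈ range K, prE P (fun ω => C (b + β) ω ∧ ¬ C b ω) ≤ β := by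
    refine sum_prE P _ K _ fun ω hω => ?_
    refine ⟨(range K).filter fun b => C (b + β) ω ∧ ¬ C b ω, fun b hb h =>
      Finset.mem_filter.2 ⟨Finset.mem_range.2 hb, h⟩, ?_⟩
    exact_mod_cast count_enter (fun k => C k ω) (hI ω hω) β _ fun k hk => (Finset.mem_filter.1 hk).2
  have t4 := mul_le_mul_of_nonneg_right (add_le_add t2 t3) hlog
  linarith

end law

end Vale.Agent.P106.U.H122
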