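import Vale.Agent.P106.U.H122.TelF
import Vale.Agent.P106.U.H122.MtrI
import Vale.Agent.P106.U.H420.MtrB
import Vale.Agent.P106.U.S3.F2

/-!
# P106 / U / H122 : field (V1) of F2, one label, over 785's data (helper122)

* `at1 D k` : the data of one index; `hc_mtr2` : [MTR-B] for two data at two indices `k`, `k'` of the same label.
* `v1_term` : in the kappa regime the term of F2o.V1 is `mi (time) (mtr bV) (mtr b)`.
* `ex_prE_sqrt` : Jensen over the words.
* **`v1_fib`** : the sum over the caps of one label: `≤ 3 β d' log 2 + c ∑ (√P(Bad) + √P(Bad'))`.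
-/

set_option autoImplicit false

namespace Vale.Agent.P106.U.H122

open Finset Vale.Agent.P127 Vale.Agent.P127.Stk
open Vale.Agent.P127.U.CellD (q2 rd Nb q2_pos q2_le q2_add fl1_fl1)
open Vale.Agent.P106.U.Cell
open Vale.Agent.P106.U.H785.Mtr
open Vale.Agent.P106.U.H470.Fib

/-! ### one index -/

section one

variable {Ω π π' : Type}

/-- the data of one index -/
def at1 (D : Mtd Ω π) (k : ℕ) : Mtd Ω π where
  a := fun _ => D.a k
  rf := fun _ => D.rf k
  rk := fun _ => D.rk k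
  ha := monotone_const
  hf := monotone_const
  hk := monotone_const
  hkf := fun _ => D.hkf k
  μ := D.μ
  ν := D.ν
  o := D.o
  oκ := D.oκ
  oγ := D.oγ
  l := D.l
  t := D.t
  p := D.p
  un := D.un
  κ := fun _ => D.κ k
  al := fun _ => D.al k
  pf := fun _ => D.pf k
  gv := fun _ => D.gv k

theorem at1_mtr (D : Mtd Ω π) (k b : ℕ) : (at1 D k).mtr 0 b = D.mtr k b := rfl

theorem at1_p1 (D : Mtd Ω π) (k : ℕ) : (at1 D k).p1 0 = D.p1 k := rfl

theorem at1_R (D : Mtd Ω π) (k b : ℕ) : (at1 D k).R 0 b = D.R k b := rfl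

theorem at1_Hy {D : Mtd Ω π} {K : ℝ} {I : Set ℕ} {ω : Ω} {k : ℕ} (hK : 0 ≤ K) (h : D.Hy K I ω) (hk : k ∈ I) :
    (at1 D k).Hy K {0} ω where
  v1 := h.v1
  w1 := h.w1
  p1 := h.p1
  n1 := h.n1
  n2 := h.n2
  k1 := fun _ _ => h.k1 k hk
  a1 := fun _ _ => h.a1 k hk
  ap := fun _ _ => h.ap k hk
  ka := fun i _ j _ _ => by
    show |D.κ k ω - D.κ k ω - (D.s k ω - D.s k ω) * D.g k ω| ≤ K * q2 (D.rk k)
    have := q2_pos (D.rk k)
    rw [sub_self, sub_self, zero_mul, sub_zero, abs_zero]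
    positivity
  aa := fun i _ j _ _ => by
    show |D.al k ω - D.al k ω| * q2 (D.a k) ≤ K * q2 (D.rk k)
    have := q2_pos (D.rk k)
    rw [sub_self, abs_zero, zero_mul]
    positivity
  r0 := fun _ _ => h.r0 k hk

/-- two data over the same real numbers at the indices `k`, `k'` of one label, the second one finer -/
structure Sm2 (X : Mtd Ω π) (Y : Mtd Ω π') (k k' : ℕ) : Prop where
  a : X.a k = Y.a k'
  rf : X.rf k = Y.rf k'
  rk : X.rk k ≤ Y.rk k'
  μ : X.μ = Y.μ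
  ν : X.ν = Y.ν
  o : X.o = Y.o
  oκ : X.oκ = Y.oκ
  oγ : X.oγ = Y.oγ
  l : X.l = Y.l
  t : X.t = Y.t
  p : X.p = Y.p
  un : X.un = Y.un
  κ : X.κ k = Y.κ k'
  al : X.al k = Y.al k'

theorem Sm2.sm {X : Mtd Ω π} {Y : Mtd Ω π'} {k k' : ℕ} (h : Sm2 X Y k k') : H420.Sm (at1 X k) (at1 Y k') 0 :=
  ⟨h.a, h.rf, h.rk, h.μ, h.ν, h.o, h.oκ, h.oγ, h.l, h.t, h.p, h.un, h.κ, h.al⟩

/-- the constant of `hc_mtr2` -/
noncomputable def cB (K : ℝ) : ℝ := 6 + 10 * Real.log (2 * ⌈480 * (8 * K) ^ 7⌉₊ + 3)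

theorem cB_pos (K : ℝ) : 0 ≤ cB K := by
  unfold cB
  have : 0 ≤ Real.log (2 * (⌈480 * (8 * K) ^ 7⌉₊ : ℝ) + 3) := Real.log_nonneg (by
    have : (0 : ℝ) ≤ (⌈480 * (8 * K) ^ 7⌉₊ : ℝ) := Nat.cast_nonneg _
    linarith)
  linarith

/-- **[MTR-B] for two indices of one label** -/
theorem hc_mtr2 [Fintype Ω] (P : Law Ω) (X : Mtd Ω π) (Y : Mtd Ω π') {k k' b b2 : ℕ} {K : ℝ} {I J : Set ℕ}
    (h : Sm2 X Y k k') (h1 : 1 ≤ K)
    (hX : ∀ ω, 0 < P.w ω → X.Hy K I ω) (hY : ∀ ω, 0 < P.w ω → Y.Hy K J ω) (hi : k ∈ I) (hj : k' ∈ J)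
    (hb8 : 8 * X.μ ≤ b) (hR8 : 8 * X.μ ≤ X.R k b) (hb : b + 2 * X.μ ≤ b2) (hR : X.R k b + X.μ ≤ Y.R k' b2)
    (hpf : Fn P (X.pf k) (Y.mtr k' b2)) :
    hc P (X.mtr k b) (Y.mtr k' b2) ≤ cB K * Real.sqrt (prE P ((X.p1 k).Bad (640 * (8 * K) ^ 7) 0 b)) :=
  H420.hc_mtr P (at1 X k) (at1 Y k') h.sm h1 (I := {0}) (J := {0})
    (fun ω p => at1_Hy (by linarith) (hX ω p) hi) (fun ω p => at1_Hy (by linarith) (hY ω p) hj) rfl rfl hb8 hR8 hb hR hpf

end one

/-! ### the term -/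

section term

variable {Ω π : Type} [Fintype Ω]

/-- **the term of (V1)** in the kappa regime -/
theorem v1_term (P : Law Ω) (D : Mtd Ω π) {k i b b' : ℕ} (hki : k ≤ i) (hr : b + D.rk k < D.rf k) :
    mi P (S3.LTh (D.fz k k) b i) ((D.fz k k).cell k b') (S3.LDk (D.fz k k) b k) ≤
      mi P (fun ω => fl1 (D.a i) (D.t ω)) (D.mtr k b') (D.mtr k b) := by
  have rk : ∀ x, k ≤ x → (D.fz k k).rk x = D.rr k := fun x hx => Mtd.fz_rk D hx hx
  have rf : ∀ x, k ≤ x → (D.fz k k).rf x = D.rf x := fun x hx => Mtd.fz_rf D hx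
  have n1 : ∀ x, k ≤ x → ¬ (D.fz k k).rf x ≤ b + (D.fz k k).rk x := by
    intro x hx
    rw [rk x hx, rf x hx]
    have := D.hf hx
    unfold Mtd.rr
    omega
  have fD : Fn P (D.mtr k b) (S3.LDk (D.fz k k) b k) := by
    intro ω ω' _ _ e
    unfold S3.LDk at e
    simp only [Prod.mk.injEq] at e
    exact (Mtd.fz_cell_iff D le_rfl b ω ω').1 e.1
  have fD' : Fn P (S3.LDk (D.fz k k) b k) (D.mtr k b) := by
    intro ω ω' _ _ e
    unfold S3.LDk
    rw [if_neg (n1 k le_rfl), (Mtd.fz_cell_iff D le_rfl b ω ω').2 e, if_neg (n1 k le_rfl)]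
  rw [mi_congr_cond P _ _ fD' fD]
  refine (mi_mono_left P _ (X' := fun ω => fl1 (D.a i) (D.t ω)) ?_).trans (mi_mono_right P _ ?_)
  · intro ω ω' _ _ e
    simp only [Prod.mk.injEq] at e
    unfold S3.LTh
    rw [if_neg (n1 i hki), if_neg (n1 i hki)]
    have h0 : D.lt k ω = D.lt k ω' := congrArg Prod.fst e.2
    have h1 : (D.fz k k).T i ω = (D.fz k k).T i ω' := by
      show (D.lt k ω, fl1 (D.a (max i k)) (D.t ω)) = (D.lt k ω', fl1 (D.a (max i k)) (D.t ω'))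
      rw [max_eq_left hki, e.1, h0]
    rw [h1]
  · intro ω ω' _ _ e
    exact (Mtd.fz_cell_iff D le_rfl b' ω ω').2 (Prod.mk.inj e).1

end term

/-! ### Jensen over the words -/

section jensen

variable {Ω : Type} [Fintype Ω] {W : Type*}

theorem ex_sqrt_le (P : Law Ω) (f : Ω → ℝ) (hf : ∀ ω, 0 < P.w ω → 0 ≤ f ω) :
    P.ex (fun ω => Real.sqrt (f ω)) ≤ Real.sqrt (P.ex f) := by
  have h0 : 0 ≤ P.ex f := P.ex_nonneg hf
  have key : ∀ ε : ℝ, 0 < ε → P.ex (fun ω => Real.sqrt (f ω)) ≤ (P.ex f / ε + ε) / 2 := by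
    intro ε hε
    have h1 : P.ex (fun ω => Real.sqrt (f ω)) ≤ P.ex (fun ω => 1 / (2 * ε) * f ω + ε / 2) := by
      refine P.ex_mono fun ω hω => ?_
      have h2 := Real.sq_sqrt (hf ω hω)
      have h3 : 0 ≤ (Real.sqrt (f ω) - ε) ^ 2 := sq_nonneg _
      have h4 : 1 / (2 * ε) * f ω + ε / 2 = (f ω + ε ^ 2) / (2 * ε) := by
        field_simp
      rw [h4, le_div_iff₀ (by positivity)]
      nlinarith
    rw [P.ex_add, P.ex_const_mul, P.ex_const] at h1
    refine h1.trans (le_of_eq ?_)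
    field_simp
  rcases h0.eq_or_lt with h | h
  · rw [← h, Real.sqrt_zero]
    refine le_of_forall_pos_le_add fun ε hε => ?_
    have := key ε hε
    rw [← h, zero_div, zero_add] at this
    linarith
  · have hs := Real.sqrt_pos.2 h
    have h1 := key _ hs
    have h2 : P.ex f / Real.sqrt (P.ex f) = Real.sqrt (P.ex f) := by
      rw [div_eq_iff hs.ne']
      exact (Real.mul_self_sqrt h0).symm
    rw [h2] at h1
    linarith

/-- Jensen over the values of a letter -/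
theorem ex_prE_sqrt (P : Law Ω) (z : Ω → W) (E : Ω → Prop) :
    P.ex (fun ω => Real.sqrt (prE (P.cond z (z ω)) E)) ≤ Real.sqrt (prE P E) := by
  refine (ex_sqrt_le P _ fun ω _ => prE_nonneg _ _).trans (Real.sqrt_le_sqrt (le_of_eq ?_))
  have h := Vale.Agent.P127.U.Pin.ex_cond P z (fun ω => Law.ind (E ω))
  rw [H300.ex_ind_eq] at h
  rw [← h]
  refine P.ex_congr fun ω _ => ?_
  rw [H300.ex_ind_eq]

end jensen

/-! ### one label -/

section fib

variable {Ω π : Type} [Fintype Ω] {W : Type*}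

/-- data of the label at one cap and word: time levels, kappa regime, levels above the margins -/
structure Lb (D : Mtd Ω π) (x b n : ℕ) (μ : ℕ) (t : Ω → ℝ) : Prop where
  ht : D.t = t
  ha : D.a x = n
  hμ : D.μ = μ
  ka : b + D.rk x < D.rf x
  b8 : 8 * μ ≤ b
  R8 : 8 * μ ≤ D.R x b

/-- **field (V1), one label**: sum over the caps, laws conditioned on the words -/
theorem v1_fib (P : Law Ω) {w : ℕ → Ω → W} (hW : ∀ b, Fn P (w b) (w (b + 1))) (C J : ℕ → W → Prop)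
    (hI : ∀ ω, 0 < P.w ω → ∀ i j l, i ≤ j → j ≤ l → C i (w i ω) → C l (w l ω) → C j (w j ω))
    (D : ℕ → W → Mtd Ω π) (x i : ℕ → W → ℕ) (b b' : ℕ → ℕ) (t : Ω → ℝ) (n p μ : ℕ) {K : ℝ} {β N : ℕ} (h1 : 1 ≤ K)
    (hL : ∀ k < N + β, ∀ ω, 0 < P.w ω → C k (w k ω) → Lb (D k (w k ω)) (x k (w k ω)) (b k) n μ t)
    (hJ : ∀ k < N, ∀ ω, 0 < P.w ω → C k (w k ω) → J k (w k ω) →
      x k (w k ω) ≤ i k (w k ω) ∧ (D k (w k ω)).a (i k (w k ω)) = n + p)
    (hy : ∀ k < N + β, ∀ ω, 0 < P.w ω → C k (w k ω) → (D k (w k ω)).Hy K {x k (w k ω)} ω)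
    (hS : ∀ k < N, ∀ ω, 0 < P.w ω → C k (w k ω) → C (k + β) (w (k + β) ω) →
      Sm2 (D k (w k ω)) (D (k + β) (w (k + β) ω)) (x k (w k ω)) (x (k + β) (w (k + β) ω)))
    (hp : ∀ k < N, ∀ ω, 0 < P.w ω → C k (w k ω) → C (k + β) (w (k + β) ω) →
      Fn (P.cond (w (k + β)) (w (k + β) ω)) ((D k (w k ω)).pf (x k (w k ω)))
        ((D (k + β) (w (k + β) ω)).pf (x (k + β) (w (k + β) ω))))
    (hb : ∀ k < N, b k ≤ b' k) (hb' : ∀ k < N, b' k + 2 * μ ≤ b (k + β)) :
    ∑ k ∈ range N, P.ex (fun ω => Law.ind (C k (w k ω) ∧ J k (w k ω)) *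
      mi (P.cond (w k) (w k ω))
        (S3.LTh ((D k (w k ω)).fz (x k (w k ω)) (x k (w k ω))) (b k) (i k (w k ω)))
        (((D k (w k ω)).fz (x k (w k ω)) (x k (w k ω))).cell (x k (w k ω)) (b' k))
        (S3.LDk ((D k (w k ω)).fz (x k (w k ω)) (x k (w k ω))) (b k) (x k (w k ω)))) ≤
      3 * β * (p * Real.log 2) +
        cB K * ∑ k ∈ range N, Real.sqrt (prE P fun ω => C k (w k ω) ∧ C (k + β) (w (k + β) ω) ∧
          ((D k (w k ω)).p1 (x k (w k ω))).Bad (640 * (8 * K) ^ 7) 0 (b k) ω) +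
        cB K * ∑ k ∈ range N, Real.sqrt (prE P fun ω => C k (w k ω) ∧ C (k + β) (w (k + β) ω) ∧
          ((D k (w k ω)).p1 (x k (w k ω))).Bad (640 * (8 * K) ^ 7) 0 (b' k) ω) := by
  classical
  have K0 := cB_pos K
  have hback : ∀ k ω ω', 0 < P.w ω → 0 < P.w ω' → w (k + β) ω = w (k + β) ω' → w k ω = w k ω' :=
    fun k ω ω' p p' e => H661.Age.nest P hW k β ω ω' p p' e
  set s : Ω → ℤ := fun ω => fl1 (n + p) (t ω) with hs
  set E : (ℕ → ℕ) → ℕ → Ω → Prop := fun c k ω => C k (w k ω) ∧ C (k + β) (w (k + β) ω) ∧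
    ((D k (w k ω)).p1 (x k (w k ω))).Bad (640 * (8 * K) ^ 7) 0 (c k) ω with hE
  set ν : (ℕ → ℕ) → ℕ → Ω → ℝ := fun c k ω =>
    cB K * Real.sqrt (prE (P.cond (w (k + β)) (w (k + β) ω)) (E c k)) with hν
  have hν0 : ∀ c k ω, 0 ≤ ν c k ω := fun c k ω => mul_nonneg K0 (Real.sqrt_nonneg _)
  -- near-nestedness
  have near : ∀ (c : ℕ → ℕ), ∀ k < N, b k ≤ c k → c k + 2 * μ ≤ b (k + β) → ∀ ω, 0 < P.w ω → C k (w k ω) →
      C (k + β) (w (k + β) ω) → hc (P.cond (w (k + β)) (w (k + β) ω)) ((D k (w k ω)).mtr (x k (w k ω)) (c k))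
        ((D (k + β) (w (k + β) ω)).mtr (x (k + β) (w (k + β) ω)) (b (k + β))) ≤ ν c k ω := by
    intro c k hk hc1 hc2 ω hω c1 c2
    have L1 := hL k (by omega) ω hω c1
    have L2 := hL (k + β) (by omega) ω hω c2
    have S := hS k hk ω hω c1 c2
    have fib : ∀ ω', 0 < (P.cond (w (k + β)) (w (k + β) ω)).w ω' →
        0 < P.w ω' ∧ w (k + β) ω' = w (k + β) ω ∧ w k ω' = w k ω := by
      intro ω' h'
      have q := cond_supp P hω h'
      exact ⟨q.1, q.2, hback k ω' ω q.1 hω q.2⟩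
    have hμ := L1.hμ
    have g1 := L1.b8
    have g2 := L1.R8
    have g3 := L2.ka
    have g4 := S.rk
    have g5 := S.ν
    have m1 : 8 * (D k (w k ω)).μ ≤ (D k (w k ω)).R (x k (w k ω)) (c k) := by
      rw [hμ]
      refine g2.trans ?_
      unfold Mtd.R
      exact min_le_min (by omega) le_rfl
    have m2 : (D k (w k ω)).R (x k (w k ω)) (c k) + (D k (w k ω)).μ ≤
        (D (k + β) (w (k + β) ω)).R (x (k + β) (w (k + β) ω)) (b (k + β)) := by
      rw [hμ]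
      unfold Mtd.R Mtd.rr
      rw [le_min_iff]
      constructor
      · have := min_le_left ((D k (w k ω)).rk (x k (w k ω)) - (D k (w k ω)).ν + c k) ((D k (w k ω)).rf (x k (w k ω)))
        omega
      · have := min_le_left ((D k (w k ω)).rk (x k (w k ω)) - (D k (w k ω)).ν + c k) ((D k (w k ω)).rf (x k (w k ω)))
        omega
    have main := hc_mtr2 (P.cond (w (k + β)) (w (k + β) ω)) (D k (w k ω)) (D (k + β) (w (k + β) ω)) (K := K)
      (I := {x k (w k ω)}) (J := {x (k + β) (w (k + β) ω)}) (b := c k) (b2 := b (k + β)) S h1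
      (fun ω' h' => by
        have q := fib ω' h'
        have := hy k (by omega) ω' q.1 (by rw [q.2.2]; exact c1)
        rwa [q.2.2] at this)
      (fun ω' h' => by
        have q := fib ω' h'
        have := hy (k + β) (by omega) ω' q.1 (by rw [q.2.1]; exact c2)
        rwa [q.2.1] at this)
      rfl rfl (by omega) m1 (by omega) m2
      (fun ω₁ ω₂ p₁ p₂ e => hp k hk ω hω c1 c2 ω₁ ω₂ p₁ p₂
        (congrArg (fun y : Lt π × Pth.Dg => y.1.2.1) e))
    refine main.trans (mul_le_mul_of_nonneg_left (Real.sqrt_le_sqrt ?_) K0)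
    refine prE_mono' _ fun ω' h' hB => ?_
    have q := fib ω' h'
    rw [hE]
    refine ⟨by rw [q.2.2]; exact c1, by rw [q.2.1]; exact c2, ?_⟩
    rw [q.2.2]
    exact hB
  have tel := tel_fib P hW (fun k ω => C k (w k ω)) (fun k ω ω' _ _ e => by rw [e]) hI s
    (fun k e => (D k e).mtr (x k e) (b k)) (fun k e => (D k e).mtr (x k e) (b' k)) (2 ^ p) Nat.one_le_two_pow
    (β := β) (K := N) ?_ (ν b) (ν b') (hν0 b) (hν0 b')
    (fun k hk ω hω c1 c2 => near b k hk le_rfl (by have := hb k hk; have := hb' k hk; omega) ω hω c1 c2)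
    (fun k hk ω hω c1 c2 => near b' k hk (hb k hk) (hb' k hk) ω hω c1 c2)
  · -- the terms
    have hterm : ∀ k ∈ range N, P.ex (fun ω => Law.ind (C k (w k ω) ∧ J k (w k ω)) *
        mi (P.cond (w k) (w k ω))
          (S3.LTh ((D k (w k ω)).fz (x k (w k ω)) (x k (w k ω))) (b k) (i k (w k ω)))
          (((D k (w k ω)).fz (x k (w k ω)) (x k (w k ω))).cell (x k (w k ω)) (b' k))
          (S3.LDk ((D k (w k ω)).fz (x k (w k ω)) (x k (w k ω))) (b k) (x k (w k ω)))) ≤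
        P.ex (fun ω => Law.ind (C k (w k ω)) *
          mi (P.cond (w k) (w k ω)) s ((D k (w k ω)).mtr (x k (w k ω)) (b' k))
            ((D k (w k ω)).mtr (x k (w k ω)) (b k))) := by
      intro k hk
      have hkN := Finset.mem_range.1 hk
      refine P.ex_mono fun ω hω => ?_
      by_cases hc : C k (w k ω) ∧ J k (w k ω)
      · rw [Law.ind_of hc, Law.ind_of hc.1, one_mul, one_mul]
        have L1 := hL k (by omega) ω hω hc.1
        obtain ⟨j1, j2⟩ := hJ k hkN ω hω hc.1 hc.2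
        have := v1_term (P.cond (w k) (w k ω)) (D k (w k ω)) (b' := b' k) j1 L1.ka
        rw [j2, L1.ht] at this
        exact this
      · rw [Law.ind_not hc, zero_mul]
        exact mul_nonneg (Vale.Agent.P127.U.Mic.ind_nonneg _) (mi_nonneg _ _ _ _)
    refine (Finset.sum_le_sum hterm).trans (tel.trans ?_)
    have l1 : Real.log ((2 ^ p : ℕ) : ℝ) = p * Real.log 2 := by
      push_cast
      rw [Real.log_pow]
    have l2 : ∀ c : ℕ → ℕ, ∑ k ∈ range N, P.ex (ν c k) ≤ cB K * ∑ k ∈ range N, Real.sqrt (prE P (E c k)) := by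
      intro c
      rw [Finset.mul_sum]
      refine Finset.sum_le_sum fun k _ => ?_
      rw [hν]
      simp only
      rw [P.ex_const_mul]
      exact mul_le_mul_of_nonneg_left (ex_prE_sqrt P (w (k + β)) (E c k)) K0
    rw [l1]
    have := l2 b
    have := l2 b'
    linarith
  · -- the values of the time
    intro k hk ω hω hc
    have L1 := hL k hk ω hω hc
    refine ⟨Finset.Ico (2 ^ p * fl1 n (t ω)) (2 ^ p * fl1 n (t ω) + 2 ^ p), ?_, fun ω' hω' _ e => ?_⟩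
    · rw [Int.card_Ico]
      simp
    · have e0 : fl1 n (t ω') = fl1 n (t ω) := by
        have := congrArg (fun y : Lt π × Pth.Dg => y.1.1) e
        have e1 : fl1 ((D k (w k ω)).a (x k (w k ω))) ((D k (w k ω)).t ω') =
            fl1 ((D k (w k ω)).a (x k (w k ω))) ((D k (w k ω)).t ω) := this
        rwa [L1.ha, L1.ht] at e1
      rw [Finset.mem_Ico]
      have h2 : (0 : ℝ) < 2 ^ p := by positivity
      have a1 := Int.floor_le ((2 : ℝ) ^ n * t ω')
      have a2 := Int.lt_floor_add_one ((2 : ℝ) ^ n * t ω')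
      have e3 : fl1 n (t ω) = ⌊(2 : ℝ) ^ n * t ω'⌋ := e0.symm
      have e4 : fl1 (n + p) (t ω') = ⌊(2 : ℝ) ^ p * ((2 : ℝ) ^ n * t ω')⌋ := by
        unfold fl1
        rw [pow_add]
        congr 1
        ring
      rw [hs, e3]
      simp only
      rw [e4]
      constructor
      · rw [Int.le_floor]
        push_cast
        exact mul_le_mul_of_nonneg_left a1 h2.le
      · rw [Int.floor_lt]
        push_cast
        nlinarith [mul_lt_mul_of_pos_left a2 h2]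

end fib

end Vale.Agent.P106.U.H122
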