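import Vale.Agent.P106.U.H122.V1

/-!
# P106 / U / H122 : (V1) is a part of (V2); the term of (V2) in the kappa regime (helper122)
-/

set_option autoImplicit false

namespace Vale.Agent.P106.U.H122

open Finset Vale.Agent.P127 Vale.Agent.P127.Stk
open Vale.Agent.P127.U.CellD (q2 rd Nb)
open Vale.Agent.P106.U.Cell
open Vale.Agent.P106.U.H785.Mtr

section term

variable {Ω π : Type} [Fintype Ω] {V : Type*}

/-- **the term of (V2)** in the kappa regime: `V` = curvature and kappa of the line -/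
theorem v2_term (P : Law Ω) (D : Mtd Ω π) {k i b b' : ℕ} (A : Ω → V) (hki : k ≤ i) (hr : b + D.rk k < D.rf k) :
    mi P (S3.LTh (D.fz k k) b i) (fun ω => ((D.fz k k).cell k b' ω, A ω)) (S3.LDk (D.fz k k) b k) ≤
      mi P (fun ω => fl1 (D.a i) (D.t ω)) (fun ω => (D.mtr k b' ω, A ω)) (D.mtr k b) := by
  have rk : ∀ x, k ≤ x → (D.fz k k).rk x = D.rr k := fun x hx => Mtd.fz_rk D hx hx
  have rf : ∀ x, k ≤ x → (D.fz k k).rf x = D.rf x := fun x hx => Mtd.fz_rf D hx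
  have n1 : ∀ x, k ≤ x → ¬ (D.fz k k).rf x ≤ b + (D.fz k k).rk x := by
    intro x hx
    rw [rk x hx, rf x hx]
    have := D.hf hx
    unfold Mtd.rr
    omega
  have fD : Fn P (D.mtr k b) (S3.LDk (D.fz k k) b k) := by
    intro ω ω' _ _ e
    unfold S3.LDk at e
    simp only [Prod.mk.injEq] at e
    exact (Mtd.fz_cell_iff D le_rfl b ω ω').1 e.1
  have fD' : Fn P (S3.LDk (D.fz k k) b k) (D.mtr k b) := by
    intro ω ω' _ _ e
    unfold S3.LDk
    rw [if_neg (n1 k le_rfl), (Mtd.fz_cell_iff D le_rfl b ω ω').2 e, if_neg (n1 k le_rfl)]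
  rw [mi_congr_cond P _ _ fD' fD]
  refine (mi_mono_left P _ (X' := fun ω => fl1 (D.a i) (D.t ω)) ?_).trans (mi_mono_right P _ ?_)
  · intro ω ω' _ _ e
    simp only [Prod.mk.injEq] at e
    unfold S3.LTh
    rw [if_neg (n1 i hki), if_neg (n1 i hki)]
    have h0 : D.lt k ω = D.lt k ω' := congrArg Prod.fst e.2
    have h1 : (D.fz k k).T i ω = (D.fz k k).T i ω' := by
      show (D.lt k ω, fl1 (D.a (max i k)) (D.t ω)) = (D.lt k ω', fl1 (D.a (max i k)) (D.t ω'))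
      rw [max_eq_left hki, e.1, h0]
    rw [h1]
  · intro ω ω' _ _ e
    simp only [Prod.mk.injEq] at e ⊢
    exact ⟨(Mtd.fz_cell_iff D le_rfl b' ω ω').2 e.1.1, e.1.2⟩

/-- the middle letter of (V1) is a part of the one of (V2) -/
theorem v1_le_v2 (P : Law Ω) {S T U : Type*} (s : Ω → S) (E : Ω → T) (A : Ω → V) (D : Ω → U) :
    mi P s E D ≤ mi P s (fun ω => (E ω, A ω)) D := by
  refine mi_mono_right P _ ?_
  intro ω ω' _ _ e
  simp only [Prod.mk.injEq] at e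
  exact e.1.1

/-- the kappa digit of an earlier cap is a function of the later letter -/
theorem fn_ob (P : Law Ω) (Y : Mtd Ω π) (k' b r : ℕ) (κ : Ω → ℝ) (oκ : ℝ) (hκ : ∀ ω, 0 < P.w ω → κ ω = Y.κ k' ω)
    (ho : oκ = Y.oκ) (hr : r ≤ Y.rk k' - Y.ν) : Fn P (fun ω => fl1 r (κ ω + oκ)) (Y.mtr k' b) := by
  intro ω ω' h h' e
  have e1 : fl1 (Y.rr k') (Y.κ k' ω + Y.oκ) = fl1 (Y.rr k') (Y.κ k' ω' + Y.oκ) :=
    congrArg (fun y : Lt π × Pth.Dg => y.1.2.2.1) e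
  show fl1 r (κ ω + oκ) = fl1 r (κ ω' + oκ)
  rw [hκ ω h, hκ ω' h', ho]
  exact Vale.Agent.P127.U.CellD.fl1_fl1 hr e1

/-- a function of the prefix letter is a function of the cell -/
theorem fn_pf (P : Law Ω) (Y : Mtd Ω π) (k' b : ℕ) (A : Ω → V) (hA : Fn P A (Y.pf k')) : Fn P A (Y.mtr k' b) :=
  fun ω ω' h h' e => hA ω ω' h h' (congrArg (fun y : Lt π × Pth.Dg => y.1.2.1) e)

/-- exact functions of the later cell cost nothing -/
theorem hc_pair_fn (P : Law Ω) {S T : Type*} (X : Ω → S) (A : Ω → V) (Y : Ω → T) (hA : Fn P A Y) :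
    hc P (fun ω => (X ω, A ω)) Y ≤ hc P X Y := by
  rw [hc_pair, hc_zero P (X := A) (Y := fun ω => (X ω, Y ω))
    (fun ω ω' h h' e => hA ω ω' h h' (congrArg Prod.snd e)), add_zero]

end term

section run

variable {Ω τ υ π : Type} [Fintype Ω]

open Classical in
/-- **(V1) follows from (V2)** -/
theorem v1_of_v2 (R : S3.Run Ω τ υ) (p : S3.Run.Num) (B bV : ℕ) (F : S3.Pf R π) (Vs Xs : Finset ℕ) (μ : ℕ)
    (o : Fin 7 → ℝ) (o' : ℕ → ℝ) (d : ℕ) :
    ∑ k ∈ S3.IdK R Vs Xs, ∑ i ∈ S3.At' R p B d k,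
      mi R.Q (S3.LTh ((S3.mt R F μ o o').fz k k) (R.m * R.b1) i) (((S3.mt R F μ o o').fz k k).cell k bV)
        (S3.LDk ((S3.mt R F μ o o').fz k k) (R.m * R.b1) k) ≤
    ∑ k ∈ S3.IdK R Vs Xs, ∑ i ∈ S3.At' R p B d k,
      mi R.Q (S3.LTh ((S3.mt R F μ o o').fz k k) (R.m * R.b1) i)
        (fun ω => (((S3.mt R F μ o o').fz k k).cell k bV ω, F.Ao (S3.lv R k) ω, S3.Ob R B o' k ω))
        (S3.LDk ((S3.mt R F μ o o').fz k k) (R.m * R.b1) k) :=
  Finset.sum_le_sum fun k _ => Finset.sum_le_sum fun _ _ =>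
    v1_le_v2 R.Q _ _ (fun ω => (F.Ao (S3.lv R k) ω, S3.Ob R B o' k ω)) _

end run

end Vale.Agent.P106.U.H122
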