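import Vale.Agent.P106.U.H122.V2Fin
import Vale.Agent.P106.U.H101.OffW
import Vale.Agent.P106.U.H404.FinR
import Vale.Agent.P106.U.H118.HeavyPar

/-!
# P106 / U / H122 : row [V2] (helper122)

* `BdL` : the exceptional events of the labels of one cap and those of the frozen paths of the record (helper470).
* `near_win` : the sum over the labels of a window; `off_mean` : its mean from `Off`.
* `v2_one` : helper470's `v2_win` over helper712's windows.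
* **`row_v2_of`** : `RowV2` from `BdL`.
-/

set_option autoImplicit false

namespace Vale.Agent.P106.U.H122.V2Fin

open Finset Vale.Agent.P127 Vale.Agent.P127.Stk Vale.Agent.P127.U Vale.Agent.P106.W
open Vale.Agent.P127.U.CellD (q2 q2_pos q2_le q2_add)
open Vale.Agent.P106.U Vale.Agent.P106.U.H449 Vale.Agent.P106.U.LinkR Vale.Agent.P106.U.Cell
open Vale.Agent.P106.U.H565 Vale.Agent.P106.U.H823.NumW Vale.Agent.P106.U.H823.PathNum
open Vale.Agent.P106.U.S3 (Run Pf mt exc IdK)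
open Vale.Agent.P106.U.H61.Ext2 Vale.Agent.P106.U.H61.PS
open Vale.Agent.P106.U.H712.Fam (Win Vl Pl pfC)
open Vale.Agent.P106.U.H712.Fam.Win (av_mul R_m R_Q)
open Vale.Agent.P106.U.H101.Off (allV o4 o4_ge o4_nonneg)
open Vale.Agent.P106.U.H122.LastN
open Vale.Agent.P106.U.H470 (cM cM_nn)

section one

variable {Ω : Type} [Fintype Ω] (w : Win Ω)

open Classical in
/-- **the bad lemma** (helper470) -/
def BdL (K : ℝ) (p : H712.Fam.Par) (μ : ℕ) (o : Fin 7 → ℝ) (o' : ℕ → ℝ) : Prop :=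
  ∀ k b, ∑ y ∈ labs (wc1 w) p.B, prE w.Q1 ((wc1 w).bd w.hm w.cc p.B w.b0 w.s (fun k => w.Z k) Win.good μ o o' K y k b) ≤
    w.Q1.ex (fun ω => if Win.good k (w.Z k ω) then
      ∑ i ∈ IdK (w.R k (w.Z k ω)) (allV (w.R k (w.Z k ω))) ∅, prE (w.R k (w.Z k ω)).Q
        (((mt (w.R k (w.Z k ω)) (w.F p k (w.Z k ω)) μ o o').fz i i).Bad (640 * (8 * (4 * K)) ^ 7) i b) else 0)

theorem R_b1 (k : ℕ) (z : Vl) : (w.R k z).b1 = w.b0 + k * w.s := by
  obtain ⟨z', hz, e⟩ := cv_cases w k z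
  show (w.cv k z).b1 = _
  rw [e]
  rfl

/-- digits of the cap -/
noncomputable def bK (k : ℕ) : ℕ := w.c.I.m * (w.b0 + k * w.s)

theorem sK_ge (p : H712.Fam.Par) {K K' : ℝ} (hK : 640 * (8 * (4 * K)) ^ 7 ≤ K') (μ : ℕ) (o : Fin 7 → ℝ) (o' : ℕ → ℝ)
    (d k : ℕ) (z : Vl) :
    ∑ i ∈ IdK (w.R k z) (allV (w.R k z)) ∅, prE (w.R k z).Q
        (((mt (w.R k z) (w.F p k z) μ o o').fz i i).Bad (640 * (8 * (4 * K)) ^ 7) i (bK w k)) +
      ∑ i ∈ IdK (w.R k z) (allV (w.R k z)) ∅, prE (w.R k z).Q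
        (((mt (w.R k z) (w.F p k z) μ o o').fz i i).Bad (640 * (8 * (4 * K)) ^ 7) i (w.bV p k)) ≤
    sK (w.R k z) (w.nm k z) p.B (w.bV p k) (w.F p k z) (allV (w.R k z)) ∅ μ K' o o' d := by
  classical
  rw [← Finset.sum_add_distrib]
  unfold sK
  refine Finset.sum_le_sum fun i _ => ?_
  have e : (w.R k z).m * (w.R k z).b1 = bK w k := by rw [R_m, R_b1]; rfl
  rw [e]
  have h1 : ∀ b, prE (w.R k z).Q (((mt (w.R k z) (w.F p k z) μ o o').fz i i).Bad (640 * (8 * (4 * K)) ^ 7) i b) ≤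
      exc (w.R k z).Q ((mt (w.R k z) (w.F p k z) μ o o').fz i i) K' i b := by
    intro b
    unfold exc
    have h2 : prE (w.R k z).Q (((mt (w.R k z) (w.F p k z) μ o o').fz i i).Bad (640 * (8 * (4 * K)) ^ 7) i b) ≤
        prE (w.R k z).Q (((mt (w.R k z) (w.F p k z) μ o o').fz i i).Bad K' i b) :=
      prE_le _ fun ω hE => Pth.Bad_mono hK hE
    have h3 := prE_nonneg (w.R k z).Q (H420.BadS ((mt (w.R k z) (w.F p k z) μ o o').fz i i) K' i b)
    have h4 := prE_nonneg (w.R k z).Q (H300.BadR ((mt (w.R k z) (w.F p k z) μ o o').fz i i) K' i b)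
    linarith
  have h2 : 0 ≤ ∑ j ∈ S3.At' (w.R k z) (w.nm k z) p.B d i,
      exc (w.R k z).Q ((mt (w.R k z) (w.F p k z) μ o o').fz i i) K' j (bK w k) :=
    Finset.sum_nonneg fun _ _ => exc_nonneg _ _ _ _ _
  have h3 := h1 (bK w k)
  have h4 := h1 (w.bV p k)
  linarith

/-- **the exceptional events of the labels of a window** -/
theorem near_win {p : H712.Fam.Par} {K K' : ℝ} {μ : ℕ} {o : Fin 7 → ℝ} {o' : ℕ → ℝ} (hB : BdL w K p μ o o')
    (hK : 640 * (8 * (4 * K)) ^ 7 ≤ K') (T d : ℕ) :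
    ∑ k ∈ range T, ∑ y ∈ labs (wc1 w) p.B,
      (prE w.Q1 ((wc1 w).bd w.hm w.cc p.B w.b0 w.s (fun k => w.Z k) Win.good μ o o' K y k (bK w k)) +
        prE w.Q1 ((wc1 w).bd w.hm w.cc p.B w.b0 w.s (fun k => w.Z k) Win.good μ o o' K y k (w.bV p k))) ≤
      w.av T (fun k z => sK (w.R k z) (w.nm k z) p.B (w.bV p k) (w.F p k z) (allV (w.R k z)) ∅ μ K' o o' d) := by
  classical
  unfold Win.av
  refine Finset.sum_le_sum fun k _ => ?_
  rw [Finset.sum_add_distrib]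
  refine (add_le_add (hB k (bK w k)) (hB k (w.bV p k))).trans ?_
  rw [← w.Q1.ex_add]
  refine w.Q1.ex_mono fun ω _ => ?_
  split_ifs with hg
  · exact sK_ge w p hK μ o o' d k (w.Z k ω)
  · rw [add_zero]

/-- numbers of the window -/
theorem nw_of {p : H61.PS.Par} {K : ℝ} (hK : 648 ≤ K) {L K3 μ : ℕ} (hμ : μ ≤ p.B) (hb : 8 * p.B < w.b0) (es : w.s = p.s)
    (hs : 1 ≤ p.s) (eB : w.c.I.B = p.B) (hm : 1 ≤ w.c.I.m) (hr : 192 * K ^ 2 * q2 (w.c.I.rs - μ / 2) ≤ 1)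
    (hL : 2 * p.B + p.L ≤ L) (h3 : 1 ≤ K3) (T : ℕ) :
    C1.Nw (wc1 w) K p.B w.b0 w.s T μ L K3 (w.bV p.fp) where
  K6 := hK
  μB := hμ
  B0 := hb.le
  s1 := by rw [es]; exact hs
  mB := by
    show μ ≤ w.c.I.m * w.c.I.B
    rw [eB]
    exact hμ.trans (Nat.le_mul_of_pos_left _ hm)
  rs := hr
  L2 := by omega
  K31 := h3
  bv := fun k _ => by
    show w.c.I.m * (w.b0 + k * w.s) ≤ w.c.I.m * (w.b0 + k * w.s + p.L * p.s)
    exact Nat.mul_le_mul_left _ (Nat.le_add_right _ _)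
  bv' := fun k _ => by
    show w.c.I.m * (w.b0 + k * w.s + p.L * p.s) + 2 * μ ≤ w.c.I.m * (w.b0 + (k + L * K3) * w.s)
    have h1 : p.L * p.s + 2 * p.B ≤ L * K3 * w.s := by
      rw [es]
      have g1 : (2 * p.B + p.L) * p.s ≤ L * p.s := Nat.mul_le_mul_right _ hL
      have g2 : L * p.s ≤ L * K3 * p.s := by
        refine Nat.mul_le_mul_right _ (Nat.le_mul_of_pos_right _ h3)
      have g3 : 2 * p.B ≤ 2 * p.B * p.s := Nat.le_mul_of_pos_right _ hs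
      rw [Nat.add_mul] at g1
      omega
    have h2 : w.b0 + k * w.s + p.L * p.s + 2 * p.B ≤ w.b0 + (k + L * K3) * w.s := by
      rw [Nat.add_mul]
      omega
    have h3 := Nat.mul_le_mul_left w.c.I.m h2
    rw [Nat.mul_add] at h3
    have h4 : 2 * p.B ≤ w.c.I.m * (2 * p.B) := Nat.le_mul_of_pos_left _ hm
    omega

theorem v2S_nn {τ υ π : Type} (R : Run Ω τ υ) (p : Run.Num) (B bV : ℕ) (F : Pf R π) (Vs Xs : Finset ℕ)
    (μ : ℕ) (o : Fin 7 → ℝ) (o' : ℕ → ℝ) (d : ℕ) : 0 ≤ v2S R p B bV F Vs Xs μ o o' d :=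
  Finset.sum_nonneg fun _ _ => Finset.sum_nonneg fun _ _ => mi_nonneg _ _ _ _

/-- the left side of `F2o.V2` at a place of the window, as a function of the word -/
noncomputable def v2w (p : H61.PS.Par) (μ : ℕ) (o : Fin 7 → ℝ) (o' : ℕ → ℝ) (d k : ℕ) (z : Vl) : ℝ :=
  (wc1 w).v2At w.hm w.cc w.in0 w.hc w.b0 w.s p.B (fun k => w.Z k) Win.good w.oO
        w.oK w.oG w.oN (w.bV p.fp) (w.Vs p.fp) (w.Xs p.fp) μ o o' d k z

theorem v2w_nn (p : H61.PS.Par) (μ : ℕ) (o : Fin 7 → ℝ) (o' : ℕ → ℝ) (d k : ℕ) (z : Vl) : 0 ≤ v2w w p μ o o' d k z := by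
  unfold v2w C1.v2At
  split_ifs
  · exact v2S_nn _ _ _ _ _ _ _ _ _ _ _
  · exact le_rfl

theorem v2w_eq (p : H61.PS.Par) (μ : ℕ) (o : Fin 7 → ℝ) (o' : ℕ → ℝ) (d : ℕ) {k : ℕ} {z : Vl} (hz : 0 < w.Q1.pr (w.Z k) z)
    (hg : Win.good k z) : sV2 (w.R k z) (w.nm k z) p.B (w.bV p.fp k) (w.F p.fp k z) (w.Vs p.fp k z)
      (w.Xs p.fp k z) μ o o' d = v2w w p μ o o' d k z := by
  unfold v2w C1.v2At
  rw [dif_pos (⟨hz, hg⟩ : 0 < (wc1 w).Q1.pr (w.Z k) z ∧ Win.good k z)]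
  exact sV2_eq w p.fp hz (w.bV p.fp k) (w.Vs p.fp k z) (w.Xs p.fp k z) μ o o' d

theorem left_le (p : H61.PS.Par) (μ : ℕ) (o : Fin 7 → ℝ) (o' : ℕ → ℝ) (T d : ℕ) :
    w.av T (fun k z => if p.k1 ≤ k then sV2 (w.R k z) (w.nm k z) p.B (w.bV p.fp k) (w.F p.fp k z) (w.Vs p.fp k z)
      (w.Xs p.fp k z) μ o o' d else 0) ≤
      ∑ k ∈ range T, w.Q1.ex (fun ω => v2w w p μ o o' d k (w.Z k ω)) := by
  classical
  unfold Win.av
  refine Finset.sum_le_sum fun k _ => w.Q1.ex_mono fun ω hω => ?_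
  have hz := w.Q1.pr_pos (w.Z k) hω
  by_cases hgd : Win.good k (w.Z k ω)
  · rw [if_pos hgd]
    beta_reduce
    by_cases hk : p.k1 ≤ k
    · rw [if_pos hk]
      exact (v2w_eq w p μ o o' d hz hgd).le
    · rw [if_neg hk]
      exact v2w_nn w p μ o o' d k _
  · rw [if_neg hgd]
    exact v2w_nn w p μ o o' d k _

/-- the near part -/
theorem near_le {p : H61.PS.Par} {K K' : ℝ} {μ : ℕ} {o : Fin 7 → ℝ} {o' : ℕ → ℝ} (hK' : 640 * (8 * (4 * K)) ^ 7 ≤ K')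
    (hB : BdL w K p.fp μ o o') (T d : ℕ) :
    ∑ y ∈ labs (wc1 w) p.B, (∑ k ∈ range T, cM (4 * K) * Real.sqrt (prE w.Q1 ((wc1 w).bd w.hm w.cc p.B w.b0 w.s
        (fun k => w.Z k) Win.good μ o o' K y k (bK w k))) +
      ∑ k ∈ range T, cM (4 * K) * Real.sqrt (prE w.Q1 ((wc1 w).bd w.hm w.cc p.B w.b0 w.s
        (fun k => w.Z k) Win.good μ o o' K y k (w.bV p.fp k)))) ≤
      2 * cM (4 * K) * Real.sqrt (T * ((4 + 2 * w.K1) * ((w.c.I.h : ℝ) / w.c.I.m)) *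
        w.av T (fun k z => sK (w.R k z) (w.nm k z) p.B (w.bV p.fp k) (w.F p.fp k z) (allV (w.R k z)) ∅ μ K' o o' d)) := by
  have hcard := card_labs' (wc1 w) p.B
  set q1 : ℕ → ℕ × ℕ → ℝ := fun k y =>
    prE w.Q1 ((wc1 w).bd w.hm w.cc p.B w.b0 w.s (fun k => w.Z k) Win.good μ o o' K y k (bK w k)) with hq1
  set q2' : ℕ → ℕ × ℕ → ℝ := fun k y =>
    prE w.Q1 ((wc1 w).bd w.hm w.cc p.B w.b0 w.s (fun k => w.Z k) Win.good μ o o' K y k (w.bV p.fp k)) with hq2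
  have n0 := near_win w hB hK' T d
  set Y : ℝ := w.av T (fun k z => sK (w.R k z) (w.nm k z) p.B (w.bV p.fp k) (w.F p.fp k z) (allV (w.R k z)) ∅ μ K' o o' d)
    with hYd
  have n1 : ∑ k ∈ range T, ∑ y ∈ labs (wc1 w) p.B, q1 k y ≤ Y := by
    refine le_trans ?_ n0
    exact Finset.sum_le_sum fun k _ => Finset.sum_le_sum fun y _ => le_add_of_nonneg_right (prE_nonneg _ _)
  have n2 : ∑ k ∈ range T, ∑ y ∈ labs (wc1 w) p.B, q2' k y ≤ Y := by
    refine le_trans ?_ n0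
    exact Finset.sum_le_sum fun k _ => Finset.sum_le_sum fun y _ => le_add_of_nonneg_left (prE_nonneg _ _)
  have hc2 : ((range T).card : ℝ) * (labs (wc1 w) p.B).card ≤ T * ((4 + 2 * w.K1) * ((w.c.I.h : ℝ) / w.c.I.m)) := by
    rw [Finset.card_range]
    exact mul_le_mul_of_nonneg_left hcard (Nat.cast_nonneg _)
  have s1 := RowN.sum_sqrt2 (range T) (labs (wc1 w) p.B) q1 (fun _ _ _ _ => prE_nonneg _ _) hc2 n1
  have s2 := RowN.sum_sqrt2 (range T) (labs (wc1 w) p.B) q2' (fun _ _ _ _ => prE_nonneg _ _) hc2 n2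
  have e1 : ∑ y ∈ labs (wc1 w) p.B, (∑ k ∈ range T, cM (4 * K) * Real.sqrt (q1 k y) +
      ∑ k ∈ range T, cM (4 * K) * Real.sqrt (q2' k y)) =
      cM (4 * K) * (∑ k ∈ range T, ∑ y ∈ labs (wc1 w) p.B, Real.sqrt (q1 k y)) +
        cM (4 * K) * (∑ k ∈ range T, ∑ y ∈ labs (wc1 w) p.B, Real.sqrt (q2' k y)) := by
    rw [Finset.sum_add_distrib, Finset.sum_comm, Finset.sum_comm (s := labs (wc1 w) p.B) (t := range T)
      (f := fun y k => cM (4 * K) * Real.sqrt (q2' k y)), Finset.mul_sum, Finset.mul_sum]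
    simp only [Finset.mul_sum]
  have e2 := mul_le_mul_of_nonneg_left s1 (cM_nn (4 * K))
  have e3 := mul_le_mul_of_nonneg_left s2 (cM_nn (4 * K))
  rw [e1]
  linarith

/-- **one window**, helper470's `v2_win` over helper712's windows -/
theorem v2_one {Rm : ℕ} (h : w.Ho Rm) {p : H61.PS.Par} {K K' : ℝ} (hK : 648 ≤ K) (hK' : 640 * (8 * (4 * K)) ^ 7 ≤ K')
    {L K3 μ : ℕ} (hμ : μ ≤ p.B) (hb : 8 * p.B < w.b0) (es : w.s = p.s)
    (hs : 1 ≤ p.s) (eB : w.c.I.B = p.B) (hr : 192 * K ^ 2 * q2 (w.c.I.rs - μ / 2) ≤ 1)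
    (hL : 2 * p.B + p.L ≤ L) (h3 : 1 ≤ K3) (hg : 1 ≤ p.g) (hD : 2 ≤ p.D0) {o : Fin 7 → ℝ} {o' : ℕ → ℝ}
    (hB : BdL w K p.fp μ o o') (T d : ℕ) :
    w.av T (fun k z => if p.k1 ≤ k then sV2 (w.R k z) (w.nm k z) p.B (w.bV p.fp k) (w.F p.fp k z) (w.Vs p.fp k z)
      (w.Xs p.fp k z) μ o o' d else 0) ≤
      ((4 + 2 * w.K1) * ((w.c.I.h : ℝ) / w.c.I.m)) * (((L * K3 + (L * p.k1 * (T + L * K3) : ℝ) / K3) + p.B) *
        (d * w.c.I.m * Real.log 2)) + T * ((p.B + 1) * (d * w.c.I.m * Real.log 2)) +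
      2 * cM (4 * K) * Real.sqrt (T * ((4 + 2 * w.K1) * ((w.c.I.h : ℝ) / w.c.I.m)) *
        w.av T (fun k z => sK (w.R k z) (w.nm k z) p.B (w.bV p.fp k) (w.F p.fp k z) (allV (w.R k z)) ∅ μ K' o o' d)) := by
  have hlog : 0 ≤ Real.log 2 := Real.log_nonneg (by norm_num)
  have hN := nw_of w hK hμ hb es hs eB w.gd.m1 hr hL h3 T
  have hY := yw_of w h p.fp hg hD T (w.Xs p.fp)
  have main := (wn_of w h (T + L * K3)).v2_win hN hY o o' d
  have hcard := card_labs' (wc1 w) p.B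
  have hq0 : 0 ≤ (d : ℝ) * w.c.I.m * Real.log 2 := by positivity
  refine (left_le w p μ o o' T d).trans (main.trans ?_)
  refine add_le_add (add_le_add (mul_le_mul_of_nonneg_right hcard ?_) le_rfl) (near_le w hK' hB T d)
  exact mul_nonneg (by positivity) hq0

end one

/-! ### the row -/

open Vale.Agent.P106.U.H404.FinR (NX WinA row_of_win)

/-- numerators -/
noncomputable def sXv : NX := fun p μ _ o o' d _ _ w k z =>
  sV2 (w.R k z) (w.nm k z) p.B (w.bV p.fp k) (w.F p.fp k z) (w.Vs p.fp k z) (w.Xs p.fp k z) μ o o' d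

/-- exceptional sums -/
noncomputable def sEv : NX := fun p μ K' o o' d _ _ w k z =>
  sK (w.R k z) (w.nm k z) p.B (w.bV p.fp k) (w.F p.fp k z) (allV (w.R k z)) ∅ μ K' o o' d

/-- the telescope part -/
theorem tel_le {C H m h B d Tc E : ℝ} (hC : 0 ≤ C) (hH : 0 ≤ H) (hm : 0 ≤ m) (hB : 0 ≤ B) (hd : d ≤ B) (hd0 : 0 ≤ d)
    (hT : 0 < Tc) (hE : 0 ≤ E) (hn : ((B + 1) + 1) ^ 4 * (B + 1) * ((C * H * (E + (B + 1)) / Tc + ((B + 1) + 1)) * ((B + 1) * m)) ≤ h) :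
    (C * H) * ((E + B) * (d * m * Real.log 2)) + Tc * ((B + 1) * (d * m * Real.log 2)) ≤ Tc * h / (B + 1) ^ 5 := by
  have hl0 : 0 ≤ Real.log 2 := Real.log_nonneg (by norm_num)
  have hl1 : Real.log 2 ≤ 1 := by
    have := Real.log_le_sub_one_of_pos (show (0 : ℝ) < 2 by norm_num)
    linarith
  have hq : d * m * Real.log 2 ≤ (B + 1) * m := by
    have h1 : d * m * Real.log 2 ≤ d * m * 1 := mul_le_mul_of_nonneg_left hl1 (by positivity)
    have h2 : d * m ≤ (B + 1) * m := mul_le_mul_of_nonneg_right (by linarith) hm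
    linarith
  have hq0 : 0 ≤ d * m * Real.log 2 := by positivity
  set T0 : ℝ := (C * H * (E + (B + 1)) / Tc + ((B + 1) + 1)) * ((B + 1) * m) with hT0
  have h1 : (C * H) * ((E + B) * (d * m * Real.log 2)) + Tc * ((B + 1) * (d * m * Real.log 2)) ≤ Tc * T0 := by
    have e1 : Tc * T0 = (C * H) * ((E + (B + 1)) * ((B + 1) * m)) + Tc * (((B + 1) + 1) * ((B + 1) * m)) := by
      rw [hT0]
      field_simp
    rw [e1]
    have g1 : (E + B) * (d * m * Real.log 2) ≤ (E + (B + 1)) * ((B + 1) * m) :=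
      mul_le_mul (by linarith) hq hq0 (by linarith)
    have g2 : (B + 1) * (d * m * Real.log 2) ≤ ((B + 1) + 1) * ((B + 1) * m) :=
      mul_le_mul (by linarith) hq hq0 (by linarith)
    exact add_le_add (mul_le_mul_of_nonneg_left g1 (by positivity)) (mul_le_mul_of_nonneg_left g2 hT.le)
  refine h1.trans ?_
  rw [mul_div_assoc]
  refine mul_le_mul_of_nonneg_left ?_ hT.le
  rw [le_div_iff₀ (by positivity)]
  have hT00 : 0 ≤ T0 := by
    rw [hT0]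
    positivity
  have g3 : (B + 1) ^ 5 ≤ ((B + 1) + 1) ^ 4 * (B + 1) := by
    have : (B + 1) ^ 4 ≤ ((B + 1) + 1) ^ 4 := pow_le_pow_left₀ (by linarith) (by linarith) 4
    calc (B + 1) ^ 5 = (B + 1) ^ 4 * (B + 1) := by ring
      _ ≤ _ := mul_le_mul_of_nonneg_right this (by linarith)
  calc T0 * (B + 1) ^ 5 ≤ T0 * (((B + 1) + 1) ^ 4 * (B + 1)) := mul_le_mul_of_nonneg_left g3 hT00
    _ = ((B + 1) + 1) ^ 4 * (B + 1) * T0 := by ring
    _ ≤ h := hn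

/-- **row [V2]** from helper470's bad lemma -/
theorem row_v2_of (hB : ∀ (Ω : Type) [Fintype Ω] (w : Win Ω) (Rm : ℕ), w.Ho Rm → ∀ (K : ℝ) (p : H712.Fam.Par) (μ : ℕ)
    (o : Fin 7 → ℝ) (o' : ℕ → ℝ), 1 ≤ p.B → BdL w K p μ o o') : RowV2 := by
  have main : Row FT fun p μ K' o o' Ω _ w k z => ∑ d ∈ range (p.B + 1), sXv p μ K' o o' d Ω w k z /
      S3.F2b (w.R k z) (w.nm k z) p.B μ K' d := by
    refine row_of_win FT sXv sEv (cE := 1) (by norm_num) ?_ ?_ ?_ ?_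
    · intro p μ K' o o' d Ω _ w k z
      exact sV2_nonneg
    · intro p μ K' o o' d Ω _ w k z
      exact sK_nonneg
    · intro p μ K' o o' Ω _ w k z hK
      rw [one_mul]
      unfold o4
      have a1 := cOff_nonneg (R := w.R k z) (p := w.nm k z) (bS := w.bS p.fp k) (μ := μ) (o := o) hK
      have a2 := cOffL_nonneg (R := w.R k z) (p := w.nm k z) (μ := μ) (o := o) (o' := o') hK
      have a3 : ∑ d ∈ range (p.B + 1), sEv p μ K' o o' d Ω w k z / tD (w.R k z) (w.nm k z) μ K' d ≤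
          ∑ d ∈ range (p.B + 1), (cOffK (w.R k z) (w.nm k z) p.B (w.bV p.fp k) (w.F p.fp k z) (allV (w.R k z)) ∅ μ K' o o' d +
            cOffP (w.R k z) (w.nm k z) p.B (w.bV p.fp k) (w.F p.fp k z) (allV (w.R k z)) ∅ μ K' o o' d) := by
        refine Finset.sum_le_sum fun d _ => ?_
        have b2 := cOffP_nonneg (R := w.R k z) (p := w.nm k z) (B := p.B) (bV := w.bV p.fp k) (F := w.F p.fp k z)
          (Vs := allV (w.R k z)) (Xs := ∅) (μ := μ) (o := o) (o' := o') (d := d) hK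
        have e : sEv p μ K' o o' d Ω w k z / tD (w.R k z) (w.nm k z) μ K' d =
          cOffK (w.R k z) (w.nm k z) p.B (w.bV p.fp k) (w.F p.fp k z) (allV (w.R k z)) ∅ μ K' o o' d := rfl
        rw [e]
        linarith
      linarith
    · intro σ hσ K Cψ cc J M Md hc
      have hK1 := hσ.bs.K10
      set CL : ℝ := 4 + 2 * (σ.K1 + 1 / 2) with hCL
      have hCL0 : 0 ≤ CL := by rw [hCL]; linarith
      refine ⟨2 * cM (4 * K) * Real.sqrt CL, mul_nonneg (mul_nonneg (by norm_num) (cM_nn _)) (Real.sqrt_nonneg _), ?_⟩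
      obtain ⟨t, ht⟩ := H118.exists_q2 (A := 192 * K ^ 2)
      refine ⟨1, fun m hm => ⟨1, fun B hB1 => ⟨1, fun g hg => ⟨2, fun D0 hD0 s L hs hL hBL => ⟨0, fun k1 _ => ?_⟩⟩⟩⟩⟩
      obtain ⟨K3, hK3, T0, hT0, HT⟩ := num_tel CL hCL0 (2 * B + L) k1 (B + 1) m (by omega) (by omega)
      refine ⟨T0, fun Tc hTc => ?_⟩
      obtain ⟨h1, hh1, Hh⟩ := HT Tc hTc
      refine ⟨B + t, 0, h1, fun X0 R0 h0 hX hR hh => ?_⟩
      intro Ω _ x oo _ μ hμB hmμ j hj1 hj2 o o' hOff d hd b0 hb0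
      have hb := (x.mem_bs.1 hb0).2
      have hTc0 : (0 : ℝ) < Tc := by
        have : 0 < Tc := by omega
        exact_mod_cast this
      have hmu : μ ≤ B := hμB
      have hrs : B + t ≤ x.c.I.rs := hX.trans x.hX0
      have hq : 192 * K ^ 2 * q2 (x.c.I.rs - μ / 2) ≤ 1 := by
        refine le_trans (mul_le_mul_of_nonneg_left (q2_le (show t ≤ x.c.I.rs - μ / 2 by omega)) (by positivity)) ht
      have hKn : 640 * (8 * (4 * K)) ^ 7 ≤ (2 : ℝ) ^ j := by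
        refine le_trans ?_ hj1
        have hK := hc.hK
        have k0 : (0 : ℝ) ≤ K := by linarith
        have e1 : (640 : ℝ) * (8 * (4 * K)) ^ 7 = 640 * 32 ^ 7 * K ^ 7 := by ring
        have e2 : (100 * K) ^ 20 = (100 : ℝ) ^ 20 * K ^ 7 * K ^ 13 := by ring
        rw [e1, e2]
        have e3 : (1 : ℝ) ≤ K ^ 13 := one_le_pow₀ (by linarith)
        have e4 : (640 : ℝ) * 32 ^ 7 ≤ 100 ^ 20 := by norm_num
        have e5 : 0 ≤ K ^ 7 := by positivity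
        calc (640 : ℝ) * 32 ^ 7 * K ^ 7 ≤ 100 ^ 20 * K ^ 7 := mul_le_mul_of_nonneg_right e4 e5
          _ = 100 ^ 20 * K ^ 7 * 1 := by ring
          _ ≤ 100 ^ 20 * K ^ 7 * K ^ 13 := mul_le_mul_of_nonneg_left e3 (by positivity)
      have one := v2_one (x.win oo b0) (x.ho oo b0) (p := ⟨m, B, g, D0, s, L, k1, Tc⟩) (K := K) (K' := 2 ^ j) (L := 2 * B + L)
        (K3 := K3) (μ := μ) hc.hK hKn hμB hb rfl hs x.eB hq le_rfl hK3 hg hD0 (o := o) (o' := o')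
        (hB Ω (x.win oo b0) x.Rm (x.ho oo b0) K _ μ o o' hB1) Tc d
      have num := Hh x.c.I.h (hh.trans x.hh)
      have em : x.c.I.m = m := x.em
      have hm0 : (0 : ℝ) < m := by
        have : 0 < m := by omega
        exact_mod_cast this
      have eW : ((x.win oo b0).c.I.m : ℝ) = m := by
        show (x.c.I.m : ℝ) = m
        rw [em]
      have eh : ((x.win oo b0).c.I.h : ℝ) = x.c.I.h := rfl
      have eK : (x.win oo b0).K1 = σ.K1 + 1 / 2 := rfl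
      rw [eW, eh, eK, ← hCL] at one
      refine one.trans (add_le_add ?_ ?_)
      · push_cast at num ⊢
        refine tel_le (C := CL) (H := (x.c.I.h : ℝ) / m) (m := m) (B := B) (d := d) (Tc := Tc)
          (E := (2 * (B : ℝ) + L) * K3 + (2 * (B : ℝ) + L) * k1 * (Tc + (2 * (B : ℝ) + L) * K3) / K3) hCL0 (by positivity) hm0.le
          (Nat.cast_nonneg _) (by exact_mod_cast hd) (Nat.cast_nonneg _) hTc0 (by positivity) num
      · have hY : (x.win oo b0).av Tc (fun k z => sK ((x.win oo b0).R k z) ((x.win oo b0).nm k z) B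
            ((x.win oo b0).bV (Par.fp ⟨m, B, g, D0, s, L, k1, Tc⟩) k) ((x.win oo b0).F (Par.fp ⟨m, B, g, D0, s, L, k1, Tc⟩) k z)
            (allV ((x.win oo b0).R k z)) ∅ μ (2 ^ j) o o' d) ≤
            (x.win oo b0).av (2 * Tc) (sEv ⟨m, B, g, D0, s, L, k1, Tc⟩ μ (2 ^ j) o o' d Ω (x.win oo b0)) :=
          Ctx.av_range _ (fun k z => sK_nonneg) (by omega)
        set Y1 := (x.win oo b0).av Tc (fun k z => sK ((x.win oo b0).R k z) ((x.win oo b0).nm k z) B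
            ((x.win oo b0).bV (Par.fp ⟨m, B, g, D0, s, L, k1, Tc⟩) k) ((x.win oo b0).F (Par.fp ⟨m, B, g, D0, s, L, k1, Tc⟩) k z)
            (allV ((x.win oo b0).R k z)) ∅ μ (2 ^ j) o o' d) with hY1
        set Y2 := (x.win oo b0).av (2 * Tc) (sEv ⟨m, B, g, D0, s, L, k1, Tc⟩ μ (2 ^ j) o o' d Ω (x.win oo b0)) with hY2
        have s1 : Real.sqrt (Tc * (CL * ((x.c.I.h : ℝ) / m)) * Y1) ≤ Real.sqrt CL * Real.sqrt (Tc * ((x.c.I.h : ℝ) / m) * Y2) := by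
          rw [← Real.sqrt_mul hCL0]
          refine Real.sqrt_le_sqrt ?_
          have g1 : (0 : ℝ) ≤ Tc * (CL * ((x.c.I.h : ℝ) / m)) := by positivity
          have g2 := mul_le_mul_of_nonneg_left hY g1
          refine g2.trans (le_of_eq ?_)
          ring
        have s2 : (1 : ℝ) ≤ (m : ℝ) + μ + 1 := by
          have : (0 : ℝ) ≤ μ := Nat.cast_nonneg _
          linarith
        have s3 : 0 ≤ 2 * cM (4 * K) := mul_nonneg (by norm_num) (cM_nn _)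
        have s4 := mul_le_mul_of_nonneg_left s1 s3
        refine s4.trans ?_
        have s5 : 0 ≤ 2 * cM (4 * K) * Real.sqrt CL * Real.sqrt (Tc * ((x.c.I.h : ℝ) / m) * Y2) :=
          mul_nonneg (mul_nonneg s3 (Real.sqrt_nonneg _)) (Real.sqrt_nonneg _)
        have s6 := mul_le_mul_of_nonneg_left s2 s5
        calc 2 * cM (4 * K) * (Real.sqrt CL * Real.sqrt (Tc * ((x.c.I.h : ℝ) / m) * Y2))
            = 2 * cM (4 * K) * Real.sqrt CL * Real.sqrt (Tc * ((x.c.I.h : ℝ) / m) * Y2) * 1 := by ring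
          _ ≤ 2 * cM (4 * K) * Real.sqrt CL * Real.sqrt (Tc * ((x.c.I.h : ℝ) / m) * Y2) * ((m : ℝ) + μ + 1) := s6
          _ = 2 * cM (4 * K) * Real.sqrt CL * ((m : ℝ) + μ + 1) * Real.sqrt (Tc * ((x.c.I.h : ℝ) / m) * Y2) := by ring
  exact main

end Vale.Agent.P106.U.H122.V2Fin
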